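import Vale.Agent.P013.Defs2
import Vale.Agent.P006.QGe

namespace Vale.Agent.P013

open Finset Real Filter

open Classical

open Complex MeasureTheory P006 in
theorem An1_step {K X : ℝ} (hK : 1 ≤ K) (hX : 0 < X) {b : ℕ → ℂ} (h0 : b 0 = 0)
    (hb : Summable fun n => ‖b n‖ * (n : ℝ) ^ (-2 : ℝ)) :
    ∑' n : ℕ, b n * WK K 0 (n / X) = 1 / (2 * π) * ∫ τ : ℝ, qgW K X ((2 : ℝ) + τ * Complex.I) *
      ∑' n : ℕ, b n * ((n : ℝ) : ℂ) ^ (-((2 : ℝ) + τ * Complex.I)) := by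
  have hi := qgW_int hK hX
  have np : ∀ {n : ℕ}, n ≠ 0 → (0 : ℝ) < n := fun h => by exact_mod_cast Nat.pos_of_ne_zero h
  have hn : ∀ (n : ℕ) (τ : ℝ), ‖qgW K X ((2 : ℝ) + τ * Complex.I) *
      (b n * ((n : ℝ) : ℂ) ^ (-((2 : ℝ) + τ * Complex.I)))‖ =
      ‖qgW K X ((2 : ℝ) + τ * Complex.I)‖ * (‖b n‖ * (n : ℝ) ^ (-2 : ℝ)) := by
    intro n τ
    by_cases h : n = 0
    · simp [h, h0]
    · rw [norm_mul, norm_mul, norm_cpow_eq_rpow_re_of_pos (np h)]
      simp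
  have h := hasSum_integral_of_summable_integral_norm
    (F := fun (n : ℕ) (τ : ℝ) => qgW K X ((2 : ℝ) + τ * Complex.I) *
      (b n * ((n : ℝ) : ℂ) ^ (-((2 : ℝ) + τ * Complex.I)))) (μ := volume) (fun n => by
      by_cases h : n = 0
      · simp [h, h0]
      · refine (hi.norm.mul_const (‖b n‖ * (n : ℝ) ^ (-2 : ℝ))).mono' (hi.1.mul
          (Continuous.aestronglyMeasurable (continuous_const.mul ?_)))
          (.of_forall fun τ => (hn n τ).le)
        exact Continuous.const_cpow (by fun_prop) (Or.inl (ofReal_ne_zero.2 (np h).ne')))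
    (by simp only [hn, integral_mul_const]; exact hb.mul_left _)
  simp only [tsum_mul_left] at h
  rw [← h.tsum_eq, ← tsum_mul_left]
  refine tsum_congr fun n => ?_
  by_cases h : n = 0
  · simp [h, h0]
  · rw [qgW_inv (by linarith) hX (np h), mul_left_comm, ← integral_const_mul (b n)]
    simp only [mul_left_comm (b n)]

theorem an_smooth {K X B σ : ℝ} (hK : 1 ≤ K) (hX : 0 < X) (hB : 0 ≤ B) (h0 : 0 ≤ σ) (h1 : σ ≤ 1)
    {H : ℂ → ℂ} (hH : ∀ s : ℂ, σ ≤ s.re → s.re ≤ 2 →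
      DifferentiableAt ℂ H s ∧ ‖H s‖ ≤ B * (1 + |s.im|)) {b : ℕ → ℂ} (hb0 : b 0 = 0)
    (hb : Summable fun n => ‖b n‖ * (n : ℝ) ^ (-2 : ℝ)) {j : ℝ} (j0 : 0 ≤ j) (j1 : j ≤ 1)
    (hD : ∀ s : ℂ, s.re = 2 → LSeries b s = j / (s - 1) + H s) :
    ‖∑' n : ℕ, b n * P006.WK K 0 (n / X) -
      ((j * (X * (√π / K * Real.exp (1 / (4 * K ^ 2)))) : ℝ) : ℂ)‖ ≤
      (60 * B + 6) * K * X ^ σ := by
  obtain ⟨i1, i2⟩ := P006.qg_step3 hK hX hB h0 h1 hH
  have hD' : ∀ s : ℂ, s.re = 2 →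
      ∑' n : ℕ, b n * ((n : ℝ) : ℂ) ^ (-s) = j / (s - 1) + H s := fun s hs => by
    rw [← hD s hs, LSeries]
    refine tsum_congr fun n => ?_
    rw [LSeries.term_def₀ hb0, Complex.ofReal_natCast]
  have i3 : MeasureTheory.Integrable fun τ : ℝ =>
      P006.qgW K X ((2 : ℝ) + τ * Complex.I) * (1 / ((2 : ℝ) + τ * Complex.I - 1)) := by
    refine (P006.qgW_int hK hX).mul_bdd (c := 1) (Measurable.aestronglyMeasurable (by fun_prop))
      (.of_forall fun τ => ?_)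
    rw [norm_div, norm_one]
    refine div_le_one_of_le₀ (le_trans ?_ ((le_abs_self _).trans (Complex.abs_re_le_norm _)))
      (norm_nonneg _)
    simp
    norm_num
  rw [An1_step hK hX hb0 hb]
  have e : ∀ τ : ℝ, P006.qgW K X ((2 : ℝ) + τ * Complex.I) *
      ∑' n : ℕ, b n * ((n : ℝ) : ℂ) ^ (-((2 : ℝ) + τ * Complex.I)) =
      j * (P006.qgW K X ((2 : ℝ) + τ * Complex.I) * (1 / ((2 : ℝ) + τ * Complex.I - 1))) +
        P006.qgW K X ((2 : ℝ) + τ * Complex.I) * H ((2 : ℝ) + τ * Complex.I) := fun τ => by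
    rw [hD' _ (by simp)]; ring
  simp only [e]
  rw [MeasureTheory.integral_add (i3.const_mul _) i1, MeasureTheory.integral_const_mul, mul_add,
    mul_left_comm, ← P006.qg_step2 hK hX, add_sub_right_comm, Complex.ofReal_mul, ← mul_sub]
  refine (norm_add_le _ _).trans ?_
  rw [norm_mul, Complex.norm_real, Real.norm_of_nonneg j0]
  have h2 := P006.qg_main hK hX h0 h1
  have h3 := mul_le_of_le_one_left (norm_nonneg _) j1 |>.trans h2
  have h4 : 0 ≤ X ^ σ := by positivity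
  nlinarith

end Vale.Agent.P013
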