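import Vale.Agent.P013.An1
import Vale.Agent.P006.QGf

namespace Vale.Agent.P013

open Finset Real Filter

open Classical

theorem An2_thin {ε : ℝ} (hε : 0 < ε) : ∃ A : ℝ, 0 < A ∧ ∀ (K Y : ℝ), 1 ≤ K → 1 ≤ Y →
    Summable (fun k : ℕ => (k : ℝ) ^ ε * Real.exp (-(K ^ 2 * Real.log (k / Y) ^ 2))) ∧
    ∑' k : ℕ, (k : ℝ) ^ ε * Real.exp (-(K ^ 2 * Real.log (k / Y) ^ 2)) ≤
      A * Y ^ ε * (Y / K + 1) := by
  obtain ⟨A, hA⟩ : ∃ A, A = 4 * Real.exp ((ε + 2) ^ 2 / 2) := ⟨_, rfl⟩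
  have A0 : 0 < A := by rw [hA]; positivity
  refine ⟨A * 4, by positivity, fun K Y hK hY => ?_⟩
  obtain ⟨L, hL⟩ : ∃ L, L = Y / K + 1 := ⟨_, rfl⟩
  have Y0 : 0 < Y := by linarith
  have K0 : 0 < K := by linarith
  have L1 : 1 ≤ L := by rw [hL]; exact le_add_of_nonneg_left (by positivity)
  have L0 : 0 < L := by linarith
  have pt : ∀ k : ℕ, (k : ℝ) ^ ε * Real.exp (-(K ^ 2 * Real.log (k / Y) ^ 2)) ≤
      Y ^ ε * A * L * (L / (L + |(k : ℝ) - Y|) ^ 2) := by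
    intro k
    rcases Nat.eq_zero_or_pos k with rfl | hk
    · rw [Nat.cast_zero, Real.zero_rpow hε.ne', zero_mul]
      positivity
    have k0 : (0 : ℝ) < k := by exact_mod_cast hk
    have t0 := div_pos k0 Y0
    have h := P006.thin_pt (b := ε) (b0 := ε) (abs_of_pos hε).le hK t0
    rw [← hA] at h
    have e1 : (k : ℝ) ^ ε * Real.exp (-(K ^ 2 * Real.log (k / Y) ^ 2)) = Y ^ ε *
        Real.exp (ε * Real.log (k / Y) - K ^ 2 * Real.log (k / Y) ^ 2) := by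
      rw [Real.rpow_def_of_pos k0, Real.rpow_def_of_pos Y0, ← Real.exp_add, ← Real.exp_add,
        Real.log_div k0.ne' Y0.ne']
      congr 1
      ring
    have e2 : (L + |(k : ℝ) - Y|) / L ≤ 1 + K * |k / Y - 1| := by
      have : K * |k / Y - 1| = |(k : ℝ) - Y| / (Y / K) := by
        rw [div_sub_one Y0.ne', abs_div, abs_of_pos Y0]
        field_simp
      rw [add_div, div_self L0.ne', this]
      gcongr
      linarith
    rw [e1, mul_assoc, mul_assoc]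
    refine mul_le_mul_of_nonneg_left ?_ (by positivity)
    have e3 : L * (L / (L + |(k : ℝ) - Y|) ^ 2) = 1 / ((L + |(k : ℝ) - Y|) / L) ^ 2 := by
      field_simp
    rw [e3, mul_one_div, le_div_iff₀ (by positivity)]
    refine le_trans ?_ h
    gcongr
  have nn : ∀ k : ℕ, 0 ≤ (k : ℝ) ^ ε * Real.exp (-(K ^ 2 * Real.log (k / Y) ^ 2)) :=
    fun k => by positivity
  have key : ∀ M : ℕ, ∑ k ∈ Finset.range M,
      (k : ℝ) ^ ε * Real.exp (-(K ^ 2 * Real.log (k / Y) ^ 2)) ≤ A * 4 * Y ^ ε * (Y / K + 1) := by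
    intro M
    calc _ ≤ ∑ k ∈ Finset.range M, Y ^ ε * A * L * (L / (L + |(k : ℝ) - Y|) ^ 2) :=
          Finset.sum_le_sum fun k _ => pt k
      _ ≤ Y ^ ε * A * L * 4 := by
          rw [← Finset.mul_sum]
          gcongr
          exact P006.thin_sum L1 Y _
      _ = _ := by rw [hL]; ring
  exact ⟨summable_of_sum_range_le nn key, Real.tsum_le_of_sum_range_le nn key⟩

theorem An2_b_le {b : ℕ → ℂ} (hb : ∀ n, ‖b n‖ ≤ 1 + log n) {ε : ℝ} (hε : 0 < ε)
    {n : ℕ} (hn : n ≠ 0) : ‖b n‖ ≤ (1 + 1 / ε) * (n : ℝ) ^ ε := by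
  have n1 : (1 : ℝ) ≤ n := by exact_mod_cast Nat.one_le_iff_ne_zero.2 hn
  have h1 := Real.log_le_rpow_div (x := n) (by linarith) hε
  have h2 := Real.one_le_rpow n1 hε.le
  refine (hb n).trans ?_
  rw [add_mul, one_mul, one_div_mul_eq_div]
  linarith

theorem An2_b_summ {b : ℕ → ℂ} (h0 : b 0 = 0) (hb : ∀ n, ‖b n‖ ≤ 1 + log n) :
    Summable fun n => ‖b n‖ * (n : ℝ) ^ (-2 : ℝ) := by
  refine ((Real.summable_nat_rpow.2 (show (-3 / 2 : ℝ) < -1 by norm_num)).mul_left 3).of_nonneg_of_le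
    (fun n => by positivity) fun n => ?_
  by_cases hn : n = 0
  · rw [hn, h0, norm_zero, zero_mul]; positivity
  · have n0 : (0 : ℝ) < n := by exact_mod_cast Nat.pos_of_ne_zero hn
    calc _ ≤ (1 + 1 / (1 / 2)) * (n : ℝ) ^ (1 / 2 : ℝ) * (n : ℝ) ^ (-2 : ℝ) := by
          gcongr; exact An2_b_le hb (by norm_num) hn
      _ = 3 * ((n : ℝ) ^ (1 / 2 : ℝ) * (n : ℝ) ^ (-2 : ℝ)) := by ring
      _ = _ := by rw [← Real.rpow_add n0]; norm_num

open MeasureTheory Complex P006 P026 in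
theorem An2_fub {K y : ℝ} (hK : 1 ≤ K) (hy : 0 < y) {b : ℕ → ℂ} (h0 : b 0 = 0)
    (hb : Summable fun n => ‖b n‖ * (n : ℝ) ^ (-2 : ℝ)) :
    HasSum (fun n : ℕ => b n * ((∫ u in Set.Iic (0 : ℝ),
      Real.exp (-K ^ 2 * (Real.log (n / y) - u) ^ 2) : ℝ) : ℂ))
      (∫ u in Set.Iic (0 : ℝ), ∑' n : ℕ, b n * WK K 0 (n / (y * Real.exp u))) := by
  have K0 : 0 < K := by linarith
  obtain ⟨C, hC, h⟩ := WK_le (-2) 0
  have e : ∀ n : ℕ, (fun u => b n * WK K 0 (n / (y * Real.exp u))) = fun u =>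
      b n * ((Real.exp (-K ^ 2 * (Real.log (n / y) - u) ^ 2) : ℝ) : ℂ) := fun n => by
    by_cases hn : n = 0
    · simp [hn, h0]
    · exact funext fun u => by
        rw [qg_WK_shift K (by exact_mod_cast Nat.pos_of_ne_zero hn) hy]
  have i2 := integrableOn_exp_mul_Iic (a := 2) two_pos 0
  have hs := hasSum_integral_of_summable_integral_norm (μ := volume.restrict (Set.Iic (0 : ℝ)))
    (F := fun (n : ℕ) (u : ℝ) => b n * WK K 0 (n / (y * Real.exp u))) (fun n => by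
      rw [e]
      exact ((qg_gi K0 _).ofReal.const_mul _).integrableOn) (by
      refine (hb.mul_left (C * y ^ (2 : ℝ) * ∫ u in Set.Iic (0 : ℝ), Real.exp (2 * u))).of_nonneg_of_le
        (fun n => integral_nonneg fun _ => norm_nonneg _) fun n => ?_
      rw [mul_right_comm, ← integral_const_mul]
      refine integral_mono_of_nonneg (.of_forall fun _ => norm_nonneg _) (i2.const_mul _)
        (.of_forall fun u => ?_)
      by_cases hn : n = 0
      · simp [hn, h0]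
      · have n0 : (0 : ℝ) < n := by exact_mod_cast Nat.pos_of_ne_zero hn
        have h1 := h K 0 (n / (y * Real.exp u)) hK (by simp) (by positivity)
        rw [wb_div n0.le (by positivity), Real.mul_rpow hy.le (Real.exp_pos u).le,
          ← Real.exp_mul, mul_comm u] at h1
        simp only [norm_mul]
        calc _ ≤ ‖b n‖ * (C * (y ^ (2 : ℝ) * Real.exp (2 * u) * (n : ℝ) ^ (-2 : ℝ))) := by gcongr
          _ = _ := by ring)
  simpa only [e, integral_const_mul, integral_complex_ofReal] using hs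

open MeasureTheory Complex P006 in
theorem An2_sharp {σ : ℝ} (h0 : 1 / 2 ≤ σ) (h1 : σ < 1) : ∃ C : ℝ, 0 < C ∧
    ∀ (B j y : ℝ) (b : ℕ → ℂ), 0 ≤ B → 0 ≤ j → j ≤ 1 → 1 ≤ y →
    b 0 = 0 → (∀ n, ‖b n‖ ≤ 1 + Real.log n) →
    (∀ K X : ℝ, 1 ≤ K → 0 < X → ‖∑' n : ℕ, b n * WK K 0 (n / X) -
      ((j * (X * (√π / K * Real.exp (1 / (4 * K ^ 2)))) : ℝ) : ℂ)‖ ≤ B * K * X ^ σ) →
    ‖∑ n ∈ Icc 1 ⌊y⌋₊, b n - ((j * y : ℝ) : ℂ)‖ ≤ C * (B + 1) * y ^ (1 - (1 - σ) / 8) := by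
  obtain ⟨ε, hε⟩ : ∃ ε, ε = (1 - σ) / 8 := ⟨_, rfl⟩
  have e0 : 0 < ε := by rw [hε]; linarith
  have s0 : 0 < σ := by linarith
  rw [← hε]
  obtain ⟨C, hC, hW⟩ := An2_thin e0
  obtain ⟨C', hC'⟩ : ∃ C', C' = 2 * (1 + 1 / ε) * C := ⟨_, rfl⟩
  have C'0 : 0 < C' := by rw [hC']; positivity
  refine ⟨C' + 3, by positivity, fun B j y b hB j0 j1 hy h0 hb hT => ?_⟩
  have y0 : 0 < y := by linarith
  have p1 : 1 ≤ √π := Real.one_le_sqrt.2 (by linarith [Real.pi_gt_three])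
  set K := y ^ (2 * ε) with hKd
  have hK : 1 ≤ K := Real.one_le_rpow hy (by positivity)
  have K0 : 0 < K := by linarith
  have hs := (An2_fub hK y0 h0 (An2_b_summ h0 hb)).mul_left ((K / √π : ℝ) : ℂ)
  set T : ℝ → ℂ := fun u => ∑' n : ℕ, b n * WK K 0 (n / (y * Real.exp u)) with hTd
  set c : ℝ := j * (y * (√π / K * Real.exp (1 / (4 * K ^ 2)))) with hc
  have i1 := integrableOn_exp_mul_Iic (a := σ) s0 0
  have i2 : IntegrableOn (fun u : ℝ => ((c * Real.exp u : ℝ) : ℂ)) (Set.Iic 0) :=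
    ((integrableOn_exp_Iic 0).const_mul c).ofReal
  have b1 : ∀ u : ℝ, ‖T u - ((c * Real.exp u : ℝ) : ℂ)‖ ≤
      B * K * y ^ σ * Real.exp (σ * u) := fun u => by
    have := hT K (y * Real.exp u) hK (by positivity)
    rw [Real.mul_rpow y0.le (Real.exp_pos u).le, ← Real.exp_mul, mul_comm u,
      ← mul_assoc (B * K)] at this
    have e : c * Real.exp u =
        j * (y * Real.exp u * (√π / K * Real.exp (1 / (4 * K ^ 2)))) := by rw [hc]; ring
    rw [e]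
    exact this
  have m1 : Measurable T := Measurable.tsum fun n => by unfold WK; fun_prop
  have i3 : IntegrableOn (fun u => T u - ((c * Real.exp u : ℝ) : ℂ)) (Set.Iic 0) :=
    (i1.const_mul _).mono' (m1.aestronglyMeasurable.sub i2.1) (.of_forall b1)
  have e1 : ∫ u in Set.Iic (0 : ℝ), T u =
      (∫ u in Set.Iic (0 : ℝ), (T u - ((c * Real.exp u : ℝ) : ℂ))) + (c : ℂ) := by
    have := integral_add i3 i2
    simp only [sub_add_cancel] at this
    rw [this, integral_complex_ofReal, integral_const_mul, integral_exp_Iic_zero, mul_one]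
  have b2 := norm_integral_le_of_norm_le (i1.const_mul _) (.of_forall b1)
    (μ := volume.restrict (Set.Iic (0 : ℝ)))
  rw [integral_const_mul, integral_exp_mul_Iic s0, mul_zero, Real.exp_zero] at b2
  obtain ⟨s1, s2⟩ := hW K y hK hy
  have hf := hasSum_sum_of_ne_finset_zero (s := Icc 1 ⌊y⌋₊)
    (f := fun n => if n ∈ Icc 1 ⌊y⌋₊ then b n else 0)
    (fun n hn => if_neg hn) (L := .unconditional ℕ)
  rw [Finset.sum_congr rfl fun n hn => if_pos hn] at hf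
  have b3 := (hs.sub hf).norm_le_of_bounded (s1.mul_left (1 + 1 / ε)).hasSum
    (fun n => by
      by_cases hn : n = 0
      · simp [hn, h0, e0.ne']
      · have n0 : (0 : ℝ) < n := by exact_mod_cast Nat.pos_of_ne_zero hn
        have a1 := qg_phi_approx K0 (Real.log (n / y))
        have a2 : (if n ∈ Icc 1 ⌊y⌋₊ then b n else 0) =
            b n * ((if Real.log (n / y) ≤ 0 then 1 else 0 : ℝ) : ℂ) := by
          have : n ∈ Icc 1 ⌊y⌋₊ ↔ Real.log (n / y) ≤ 0 := by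
            rw [Finset.mem_Icc, Real.log_nonpos_iff (by positivity), div_le_one y0,
              Nat.le_floor_iff y0.le]
            exact ⟨fun h => h.2, fun h => ⟨Nat.one_le_iff_ne_zero.2 hn, h⟩⟩
          simp only [this]
          split_ifs <;> simp
        rw [a2, mul_left_comm, ← mul_sub, norm_mul, ← ofReal_mul, ← ofReal_sub, norm_real,
          ← mul_assoc]
        exact mul_le_mul (An2_b_le hb e0 hn) a1 (abs_nonneg _) (by positivity))
  rw [tsum_mul_left, e1] at b3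
  have b4 : |K / √π * c - j * y| ≤ y / K := by
    have a0 : 0 ≤ 1 / (4 * K ^ 2) := by positivity
    have a1 : 1 / (4 * K ^ 2) ≤ 1 := by rw [div_le_one (by positivity)]; nlinarith
    have a2 := Real.abs_exp_sub_one_le (x := 1 / (4 * K ^ 2)) (by rwa [abs_of_nonneg a0])
    have a3 : K / √π * c - j * y = j * (y * (Real.exp (1 / (4 * K ^ 2)) - 1)) := by
      rw [hc]; field_simp
    rw [abs_of_nonneg a0] at a2
    have a4 : 2 * (1 / (4 * K ^ 2)) ≤ 1 / K := by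
      rw [mul_one_div, div_le_div_iff₀ (by positivity) K0]; nlinarith
    rw [a3, abs_mul, abs_mul, abs_of_nonneg j0, abs_of_pos y0]
    calc _ ≤ 1 * (y * (1 / K)) := by gcongr; exact a2.trans a4
      _ = _ := by ring
  have e2 : ∑ n ∈ Icc 1 ⌊y⌋₊, b n - ((j * y : ℝ) : ℂ) =
      ((K / √π : ℝ) : ℂ) * (∫ u in Set.Iic (0 : ℝ), (T u - ((c * Real.exp u : ℝ) : ℂ))) +
        ((K / √π * c - j * y : ℝ) : ℂ) - (((K / √π : ℝ) : ℂ) *
        ((∫ u in Set.Iic (0 : ℝ), (T u - ((c * Real.exp u : ℝ) : ℂ))) + (c : ℂ)) -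
          ∑ n ∈ Icc 1 ⌊y⌋₊, b n) := by push_cast; ring
  have r1 : K * K * y ^ σ ≤ y ^ (1 - ε) := by
    rw [hKd, ← Real.rpow_add y0, ← Real.rpow_add y0]
    exact Real.rpow_le_rpow_of_exponent_le hy (by linarith)
  have r2 : y / K = y ^ (1 - 2 * ε) := by rw [hKd, Real.rpow_sub y0, Real.rpow_one]
  have r3 : y / K ≤ y ^ (1 - ε) := by
    rw [r2]; exact Real.rpow_le_rpow_of_exponent_le hy (by linarith)
  have r4 : y ^ ε * (y / K) = y ^ (1 - ε) := by
    rw [r2, ← Real.rpow_add y0]; congr 1; ring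
  have r5 : 1 ≤ y / K := by rw [r2]; exact Real.one_le_rpow hy (by linarith)
  have b5 : ‖((K / √π : ℝ) : ℂ) * (∫ u in Set.Iic (0 : ℝ), (T u - ((c * Real.exp u : ℝ) : ℂ)))‖ ≤
      2 * B * y ^ (1 - ε) := by
    rw [norm_mul, norm_real, Real.norm_of_nonneg (by positivity)]
    have a1 : 1 / σ ≤ 2 := by rw [div_le_iff₀ s0]; linarith
    calc _ ≤ K * (B * K * y ^ σ * 2) := by
          gcongr
          · exact div_le_self K0.le p1
          · exact b2.trans (by gcongr)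
      _ = 2 * B * (K * K * y ^ σ) := by ring
      _ ≤ _ := by gcongr
  have b6 := b3.trans (mul_le_mul_of_nonneg_left (s2.trans (mul_le_mul_of_nonneg_left
    (show y / K + 1 ≤ 2 * (y / K) by linarith) (by positivity))) (by positivity))
  have e3 : (1 + 1 / ε) * (C * y ^ ε * (2 * (y / K))) = C' * y ^ (1 - ε) := by
    rw [← r4, hC']; ring
  rw [e3] at b6
  rw [e2]
  refine (norm_sub_le _ _).trans ((add_le_add (norm_add_le _ _) b6).trans ?_)
  rw [norm_real, Real.norm_eq_abs]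
  have : 0 ≤ y ^ (1 - ε) := by positivity
  have : 0 ≤ C' * B * y ^ (1 - ε) := by positivity
  have : 0 ≤ B * y ^ (1 - ε) := by positivity
  nlinarith

theorem an_sharp {σ : ℝ} (h0 : 1 / 2 ≤ σ) (h1 : σ < 1) : ∃ δ C : ℝ, 0 < δ ∧ δ ≤ 1 / 4 ∧ 0 < C ∧
    ∀ (B j y : ℝ) (b : ℕ → ℂ) (H : ℂ → ℂ), 0 ≤ B → 0 ≤ j → j ≤ 1 → 1 ≤ y → b 0 = 0 →
    (∀ n, ‖b n‖ ≤ 1 + log n) →
    (∀ s : ℂ, σ ≤ s.re → s.re ≤ 2 → DifferentiableAt ℂ H s ∧ ‖H s‖ ≤ B * (1 + |s.im|)) →
    (∀ s : ℂ, s.re = 2 → LSeries b s = j / (s - 1) + H s) →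
    ‖∑ n ∈ Icc 1 ⌊y⌋₊, b n - ((j * y : ℝ) : ℂ)‖ ≤ C * (B + 1) * y ^ (1 - δ) := by
  obtain ⟨C, hC, h⟩ := An2_sharp h0 h1
  refine ⟨(1 - σ) / 8, 60 * C, by linarith, by linarith, by positivity,
    fun B j y b H hB j0 j1 hy hb0 hb hH hD => ?_⟩
  refine (h (60 * B + 6) j y b (by positivity) j0 j1 hy hb0 hb fun K X hK hX =>
    an_smooth hK hX hB (by linarith) h1.le hH hb0 (An2_b_summ hb0 hb) j0 j1 hD).trans ?_
  have h2 : 0 ≤ y ^ (1 - (1 - σ) / 8) := by positivity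
  refine mul_le_mul_of_nonneg_right ?_ h2
  nlinarith

end Vale.Agent.P013
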