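import Vale.Agent.P013.Defs2
import Vale.Agent.P006.QGa
import Vale.Agent.P319.AN

namespace Vale.Agent.P013

open Finset Real Filter

open Classical

theorem An3_low : ∃ m : ℝ, 0 < m ∧ m ≤ 1 ∧ ∀ (q : ℕ) [NeZero q] (χ : DirichletCharacter ℂ q)
    (s : ℂ), s.re = 3 / 2 → m ≤ ‖DirichletCharacter.LFunction χ s‖ := by
  have h2 : 1 < (3 / 2 : ℂ).re := by norm_num
  have hs : Summable fun n => ‖LSeries.term 1 (3 / 2) n‖ :=
    (show Summable _ from LSeriesSummable_one_iff.2 h2).norm
  set C : ℝ := ∑' n, ‖LSeries.term 1 (3 / 2) n‖ with hC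
  have C0 : 0 ≤ C := tsum_nonneg fun _ => norm_nonneg _
  refine ⟨1 / (C + 1), by positivity, by rw [div_le_one (by positivity)]; linarith,
    fun q _ χ s hs1 => ?_⟩
  have h3 : 1 < s.re := by rw [hs1]; norm_num
  have h := congrArg norm (DirichletCharacter.LSeries.mul_mu_eq_one χ h3)
  rw [norm_mul, norm_one, ← DirichletCharacter.LFunction_eq_LSeries χ h3] at h
  have h4 : ‖LSeries ((fun n : ℕ => χ n) * fun n : ℕ => (ArithmeticFunction.moebius n : ℂ)) s‖ ≤
      C := by
    refine tsum_of_norm_bounded hs.hasSum fun n => ?_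
    have e : (3 / 2 : ℂ).re = 3 / 2 := by norm_num
    rw [LSeries.norm_term_eq, LSeries.norm_term_eq, hs1, e]
    split_ifs with hn
    · exact le_rfl
    · gcongr
      rw [Pi.mul_apply, norm_mul, Pi.one_apply, norm_one]
      refine mul_le_one₀ (χ.norm_le_one _) (norm_nonneg _) ?_
      rw [Complex.norm_intCast]
      exact_mod_cast ArithmeticFunction.abs_moebius_le_one
  rw [div_le_iff₀ (by positivity)]
  have h5 := mul_le_mul_of_nonneg_left h4 (norm_nonneg (DirichletCharacter.LFunction χ s))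
  have h6 := norm_nonneg (DirichletCharacter.LFunction χ s)
  nlinarith

theorem An3_norm (s : ℂ) : ‖s‖ ≤ |s.re| + |s.im| := Complex.norm_le_abs_re_add_abs_im s

theorem an_ld_chi : ∃ C : ℝ, 0 < C ∧ ∀ (q : ℕ) [NeZero q] (χ : DirichletCharacter ℂ q), χ ≠ 1 →
    ∃ H : ℂ → ℂ, (∀ s : ℂ, 1999 / 2000 ≤ s.re → s.re ≤ 2 →
      DifferentiableAt ℂ H s ∧ ‖H s‖ ≤ C * (1 + log q) * (1 + |s.im|)) ∧
    ∀ s : ℂ, s.re = 2 →
      LSeries (fun n : ℕ => χ n * (ArithmeticFunction.vonMangoldt n : ℂ)) s = H s := by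
  obtain ⟨m, m0, m1, hm⟩ := An3_low
  have lm : log m ≤ 0 := log_nonpos m0.le m1
  have l6 : 0 ≤ log 6 := log_nonneg (by norm_num)
  refine ⟨20000000 * (log 6 - log m + 5), by linarith, fun q _ χ hχ => ?_⟩
  have q1 : (1 : ℝ) ≤ q := by exact_mod_cast Nat.one_le_iff_ne_zero.2 (NeZero.ne q)
  have hd := DirichletCharacter.differentiable_LFunction hχ
  refine ⟨fun s => -(deriv (DirichletCharacter.LFunction χ) s / DirichletCharacter.LFunction χ s),
    fun s h1 h2 => ⟨?_, ?_⟩, fun s hs => ?_⟩
  · exact (((hd.analyticAt s).deriv.differentiableAt).div (hd s)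
      (P319.an_L hχ (by linarith))).neg
  · rw [norm_neg]
    refine (P006.qg_strip (B := 6 * q) (by linarith) m0 m1 (fun z _ _ => hd z)
      (fun z a1 _ => P319.an_L hχ a1) (fun z a1 a2 => ?_) (hm q χ) h1 h2).trans ?_
    · refine (P319.an_growth hχ (by linarith)).trans ?_
      have b1 := An3_norm z
      rw [abs_of_pos (by linarith : 0 < z.re)] at b1
      have b2 := Real.add_one_le_exp (5 * |z.im|)
      have b3 := abs_nonneg z.im
      have b4 : ((q : ℝ) + 1) / z.re ≤ 12 / 5 * q := by
        rw [div_le_iff₀ (by linarith)]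
        nlinarith
      calc ‖z‖ * (((q : ℝ) + 1) / z.re) ≤ (5 / 2 * Real.exp (5 * |z.im|)) * (12 / 5 * q) := by
            refine mul_le_mul (by linarith) b4 (by positivity) (by positivity)
        _ = _ := by ring
    · rw [Real.log_mul (by norm_num) (by linarith)]
      have a1 := Real.log_nonneg q1
      have a2 := abs_nonneg s.im
      have a3 : 0 ≤ log 6 - log m := by linarith
      have a4 := mul_nonneg a3 a1
      have a5 := mul_nonneg a3 a2
      have a6 := mul_nonneg a1 a2
      have a7 := mul_nonneg a3 a6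
      nlinarith
  · have := P319.an_ld χ (z := s) (by rw [hs]; norm_num)
    simp only
    rw [this, neg_neg]
    rfl

open MeasureTheory Complex Asymptotics Set Metric in
theorem An3_growth {s : ℂ} (hs : 0 < s.re) :
    ‖DirichletCharacter.LFunctionTrivChar₁ 1 s‖ ≤ ‖s‖ + ‖s‖ * ‖s - 1‖ * (1 / s.re) := by
  set S : ℝ → ℂ := fun t => if 1 ≤ t then ((t - (⌊t⌋₊ : ℝ) : ℝ) : ℂ) else 0 with hS
  have hSb : ∀ t, ‖S t‖ ≤ 1 := fun t => by
    simp only [hS]
    split_ifs with h
    · rw [norm_real, Real.norm_eq_abs, abs_le]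
      have h1 := Nat.floor_le (show 0 ≤ t by linarith)
      have h2 := Nat.lt_floor_add_one t
      constructor <;> linarith
    · simp
  have hSm : Measurable S := by
    refine Measurable.ite measurableSet_Ici ?_ measurable_const
    exact Complex.measurable_ofReal.comp (measurable_id.sub
      ((measurable_from_top (f := fun n : ℕ => (n : ℝ))).comp Nat.measurable_floor))
  have hS0 : ∀ t < 1, S t = 0 := fun t ht => by
    simp only [hS]
    rw [if_neg (not_le.2 ht)]
  have hm : ∀ w : ℂ, mellin S (-w) = ∫ t in Ioi (1 : ℝ), S t * (t : ℂ) ^ (-(w + 1)) := by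
    intro w
    rw [mellin, ← integral_Ici_eq_integral_Ioi (x := (1 : ℝ)),
      setIntegral_eq_of_subset_of_forall_sdiff_eq_zero (s := Ici (1 : ℝ)) (t := Ioi 0)
        measurableSet_Ioi (Ici_subset_Ioi.2 one_pos)]
    · refine setIntegral_congr_fun measurableSet_Ici fun t _ => ?_
      rw [smul_eq_mul, mul_comm]
      congr 2
      ring
    · intro t ht
      rw [hS0 t (not_le.1 ht.2), smul_zero]
  have hloc : LocallyIntegrableOn S (Ioi 0) := by
    refine LocallyIntegrable.locallyIntegrableOn (fun x => ?_) _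
    refine ⟨ball x 1, ball_mem_nhds x one_pos, ?_⟩
    exact Measure.integrableOn_of_bounded (M := 1) measure_ball_lt_top.ne
      hSm.aestronglyMeasurable (Eventually.of_forall hSb)
  have hdiff : ∀ w : ℂ, 0 < w.re →
      DifferentiableAt ℂ (fun w => w - w * (w - 1) * mellin S (-w)) w := by
    intro w hw
    refine differentiableAt_id.sub ((differentiableAt_id.mul (differentiableAt_id.sub_const 1)).mul
      (DifferentiableAt.comp w (g := mellin S) ?_ (by fun_prop)))
    refine mellin_differentiableAt_of_isBigO_rpow (a := 0) (b := -w.re - 1) hloc ?_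
      (by simpa using hw) ?_ (by simp)
    · refine IsBigO.of_bound 1 (Eventually.of_forall fun t => ?_)
      simpa using hSb t
    · refine IsBigO.of_bound 0 ?_
      filter_upwards [Ioo_mem_nhdsGT one_pos] with t ht
      simp [hS0 t ht.2]
  have hint : ∀ w : ℂ, 0 < w.re →
      IntegrableOn (fun t : ℝ => S t * (t : ℂ) ^ (-(w + 1))) (Ioi 1) := by
    intro w hw
    have i1 := integrableOn_Ioi_cpow_of_lt (a := -(w + 1)) (by simp; linarith) one_pos
    exact Integrable.bdd_mul (c := 1) i1 hSm.aestronglyMeasurable (Eventually.of_forall hSb)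
  have ho : IsOpen {w : ℂ | 0 < w.re} := isOpen_lt continuous_const continuous_re
  have heq : EqOn (DirichletCharacter.LFunctionTrivChar₁ 1)
      (fun w => w - w * (w - 1) * mellin S (-w)) {w : ℂ | 0 < w.re} := by
    refine AnalyticOnNhd.eqOn_of_preconnected_of_eventuallyEq (𝕜 := ℂ) (z₀ := 2)
      ((DirichletCharacter.differentiable_LFunctionTrivChar₁ 1).differentiableOn.analyticOnNhd ho)
      (DifferentiableOn.analyticOnNhd (fun w hw => (hdiff w hw).differentiableWithinAt) ho)
      (convex_halfSpace_re_gt 0).isPreconnected (by simp) ?_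
    filter_upwards [(isOpen_lt continuous_const continuous_re).mem_nhds
      (show (1 : ℝ) < (2 : ℂ).re by simp)] with w hw
    have h1 : w ≠ 1 := fun h => by simp [h] at hw
    have h3 : w - 1 ≠ 0 := sub_ne_zero.2 h1
    have hsum : ∀ n : ℕ, ∑ k ∈ Finset.Icc 1 n, (1 : DirichletCharacter ℂ 1) k = (n : ℂ) := by
      intro n
      simp [Subsingleton.eq_one (α := ZMod 1)]
    rw [DirichletCharacter.LFunctionTrivChar₁, Function.update_of_ne h1,
      DirichletCharacter.LFunctionTrivChar, DirichletCharacter.LFunction_eq_LSeries _ hw, hm,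
      LSeries_eq_mul_integral _ (r := 1) zero_le_one hw
        (DirichletCharacter.LSeriesSummable_of_one_lt_re _ hw)]
    · have i2 := integrableOn_Ioi_cpow_of_lt (a := -w) (by simp; linarith) one_pos
      have e1 : ∫ t in Ioi (1 : ℝ), (∑ k ∈ Finset.Icc 1 ⌊t⌋₊, (1 : DirichletCharacter ℂ 1) k) *
          (t : ℂ) ^ (-(w + 1)) = ∫ t in Ioi (1 : ℝ), ((t : ℂ) ^ (-w) -
            S t * (t : ℂ) ^ (-(w + 1))) := by
        refine setIntegral_congr_fun measurableSet_Ioi fun t ht => ?_
        have t1 : (1 : ℝ) < t := ht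
        have t0 : (t : ℂ) ≠ 0 := by exact_mod_cast (by linarith : t ≠ 0)
        have e2 : (t : ℂ) ^ (-w) = t * (t : ℂ) ^ (-(w + 1)) := by
          rw [show -w = 1 + -(w + 1) by ring, cpow_add _ _ t0, cpow_one]
        simp only [hS]
        rw [hsum, if_pos t1.le, e2]
        push_cast
        ring
      rw [e1, integral_sub i2 (hint w (by linarith)),
        integral_Ioi_cpow_of_lt (by simp; linarith) one_pos]
      have h4 : -w + 1 ≠ 0 := fun h => h3 (by linear_combination -h)
      simp only [ofReal_one, one_cpow]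
      field_simp
      ring
    · refine IsBigO.of_bound 1 (Eventually.of_forall fun n => ?_)
      rw [hsum]
      simp
  rw [heq hs]
  refine (norm_sub_le _ _).trans ?_
  rw [norm_mul, norm_mul, hm]
  gcongr
  have hi := (integrableOn_Ioi_rpow_of_lt (a := -(s.re + 1)) (by linarith) one_pos).const_mul
    (1 : ℝ)
  refine (norm_integral_le_of_norm_le hi ?_).trans (le_of_eq ?_)
  · filter_upwards [ae_restrict_mem measurableSet_Ioi] with t ht
    have ht0 : 0 < t := lt_trans one_pos ht
    rw [norm_mul, norm_cpow_eq_rpow_re_of_pos ht0]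
    simp only [neg_re, add_re, one_re]
    gcongr
    exact hSb t
  · rw [integral_const_mul, integral_Ioi_rpow_of_lt (by linarith) one_pos]
    simp only [Real.one_rpow]
    rw [show -(s.re + 1) + 1 = -s.re by ring, neg_div_neg_eq, mul_one_div]

/-- growth of `(s - 1) ζ(s)` -/
theorem an_zeta_le : ∃ C : ℝ, 1 ≤ C ∧ ∀ s : ℂ, 1 / 2 ≤ s.re → s.re ≤ 3 →
    ‖DirichletCharacter.LFunctionTrivChar₁ 1 s‖ ≤ C * (1 + |s.im|) ^ 2 := by
  refine ⟨15, by norm_num, fun s h1 h2 => (An3_growth (by linarith)).trans ?_⟩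
  have b1 := An3_norm s
  rw [abs_of_pos (by linarith : 0 < s.re)] at b1
  have b2 := An3_norm (s - 1)
  have b3 : |(s - 1).re| ≤ 2 := by
    rw [Complex.sub_re, Complex.one_re, abs_le]
    constructor <;> linarith
  have b4 : (s - 1).im = s.im := by simp
  rw [b4] at b2
  have b5 := abs_nonneg s.im
  have b6 : 1 / s.re ≤ 2 := by
    rw [div_le_iff₀ (by linarith)]; linarith
  have b7 : ‖s‖ * ‖s - 1‖ * (1 / s.re) ≤ (3 * (1 + |s.im|)) * (2 * (1 + |s.im|)) * 2 := by
    gcongr <;> linarith
  nlinarith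

theorem an_ld_one : ∃ (C : ℝ) (H : ℂ → ℂ), 0 < C ∧ (∀ s : ℂ, 1999 / 2000 ≤ s.re → s.re ≤ 2 →
      DifferentiableAt ℂ H s ∧ ‖H s‖ ≤ C * (1 + |s.im|)) ∧
    ∀ s : ℂ, s.re = 2 →
      LSeries (fun n : ℕ => (ArithmeticFunction.vonMangoldt n : ℂ)) s = 1 / (s - 1) + H s := by
  obtain ⟨m, m0, m1, hm⟩ := An3_low
  obtain ⟨B, B1, hB⟩ := an_zeta_le
  have lm : log (m / 2) ≤ 0 := log_nonpos (by positivity) (by linarith)
  have lB : 0 ≤ log B := log_nonneg B1
  have hd := DirichletCharacter.differentiable_LFunctionTrivChar₁ 1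
  refine ⟨20000000 * (log B - log (m / 2) + 5), fun s =>
    -(deriv (DirichletCharacter.LFunctionTrivChar₁ 1) s /
      DirichletCharacter.LFunctionTrivChar₁ 1 s), by linarith,
    fun s h1 h2 => ⟨?_, ?_⟩, fun s hs => ?_⟩
  · exact (((hd.analyticAt s).deriv.differentiableAt).div (hd s)
      (P319.an_Z (by linarith))).neg
  · rw [norm_neg]
    refine (P006.qg_strip (B := B) (m := m / 2) B1 (by positivity) (by linarith) (fun z _ _ => hd z)
      (fun z a1 _ => P319.an_Z a1) (fun z a1 a2 => ?_) (fun z hz => ?_) h1 h2).trans ?_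
    · refine (hB z (by linarith) (by linarith)).trans ?_
      have b2 := Real.add_one_le_exp |z.im|
      have b3 := abs_nonneg z.im
      have b4 : (1 + |z.im|) ^ 2 ≤ Real.exp (5 * |z.im|) := by
        calc (1 + |z.im|) ^ 2 ≤ Real.exp |z.im| ^ 2 := by gcongr; linarith
          _ = Real.exp (2 * |z.im|) := by rw [← Real.exp_nat_mul]; norm_num
          _ ≤ _ := Real.exp_le_exp.2 (by linarith)
      gcongr
    · have h1 : z ≠ 1 := fun h => by rw [h] at hz; norm_num at hz
      rw [DirichletCharacter.LFunctionTrivChar₁, Function.update_of_ne h1, norm_mul]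
      have a1 := hm 1 1 z hz
      have a2 : 1 / 2 ≤ ‖z - 1‖ := by
        have := Complex.re_le_norm (z - 1)
        rw [Complex.sub_re, hz, Complex.one_re] at this
        linarith
      calc m / 2 = 1 / 2 * m := by ring
        _ ≤ _ := mul_le_mul a2 a1 m0.le (norm_nonneg _)
    · have a2 := abs_nonneg s.im
      have a3 : 0 ≤ log B - log (m / 2) := by linarith
      have a5 := mul_nonneg a3 a2
      nlinarith
  · have hz : 1 < s.re := by rw [hs]; norm_num
    have h1 : s ≠ 1 := fun h => by simp [h] at hz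
    have hz' : 999 / 1000 < s.re := by linarith
    have h2 : DirichletCharacter.LFunctionTrivChar 1 s ≠ 0 := P026.lfun_ne_zero _ hz' h1
    have h3 : s - 1 ≠ 0 := sub_ne_zero.2 h1
    have e2 : deriv (DirichletCharacter.LFunctionTrivChar₁ 1) s /
        DirichletCharacter.LFunctionTrivChar₁ 1 s =
        deriv (DirichletCharacter.LFunctionTrivChar 1) s /
          DirichletCharacter.LFunctionTrivChar 1 s + (s - 1)⁻¹ := by
      rw [DirichletCharacter.deriv_LFunctionTrivChar₁_apply_of_ne_one 1 h1,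
        DirichletCharacter.LFunctionTrivChar₁, Function.update_of_ne h1]
      field_simp
    have e3 := P319.an_ld (1 : DirichletCharacter ℂ 1) hz
    have e5 : ((fun n : ℕ => (1 : DirichletCharacter ℂ 1) n) *
        fun n : ℕ => (ArithmeticFunction.vonMangoldt n : ℂ)) =
        fun n : ℕ => (ArithmeticFunction.vonMangoldt n : ℂ) := by
      funext n
      simp [Subsingleton.eq_one (α := ZMod 1)]
    rw [e5] at e3
    simp only
    rw [e2, show deriv (DirichletCharacter.LFunctionTrivChar 1) s /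
      DirichletCharacter.LFunctionTrivChar 1 s = _ from e3]
    ring

end Vale.Agent.P013
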