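import Vale.Agent.P013.An2
import Vale.Agent.P013.An3

namespace Vale.Agent.P013

open Finset Real Filter

open Classical

theorem An4_bad (q N : ℕ) (hq : q ≠ 0) (hN : 1 ≤ N) :
    ∑ n ∈ (Icc 1 N).filter (fun n => ¬ n.Coprime q), ArithmeticFunction.vonMangoldt n ≤
      2 * log N * log q := by
  set K := Nat.log 2 N with hK
  have h1 : ∑ n ∈ (Icc 1 N).filter (fun n => ¬ n.Coprime q), ArithmeticFunction.vonMangoldt n ≤
      ∑ n ∈ (q ^ K).divisors, ArithmeticFunction.vonMangoldt n := by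
    rw [← sum_filter_ne_zero]
    refine sum_le_sum_of_subset_of_nonneg (fun n hn => ?_)
      fun _ _ _ => ArithmeticFunction.vonMangoldt_nonneg
    obtain ⟨h1, h2⟩ := mem_filter.1 hn
    obtain ⟨h3, h4⟩ := mem_filter.1 h1
    obtain ⟨p, k, hp, hk, rfl⟩ := (isPrimePow_nat_iff _).1
      (ArithmeticFunction.vonMangoldt_ne_zero_iff.1 h2)
    have h5 : p ∣ q := by
      by_contra h
      exact h4 (Nat.Coprime.pow_left k ((hp.coprime_iff_not_dvd).2 h))
    have h6 : k ≤ K := Nat.le_log_of_pow_le (by norm_num)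
      ((Nat.pow_le_pow_left hp.two_le k).trans (mem_Icc.1 h3).2)
    exact Nat.mem_divisors.2 ⟨(pow_dvd_pow_of_dvd h5 k).trans (pow_dvd_pow q h6), pow_ne_zero _ hq⟩
  rw [ArithmeticFunction.vonMangoldt_sum, Nat.cast_pow, log_pow] at h1
  refine h1.trans (mul_le_mul_of_nonneg_right ?_ (log_natCast_nonneg q))
  have h2 : (K : ℝ) * log 2 ≤ log N :=
    Real.le_log_of_pow_le (by norm_num) (by exact_mod_cast Nat.pow_log_le_self 2 (by omega))
  have h3 := log_two_gt_d9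
  have h4 : (0 : ℝ) ≤ K := Nat.cast_nonneg _
  nlinarith

theorem psi_chi : ∃ δ C : ℝ, 0 < δ ∧ δ ≤ 1 / 4 ∧ 0 < C ∧
    ∀ (q : ℕ) [NeZero q] (χ : DirichletCharacter ℂ q) (y : ℝ), 1 ≤ y →
    ‖∑ n ∈ Icc 1 ⌊y⌋₊, χ n * (ArithmeticFunction.vonMangoldt n : ℂ) -
      (if χ = 1 then (y : ℂ) else 0)‖ ≤ C * (1 + log q) * y ^ (1 - δ) := by
  obtain ⟨δ, C0, d0, d1, c0, H0⟩ := an_sharp (σ := 1999 / 2000) (by norm_num) (by norm_num)
  obtain ⟨C1, c1, H1⟩ := an_ld_chi
  obtain ⟨C2, H, c2, H2, H3⟩ := an_ld_one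
  refine ⟨δ, C0 * (C1 + 1) + C0 * (C2 + 1) + 3, d0, d1, by positivity, fun q _ χ y hy => ?_⟩
  have lq : 0 ≤ log (q : ℝ) := log_natCast_nonneg q
  have yp : 0 ≤ y ^ (1 - δ) := by positivity
  have hL : ∀ n : ℕ, ‖(ArithmeticFunction.vonMangoldt n : ℂ)‖ ≤ 1 + log n := fun n => by
    rw [Complex.norm_real, Real.norm_of_nonneg ArithmeticFunction.vonMangoldt_nonneg]
    linarith [ArithmeticFunction.vonMangoldt_le_log (n := n)]
  split_ifs with hχ
  · subst hχ
    have h1 := H0 C2 1 y (fun n : ℕ => (ArithmeticFunction.vonMangoldt n : ℂ)) H c2.le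
      zero_le_one le_rfl hy (by simp) hL H2 (fun s hs => by rw [H3 s hs]; simp)
    rw [one_mul] at h1
    have hN : 1 ≤ ⌊y⌋₊ := Nat.le_floor (by simpa using hy)
    have h2 := An4_bad q ⌊y⌋₊ (NeZero.ne q) hN
    have h3 : ∑ n ∈ Icc 1 ⌊y⌋₊, (1 : DirichletCharacter ℂ q) n *
        (ArithmeticFunction.vonMangoldt n : ℂ) =
        ∑ n ∈ Icc 1 ⌊y⌋₊, (ArithmeticFunction.vonMangoldt n : ℂ) -
          ((∑ n ∈ (Icc 1 ⌊y⌋₊).filter (fun n => ¬ n.Coprime q),
            ArithmeticFunction.vonMangoldt n : ℝ) : ℂ) := by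
      rw [sum_filter, Complex.ofReal_sum, ← sum_sub_distrib]
      refine sum_congr rfl fun n _ => ?_
      by_cases h : n.Coprime q
      · rw [MulChar.one_apply ((ZMod.isUnit_iff_coprime n q).2 h)]
        simp [h]
      · rw [MulChar.map_nonunit _ (fun h' => h ((ZMod.isUnit_iff_coprime n q).1 h'))]
        simp [h]
    rw [h3, sub_right_comm]
    refine (norm_sub_le _ _).trans ?_
    rw [Complex.norm_real, Real.norm_of_nonneg
      (sum_nonneg fun _ _ => ArithmeticFunction.vonMangoldt_nonneg)]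
    have h4 : log (⌊y⌋₊ : ℝ) ≤ y ^ (1 - δ) / (1 - δ) :=
      (log_le_log (by exact_mod_cast hN) (Nat.floor_le (by linarith))).trans
        (log_le_rpow_div (by linarith) (by linarith))
    have h5 : y ^ (1 - δ) / (1 - δ) ≤ 3 / 2 * y ^ (1 - δ) := by
      rw [div_le_iff₀ (by linarith)]
      nlinarith
    have h6 : 2 * log (⌊y⌋₊ : ℝ) * log q ≤ 3 * y ^ (1 - δ) * log q :=
      mul_le_mul_of_nonneg_right (by linarith) lq
    have h7 : 0 ≤ C0 * (C1 + 1) * (1 + log q) * y ^ (1 - δ) := by positivity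
    have h8 : 0 ≤ C0 * (C2 + 1) * log q * y ^ (1 - δ) := by positivity
    nlinarith
  · obtain ⟨G, G1, G2⟩ := H1 q χ hχ
    have h1 := H0 (C1 * (1 + log q)) 0 y
      (fun n : ℕ => χ n * (ArithmeticFunction.vonMangoldt n : ℂ)) G (by positivity)
      le_rfl zero_le_one hy (by simp) (fun n => by
        rw [norm_mul]
        exact (mul_le_of_le_one_left (norm_nonneg _) (χ.norm_le_one _)).trans (hL n)) G1
      (fun s hs => by rw [G2 s hs]; simp)
    rw [zero_mul, Complex.ofReal_zero] at h1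
    refine h1.trans (mul_le_mul_of_nonneg_right ?_ yp)
    have h7 : 0 ≤ C0 * log q := by positivity
    have h8 : 0 ≤ (C0 * (C2 + 1) + 3) * (1 + log q) := by positivity
    nlinarith

end Vale.Agent.P013
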