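import Vale.Agent.P013.An4

namespace Vale.Agent.P013

open Finset Real Filter

open Classical

theorem an5_orth (q : ℕ) [NeZero q] {a : ZMod q} (ha : IsUnit a) (y : ℝ) (N : ℕ) :
    ((Nat.totient q * ∑ n ∈ (Icc 1 N).filter (fun n : ℕ => a = (n : ZMod q)),
      ArithmeticFunction.vonMangoldt n - y : ℝ) : ℂ) =
    ∑ χ : DirichletCharacter ℂ q, χ a⁻¹ *
      (∑ n ∈ Icc 1 N, χ n * (ArithmeticFunction.vonMangoldt n : ℂ) -
        (if χ = 1 then (y : ℂ) else 0)) := by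
  simp only [mul_sub, sum_sub_distrib, mul_sum, mul_ite, mul_zero, sum_ite_eq', mem_univ,
    if_true]
  have h1 : (1 : DirichletCharacter ℂ q) a⁻¹ = 1 := by
    obtain ⟨u, rfl⟩ := ha
    rw [ZMod.inv_coe_unit, MulChar.one_apply_coe]
  rw [h1, one_mul, sum_comm]
  push_cast
  congr 1
  rw [sum_filter]
  refine sum_congr rfl fun n _ => ?_
  have h2 := DirichletCharacter.sum_char_inv_mul_char_eq ℂ ha (n : ZMod q)
  simp only [← mul_assoc]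
  rw [← sum_mul, h2]
  split_ifs <;> simp

theorem an5_psi : ∃ δ C : ℝ, 0 < δ ∧ δ ≤ 1 / 4 ∧ 0 < C ∧
    ∀ (q : ℕ) [NeZero q] (a : ZMod q) (y : ℝ), IsUnit a → 1 ≤ y →
    |∑ n ∈ (Icc 1 ⌊y⌋₊).filter (fun n : ℕ => a = (n : ZMod q)),
      ArithmeticFunction.vonMangoldt n - y / Nat.totient q| ≤ C * (1 + log q) * y ^ (1 - δ) := by
  obtain ⟨δ, C, h0, h1, h2, h⟩ := psi_chi
  refine ⟨δ, C, h0, h1, h2, fun q _ a y ha hy => ?_⟩
  have hφ : (0 : ℝ) < Nat.totient q := by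
    exact_mod_cast Nat.totient_pos.2 (Nat.pos_of_ne_zero (NeZero.ne q))
  have h3 := congrArg norm (an5_orth q ha y ⌊y⌋₊)
  rw [Complex.norm_real, Real.norm_eq_abs] at h3
  have h4 : ‖∑ χ : DirichletCharacter ℂ q, χ a⁻¹ *
      (∑ n ∈ Icc 1 ⌊y⌋₊, χ n * (ArithmeticFunction.vonMangoldt n : ℂ) -
        (if χ = 1 then (y : ℂ) else 0))‖ ≤
      ∑ _χ : DirichletCharacter ℂ q, C * (1 + log q) * y ^ (1 - δ) := by
    refine (norm_sum_le _ _).trans (sum_le_sum fun χ _ => ?_)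
    rw [norm_mul]
    exact (mul_le_of_le_one_left (norm_nonneg _) (χ.norm_le_one _)).trans (h q χ y hy)
  rw [sum_const, card_univ, ← Nat.card_eq_fintype_card,
    DirichletCharacter.card_eq_totient_of_hasEnoughRootsOfUnity, nsmul_eq_mul, ← h3] at h4
  refine le_of_mul_le_mul_left ?_ hφ
  refine le_trans (le_of_eq ?_) h4
  rw [← abs_of_pos hφ, ← abs_mul, abs_of_pos hφ, mul_sub, mul_div_cancel₀ _ hφ.ne']

theorem an5_pp (P : ℕ → Prop) [DecidablePred P] [DecidablePred fun p : ℕ => p.Prime ∧ P p]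
    (y : ℝ) :
    |∑ p ∈ (Icc 1 ⌊y⌋₊).filter (fun p : ℕ => p.Prime ∧ P p), log p -
      ∑ n ∈ (Icc 1 ⌊y⌋₊).filter P, ArithmeticFunction.vonMangoldt n| ≤
      Chebyshev.psi y - Chebyshev.theta y := by
  have h1 : ∑ n ∈ (Icc 1 ⌊y⌋₊).filter P, ArithmeticFunction.vonMangoldt n =
      ∑ p ∈ (Icc 1 ⌊y⌋₊).filter (fun p : ℕ => p.Prime ∧ P p), log p +
      ∑ n ∈ ((Icc 1 ⌊y⌋₊).filter P).filter (fun n => ¬ n.Prime),
        ArithmeticFunction.vonMangoldt n := by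
    rw [← sum_filter_add_sum_filter_not _ Nat.Prime, filter_filter]
    congr 1
    refine sum_congr (filter_congr fun n _ => and_comm) fun n hn => ?_
    exact ArithmeticFunction.vonMangoldt_apply_prime (mem_filter.1 hn).2.1
  rw [h1, sub_add_cancel_left, abs_neg,
    abs_of_nonneg (sum_nonneg fun _ _ => ArithmeticFunction.vonMangoldt_nonneg),
    Chebyshev.psi_sub_theta_eq_sum_not_prime]
  refine sum_le_sum_of_subset_of_nonneg (fun n hn => ?_)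
    fun _ _ _ => ArithmeticFunction.vonMangoldt_nonneg
  simp only [mem_filter, mem_Icc, mem_Ioc] at hn ⊢
  exact ⟨⟨hn.1.1.1, hn.1.1.2⟩, hn.2⟩

theorem theta_ap : ∃ δ C : ℝ, 0 < δ ∧ δ ≤ 1 / 4 ∧ 0 < C ∧
    ∀ (q : ℕ) (a : ℤ) (y : ℝ), 1 ≤ q → IsCoprime a (q : ℤ) → 1 ≤ y →
    |∑ p ∈ (Icc 1 ⌊y⌋₊).filter (fun p : ℕ => p.Prime ∧ (q : ℤ) ∣ p - a), log p -
      y / Nat.totient q| ≤ C * (1 + log q) * y ^ (1 - δ) := by
  obtain ⟨δ, C, h0, h1, h2, h⟩ := an5_psi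
  obtain ⟨C', hC'⟩ := Chebyshev.psi_sub_theta_le_mul_sqrt
  refine ⟨δ, C + |C'|, h0, h1, by positivity, fun q a y hq ha hy => ?_⟩
  haveI : NeZero q := ⟨by omega⟩
  have hu : IsUnit ((a : ℤ) : ZMod q) := by
    obtain ⟨u, v, huv⟩ := ha
    have := congrArg (Int.cast : ℤ → ZMod q) huv
    push_cast at this
    rw [ZMod.natCast_self, mul_zero, add_zero] at this
    exact IsUnit.of_mul_eq_one_right _ this
  have h3 := h q _ y hu hy
  have h4 : (Icc 1 ⌊y⌋₊).filter (fun n : ℕ => ((a : ℤ) : ZMod q) = (n : ZMod q)) =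
      (Icc 1 ⌊y⌋₊).filter (fun p : ℕ => (q : ℤ) ∣ p - a) := by
    refine filter_congr fun n _ => ?_
    rw [← ZMod.intCast_eq_intCast_iff_dvd_sub, Int.cast_natCast]
  rw [h4] at h3
  have h5 := an5_pp (fun p : ℕ => (q : ℤ) ∣ p - a) y
  have hl : 0 ≤ log q := log_nonneg (by exact_mod_cast hq)
  have h6 : √y ≤ y ^ (1 - δ) := by
    rw [sqrt_eq_rpow]
    exact rpow_le_rpow_of_exponent_le hy (by linarith)
  have h7 : C' * √y ≤ |C'| * (1 + log q) * y ^ (1 - δ) := by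
    calc C' * √y ≤ |C'| * √y := mul_le_mul_of_nonneg_right (le_abs_self _) (sqrt_nonneg _)
      _ ≤ |C'| * (1 + log q) * y ^ (1 - δ) :=
        mul_le_mul (le_mul_of_one_le_right (abs_nonneg _) (by linarith)) h6 (sqrt_nonneg _)
          (by positivity)
  have h8 := abs_sub_le (∑ p ∈ (Icc 1 ⌊y⌋₊).filter (fun p : ℕ => p.Prime ∧ (q : ℤ) ∣ p - a), log p)
    (∑ n ∈ (Icc 1 ⌊y⌋₊).filter (fun p : ℕ => (q : ℤ) ∣ p - a), ArithmeticFunction.vonMangoldt n)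
    (y / Nat.totient q)
  have h9 := hC' y
  calc _ ≤ _ := h8
    _ ≤ |C'| * (1 + log q) * y ^ (1 - δ) + C * (1 + log q) * y ^ (1 - δ) :=
      add_le_add (h5.trans (h9.trans h7)) h3
    _ = _ := by ring

theorem theta_one : ∃ δ C : ℝ, 0 < δ ∧ δ ≤ 1 / 4 ∧ 0 < C ∧ ∀ y : ℝ, 1 ≤ y →
    |∑ p ∈ (Icc 1 ⌊y⌋₊).filter Nat.Prime, log p - y| ≤ C * y ^ (1 - δ) := by
  obtain ⟨δ, C, h0, h1, h2, h⟩ := theta_ap
  refine ⟨δ, C, h0, h1, h2, fun y hy => ?_⟩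
  have h3 := h 1 0 y le_rfl isCoprime_one_right hy
  simpa using h3

end Vale.Agent.P013
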