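import Vale.Agent.P013.An3

namespace Vale.Agent.P013

open Finset Real Filter

open Classical

theorem an6_mu {s : ℂ} (hs : 1 < s.re) :
    LSeries (fun n : ℕ => (ArithmeticFunction.moebius n : ℂ)) s =
      (s - 1) / DirichletCharacter.LFunctionTrivChar₁ 1 s := by
  have h1 : s ≠ 1 := fun h => by simp [h] at hs
  have h0 := P319.an_Z (z := s) (by linarith)
  rw [eq_div_iff h0, DirichletCharacter.LFunctionTrivChar₁, Function.update_of_ne h1,
    DirichletCharacter.LFunctionTrivChar, DirichletCharacter.LFunction_modOne_eq,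
    ← LSeries_one_eq_riemannZeta hs]
  linear_combination (s - 1) * LSeries_one_mul_Lseries_moebius hs

theorem an6_bd {x : ℝ} (hx : 1 < x) : ∃ C : ℝ, 1 ≤ C ∧ ∀ s : ℂ, x ≤ s.re →
    ‖(s - 1) / DirichletCharacter.LFunctionTrivChar₁ 1 s‖ ≤ C := by
  have h2 : 1 < (x : ℂ).re := by simpa using hx
  have hs : Summable fun n => ‖LSeries.term 1 (x : ℂ) n‖ :=
    (show Summable _ from LSeriesSummable_one_iff.2 h2).norm
  refine ⟨max 1 (∑' n, ‖LSeries.term 1 (x : ℂ) n‖), le_max_left _ _, fun s h => ?_⟩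
  rw [← an6_mu (hx.trans_le h)]
  refine le_max_of_le_right (tsum_of_norm_bounded hs.hasSum fun n => ?_)
  refine (LSeries.norm_term_le_of_re_le_re _ (s := (x : ℂ)) (by simpa using h) n).trans
    (LSeries.norm_term_le _ ?_)
  rw [Pi.one_apply, norm_one, Complex.norm_intCast]
  exact_mod_cast ArithmeticFunction.abs_moebius_le_one

theorem an6_gron {E : ℂ → ℂ} (hE : Differentiable ℂ E) {c : ℂ} {K b : ℝ} (hb : 0 ≤ b)
    (h0 : ∀ x : ℝ, 0 ≤ x → x ≤ b → E (c - x) ≠ 0)
    (hK : ∀ x : ℝ, 0 ≤ x → x ≤ b → ‖deriv E (c - x) / E (c - x)‖ ≤ K) :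
    ‖(E (c - b))⁻¹‖ ≤ ‖(E c)⁻¹‖ * exp (K * b) := by
  have hd : ∀ x : ℝ, 0 ≤ x → x ≤ b → HasDerivAt (fun x : ℝ => (E (c - x))⁻¹)
      (deriv E (c - x) / E (c - x) * (E (c - x))⁻¹) x := by
    intro x h1 h2
    have e1 : HasDerivAt (fun z : ℂ => E (c - z)) (deriv E (c - x) * (-1)) (x : ℂ) :=
      (hE (c - x)).hasDerivAt.comp (x : ℂ) ((hasDerivAt_id (x : ℂ)).const_sub c)
    have e2 := (e1.inv (h0 x h1 h2)).comp_ofReal
    refine e2.congr_deriv ?_
    field_simp
  have h := norm_le_gronwallBound_of_norm_deriv_right_le (f := fun x : ℝ => (E (c - x))⁻¹)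
    (f' := fun x : ℝ => deriv E (c - x) / E (c - x) * (E (c - x))⁻¹) (δ := ‖(E c)⁻¹‖) (K := K)
    (ε := 0) (a := 0) (b := b)
    (fun x hx => (hd x hx.1 hx.2).continuousAt.continuousWithinAt)
    (fun x hx => (hd x hx.1 hx.2.le).hasDerivWithinAt) (by simp)
    (fun x hx => by
      rw [norm_mul, add_zero]
      exact mul_le_mul_of_nonneg_right (hK x hx.1 hx.2.le) (norm_nonneg _)) b ⟨hb, le_rfl⟩
  rwa [gronwallBound_ε0, sub_zero] at h

theorem an6_ld : ∃ W : ℝ, 1 ≤ W ∧ ∀ s : ℂ, 1999 / 2000 ≤ s.re → s.re ≤ 2 →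
    ‖deriv (DirichletCharacter.LFunctionTrivChar₁ 1) s /
      DirichletCharacter.LFunctionTrivChar₁ 1 s‖ ≤ 40000000 * log (W * (2 + |s.im|)) := by
  obtain ⟨C, hC, hb⟩ := an_zeta_le
  obtain ⟨C', hC', hl⟩ := an6_bd (x := 3 / 2) (by norm_num)
  have hW : 1 ≤ 2 * C * C' := by nlinarith
  refine ⟨2 * C * C', hW, fun s h1 h2 => ?_⟩
  set c : ℂ := 3 / 2 + s.im * Complex.I with hc
  have cre : c.re = 3 / 2 := by simp [hc]
  have cim : c.im = s.im := by simp [hc]
  have hin : ∀ z ∈ Metric.ball c (501 / 1000 : ℝ),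
      999 / 1000 < z.re ∧ z.re < 5 / 2 ∧ |z.im| ≤ |s.im| + 1 := by
    intro z hz
    rw [Metric.mem_ball, dist_eq_norm] at hz
    have a1 := abs_lt.1 ((Complex.abs_re_le_norm (z - c)).trans_lt hz)
    have a2 := (Complex.abs_im_le_norm (z - c)).trans_lt hz
    rw [Complex.sub_re, cre] at a1
    rw [Complex.sub_im, cim] at a2
    have a3 := abs_sub_abs_le_abs_sub z.im s.im
    exact ⟨by linarith, by linarith, by linarith⟩
  have t0 := abs_nonneg s.im
  have hX : 1 < 2 * C * C' * (2 + |s.im|) := by nlinarith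
  have hc0 := P319.an_Z (z := c) (by rw [cre]; norm_num)
  have hlow : 1 ≤ 2 * C' * ‖DirichletCharacter.LFunctionTrivChar₁ 1 c‖ := by
    have a1 := hl c cre.ge
    rw [norm_div, div_le_iff₀ (norm_pos_iff.2 hc0)] at a1
    have a2 := Complex.re_le_norm (c - 1)
    rw [Complex.sub_re, cre, Complex.one_re] at a2
    linarith
  have key := P006.qg_disc (E := DirichletCharacter.LFunctionTrivChar₁ 1) (c := c)
    (M := 2 * log (2 * C * C' * (2 + |s.im|))) (by have := log_pos hX; linarith)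
    (DirichletCharacter.differentiable_LFunctionTrivChar₁ 1).differentiableOn
    (fun z hz => P319.an_Z (hin z hz).1) (fun z hz => ?_) (z := s) ?_
  · linarith
  · obtain ⟨a1, a2, a3⟩ := hin z hz
    refine (hb z (by linarith) (by linarith)).trans ?_
    have e : exp (2 * log (2 * C * C' * (2 + |s.im|))) = (2 * C * C' * (2 + |s.im|)) ^ 2 := by
      rw [two_mul, exp_add, exp_log (by linarith), sq]
    rw [e]
    have a4 : (1 + |z.im|) ^ 2 ≤ (2 + |s.im|) ^ 2 :=
      pow_le_pow_left₀ (by positivity) (by linarith) 2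
    calc C * (1 + |z.im|) ^ 2 ≤ C * (2 + |s.im|) ^ 2 * 1 * 1 := by
          rw [mul_one, mul_one]
          gcongr
      _ ≤ C * (2 + |s.im|) ^ 2 * (2 * C * C') *
          (2 * C' * ‖DirichletCharacter.LFunctionTrivChar₁ 1 c‖) := by gcongr
      _ = _ := by ring
  · have : s - c = ((s.re - 3 / 2 : ℝ) : ℂ) := by
      apply Complex.ext <;> simp [hc]
    rw [this, Complex.norm_real, Real.norm_eq_abs, abs_le]
    constructor <;> linarith

theorem an_inv : ∃ (σ C : ℝ) (H : ℂ → ℂ), 1 / 2 ≤ σ ∧ σ < 1 ∧ 0 < C ∧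
    (∀ s : ℂ, σ ≤ s.re → s.re ≤ 2 → DifferentiableAt ℂ H s ∧ ‖H s‖ ≤ C * (1 + |s.im|)) ∧
    ∀ s : ℂ, s.re = 2 →
      LSeries (fun n : ℕ => (ArithmeticFunction.moebius n : ℂ)) s = H s := by
  obtain ⟨W, hW, hld⟩ := an6_ld
  obtain ⟨C, hC, hl⟩ := an6_bd (x := 1 + 1 / 80000000) (by norm_num)
  have hE := DirichletCharacter.differentiable_LFunctionTrivChar₁ 1
  refine ⟨1 - 1 / 80000000, 2 * C * W,
    fun s => (s - 1) / DirichletCharacter.LFunctionTrivChar₁ 1 s, by norm_num, by norm_num,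
    by positivity, fun s h1 h2 => ⟨?_, ?_⟩, fun s hs => an6_mu (by rw [hs]; norm_num)⟩
  · exact (differentiableAt_id.sub_const 1).div (hE s) (P319.an_Z (by linarith))
  have t0 := abs_nonneg s.im
  rcases le_total (1 + 1 / 80000000) s.re with h | h
  · refine (hl s h).trans ?_
    have : 1 ≤ W * (1 + |s.im|) := by nlinarith
    nlinarith
  set c : ℂ := ((1 + 1 / 80000000 : ℝ) : ℂ) + s.im * Complex.I with hc
  have cre : c.re = 1 + 1 / 80000000 := by simp [hc]
  have cim : c.im = s.im := by simp [hc]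
  have hX : 1 < W * (2 + |s.im|) := by nlinarith
  have hlog := log_pos hX
  have key := an6_gron hE (c := c) (K := 40000000 * log (W * (2 + |s.im|)))
    (b := 1 + 1 / 80000000 - s.re) (by linarith)
    (fun x x0 x1 => P319.an_Z (by rw [Complex.sub_re, cre, Complex.ofReal_re]; linarith))
    (fun x x0 x1 => by
      have := hld (c - x) (by rw [Complex.sub_re, cre, Complex.ofReal_re]; linarith)
        (by rw [Complex.sub_re, cre, Complex.ofReal_re]; linarith)
      rwa [Complex.sub_im, cim, Complex.ofReal_im, sub_zero] at this)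
  have e1 : c - ((1 + 1 / 80000000 - s.re : ℝ) : ℂ) = s := by
    apply Complex.ext
    · rw [Complex.sub_re, cre, Complex.ofReal_re]; ring
    · rw [Complex.sub_im, cim, Complex.ofReal_im, sub_zero]
  rw [e1] at key
  have e2 : exp (40000000 * log (W * (2 + |s.im|)) * (1 + 1 / 80000000 - s.re)) ≤
      W * (2 + |s.im|) := by
    refine le_trans (exp_le_exp.2 ?_) (exp_log (by linarith)).le
    nlinarith
  have e3 : ‖s - 1‖ ≤ ‖c - 1‖ := by
    refine abs_le_of_sq_le_sq' ?_ (norm_nonneg _) |>.2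
    rw [Complex.sq_norm, Complex.sq_norm, Complex.normSq_apply, Complex.normSq_apply,
      Complex.sub_re, Complex.sub_re, cre, Complex.one_re, Complex.sub_im, Complex.sub_im, cim]
    nlinarith
  have e4 := hl c cre.ge
  rw [div_eq_mul_inv, norm_mul] at e4
  change ‖(s - 1) / DirichletCharacter.LFunctionTrivChar₁ 1 s‖ ≤ _
  rw [div_eq_mul_inv, norm_mul]
  calc _ ≤ ‖c - 1‖ * (‖(DirichletCharacter.LFunctionTrivChar₁ 1 c)⁻¹‖ * (W * (2 + |s.im|))) := by
        refine mul_le_mul e3 (key.trans ?_) (norm_nonneg _) (norm_nonneg _)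
        gcongr
    _ ≤ C * (W * (2 + |s.im|)) := by
        rw [← mul_assoc]
        gcongr
    _ ≤ _ := by
        have : 0 ≤ C * W := by positivity
        nlinarith

end Vale.Agent.P013
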