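import Vale.Agent.P013.An2
import Vale.Agent.P013.An6

namespace Vale.Agent.P013

open Finset Real Filter

open Classical

theorem an7_mu : ∃ δ C : ℝ, 0 < δ ∧ δ ≤ 1 / 4 ∧ 0 < C ∧ ∀ y : ℝ, 0 ≤ y →
    |∑ n ∈ Icc 1 ⌊y⌋₊, (ArithmeticFunction.moebius n : ℝ)| ≤ C * y ^ (1 - δ) := by
  obtain ⟨σ, B, H, h0, h1, hB, hH, hL⟩ := an_inv
  obtain ⟨δ, C, d0, d1, C0, hC⟩ := an_sharp h0 h1
  refine ⟨δ, C * (B + 1), d0, d1, by positivity, fun y hy => ?_⟩
  rcases lt_or_ge y 1 with h | h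
  · rw [Nat.floor_eq_zero.2 h, Icc_eq_empty (by omega), sum_empty, abs_zero]
    positivity
  have h2 := hC B 0 y (fun n => (ArithmeticFunction.moebius n : ℂ)) H hB.le le_rfl zero_le_one h
    (by simp) (fun n => by
      rw [Complex.norm_intCast]
      have : |(ArithmeticFunction.moebius n : ℝ)| ≤ 1 := by
        exact_mod_cast ArithmeticFunction.abs_moebius_le_one
      linarith [Real.log_natCast_nonneg n]) hH (fun s hs => by rw [hL s hs]; simp)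
  rw [zero_mul, Complex.ofReal_zero, sub_zero] at h2
  refine le_trans (le_of_eq ?_) h2
  rw [← Real.norm_eq_abs, ← Complex.norm_real]
  push_cast
  rfl

theorem an7_uniq {a b c d : ℕ} (ha : a ≠ 0) (hc : c ≠ 0) (hb : Squarefree b) (hd : Squarefree d)
    (h : a ^ 2 * b = c ^ 2 * d) : a = c := by
  refine Nat.eq_of_factorization_eq ha hc fun p => ?_
  have h1 := congrArg (fun n => n.factorization p) h
  simp only [Nat.factorization_mul (pow_ne_zero 2 ha) hb.ne_zero,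
    Nat.factorization_mul (pow_ne_zero 2 hc) hd.ne_zero, Nat.factorization_pow, Finsupp.add_apply,
    Finsupp.smul_apply, smul_eq_mul] at h1
  have h2 := hb.natFactorization_le_one p
  have h3 := hd.natFactorization_le_one p
  omega

theorem an7_id (N : ℕ) : ∑ n ∈ Icc 1 N, lam n =
    ∑ d ∈ Icc 1 N, ∑ m ∈ Icc 1 (N / d ^ 2), (ArithmeticFunction.moebius m : ℝ) := by
  have h1 : ∀ d, ∑ m ∈ Icc 1 (N / d ^ 2), (ArithmeticFunction.moebius m : ℝ) =
      ∑ m ∈ (Icc 1 (N / d ^ 2)).filter Squarefree, (ArithmeticFunction.moebius m : ℝ) := by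
    intro d
    refine (sum_filter_of_ne fun m _ hm => ?_).symm
    exact ArithmeticFunction.moebius_ne_zero_iff_squarefree.1 (by exact_mod_cast hm)
  simp only [h1]
  rw [sum_sigma']
  symm
  refine sum_bij (fun x _ => x.1 ^ 2 * x.2) ?_ ?_ ?_ ?_
  · rintro ⟨d, m⟩ hx
    simp only [mem_sigma, mem_filter, mem_Icc] at hx ⊢
    have d0 : 0 < d ^ 2 := pow_pos hx.1.1 2
    refine ⟨Nat.mul_pos d0 hx.2.1.1, ?_⟩
    rw [mul_comm]
    exact (Nat.le_div_iff_mul_le d0).1 hx.2.1.2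
  · rintro ⟨d, m⟩ hx ⟨d', m'⟩ hx' h
    simp only [mem_sigma, mem_filter, mem_Icc] at hx hx' h
    obtain rfl := an7_uniq (by omega) (by omega) hx.2.2 hx'.2.2 h
    rw [Nat.eq_of_mul_eq_mul_left (pow_pos hx.1.1 2) h]
  · intro n hn
    rw [mem_Icc] at hn
    obtain ⟨a, b, ha, hb, hab, hs⟩ := Nat.sq_mul_squarefree_of_pos hn.1
    refine ⟨⟨b, a⟩, ?_, hab⟩
    simp only [mem_sigma, mem_filter, mem_Icc]
    refine ⟨⟨hb, ?_⟩, ⟨ha, (Nat.le_div_iff_mul_le (pow_pos hb 2)).2 ?_⟩, hs⟩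
    · nlinarith [Nat.le_mul_of_pos_right (b ^ 2) ha, Nat.le_self_pow two_ne_zero b]
    · rw [mul_comm, hab]
      exact hn.2
  · rintro ⟨d, m⟩ hx
    simp only [mem_sigma, mem_filter, mem_Icc] at hx
    rw [lam, ArithmeticFunction.cardFactors_mul (pow_pos hx.1.1 2).ne' hx.2.2.ne_zero,
      ArithmeticFunction.cardFactors_pow, ArithmeticFunction.moebius_apply_of_squarefree hx.2.2,
      pow_add, pow_mul]
    simp

theorem liou : ∃ δ C : ℝ, 0 < δ ∧ δ ≤ 1 / 4 ∧ 0 < C ∧ ∀ y : ℝ, 0 ≤ y →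
    |∑ n ∈ Icc 1 ⌊y⌋₊, lam n| ≤ C * y ^ (1 - δ) := by
  obtain ⟨δ, C, d0, d1, C0, hC⟩ := an7_mu
  have hs : Summable fun n : ℕ => (n : ℝ) ^ (-(3 / 2) : ℝ) := Real.summable_nat_rpow.2 (by norm_num)
  have t0 : 0 ≤ ∑' n : ℕ, (n : ℝ) ^ (-(3 / 2) : ℝ) := tsum_nonneg fun n => by positivity
  refine ⟨δ, C * (∑' n : ℕ, (n : ℝ) ^ (-(3 / 2) : ℝ) + 1), d0, d1, by positivity, fun y hy => ?_⟩
  rw [an7_id]
  refine (abs_sum_le_sum_abs _ _).trans ?_
  have h1 : ∀ d ∈ Icc 1 ⌊y⌋₊, |∑ m ∈ Icc 1 (⌊y⌋₊ / d ^ 2), (ArithmeticFunction.moebius m : ℝ)| ≤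
      C * y ^ (1 - δ) * (d : ℝ) ^ (-(3 / 2) : ℝ) := by
    intro d hd
    have d1' : (1 : ℝ) ≤ d := by exact_mod_cast (mem_Icc.1 hd).1
    have h2 := hC (y / ((d ^ 2 : ℕ) : ℝ)) (by positivity)
    rw [Nat.floor_div_natCast] at h2
    refine h2.trans ?_
    rw [Real.div_rpow hy (by positivity), mul_assoc, div_eq_mul_inv, ← Real.rpow_neg (by positivity),
      Nat.cast_pow, ← Real.rpow_natCast, ← Real.rpow_mul (by positivity)]
    refine mul_le_mul_of_nonneg_left (mul_le_mul_of_nonneg_left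
      (Real.rpow_le_rpow_of_exponent_le d1' ?_) (by positivity)) C0.le
    push_cast
    linarith
  refine (sum_le_sum h1).trans ?_
  rw [← mul_sum, mul_right_comm]
  refine mul_le_mul_of_nonneg_right (mul_le_mul_of_nonneg_left ?_ C0.le) (by positivity)
  linarith [hs.sum_le_tsum (Icc 1 ⌊y⌋₊) fun n _ => Real.rpow_nonneg (Nat.cast_nonneg n) _]

end Vale.Agent.P013
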