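import Vale.Agent.P013.Defs2

namespace Vale.Agent.P013

open Finset Real Filter

open Classical

theorem mem_PL {u : ℝ} {p : ℕ} : p ∈ PL u ↔ p.Prime ∧ log p ≤ u := by
  unfold PL
  rw [mem_filter, mem_range, Nat.lt_succ_iff, Nat.le_floor_iff (exp_pos u).le]
  constructor
  · rintro ⟨h, hp⟩
    exact ⟨hp, (log_le_iff_le_exp (by exact_mod_cast hp.pos)).2 h⟩
  · rintro ⟨hp, h⟩
    exact ⟨(log_le_iff_le_exp (by exact_mod_cast hp.pos)).1 h, hp⟩

theorem log_pr {S : Finset ℕ} (h : ∀ p ∈ S, p ≠ 0) : log (pr S) = ∑ p ∈ S, log p := by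
  unfold pr
  rw [Nat.cast_prod, log_prod]
  intro p hp
  exact_mod_cast h p hp

theorem pr_pos {S : Finset ℕ} (h : ∀ p ∈ S, p ≠ 0) : 0 < pr S :=
  prod_pos fun p hp => Nat.pos_of_ne_zero (h p hp)

theorem pr_inj {S T : Finset ℕ} (hS : ∀ p ∈ S, p.Prime) (hT : ∀ p ∈ T, p.Prime)
    (h : pr S = pr T) : S = T := by
  rw [← Nat.primeFactors_prod hS, ← Nat.primeFactors_prod hT]
  exact congrArg _ h

theorem pr_dvd_iff {S : Finset ℕ} (hS : ∀ p ∈ S, p.Prime) (n : ℕ) :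
    pr S ∣ n ↔ ∀ p ∈ S, p ∣ n := by
  constructor
  · intro h p hp
    exact (dvd_prod_of_mem _ hp).trans h
  · intro h
    exact Finset.prod_primes_dvd n (fun p hp => (hS p hp).prime) h

theorem card_fam {A : Finset (Finset ℕ)} {X : ℝ} (hX : 0 ≤ X) (d : ℕ) (hd : 0 < d)
    (h : ∀ S ∈ A, (∀ p ∈ S, p.Prime) ∧ (pr S : ℝ) ≤ X ∧ d ∣ pr S) : (A.card : ℝ) ≤ X / d := by
  have h1 : A.card ≤ ((Ioc 0 ⌊X⌋₊).filter fun n => d ∣ n).card := by
    apply card_le_card_of_injOn pr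
    · intro S hS
      obtain ⟨a, b, c⟩ := h S (by simpa using hS)
      simp only [coe_filter, mem_Ioc, Set.mem_setOf_eq]
      exact ⟨⟨pr_pos fun p hp => (a p hp).ne_zero, Nat.le_floor b⟩, c⟩
    · intro S hS T hT e
      exact pr_inj (h S (by simpa using hS)).1 (h T (by simpa using hT)).1 e
  rw [Nat.Ioc_filter_dvd_card_eq_div] at h1
  calc (A.card : ℝ) ≤ ((⌊X⌋₊ / d : ℕ) : ℝ) := by exact_mod_cast h1
    _ ≤ (⌊X⌋₊ : ℝ) / d := Nat.cast_div_le
    _ ≤ X / d := by gcongr; exact Nat.floor_le hX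

theorem sum_fam {A : Finset (Finset ℕ)} {P : Finset ℕ} (h : ∀ S ∈ A, S ⊆ P) :
    ∑ S ∈ A, 1 / (pr S : ℝ) ≤ ∏ p ∈ P, (1 + 1 / (p : ℝ)) := by
  rw [prod_one_add]
  calc ∑ S ∈ A, 1 / (pr S : ℝ) ≤ ∑ S ∈ P.powerset, 1 / (pr S : ℝ) :=
        sum_le_sum_of_subset_of_nonneg (fun S hS => mem_powerset.2 (h S hS))
          (fun _ _ _ => by positivity)
    _ = _ := by
      refine sum_congr rfl fun S _ => ?_
      unfold pr
      rw [Nat.cast_prod, prod_div_distrib, prod_const_one]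

theorem card_le_log {S : Finset ℕ} (hS : ∀ p ∈ S, p.Prime) :
    (S.card : ℝ) ≤ 3 / 2 * log (pr S) := by
  rw [log_pr fun p hp => (hS p hp).ne_zero, mul_sum, card_eq_sum_ones, Nat.cast_sum]
  refine sum_le_sum fun p hp => ?_
  have h2 : (2 : ℝ) ≤ p := by exact_mod_cast (hS p hp).two_le
  have := log_le_log (by norm_num) h2
  have := log_two_gt_d9
  push_cast
  linarith

theorem le_rl {η : ℝ} (hη : 0 < η) (p : ℕ) : log p ≤ rl η p := by
  unfold rl lab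
  have := Nat.le_ceil (log p / η)
  rwa [div_le_iff₀' hη] at this

theorem rl_le {η : ℝ} (hη : 0 < η) (p : ℕ) : rl η p ≤ log p + η := by
  unfold rl lab
  have h := (Nat.ceil_lt_add_one (div_nonneg (log_natCast_nonneg p) hη.le)).le
  calc η * (⌈log p / η⌉₊ : ℝ) ≤ η * (log p / η + 1) := by gcongr
    _ = log p + η := by field_simp

theorem rl_nonneg {η : ℝ} (hη : 0 < η) (p : ℕ) : 0 ≤ rl η p := by
  unfold rl; positivity

theorem lab_mono {η : ℝ} (hη : 0 < η) {p q : ℕ} (hp : p ≠ 0) (h : p ≤ q) :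
    lab η p ≤ lab η q := by
  unfold lab
  apply Nat.ceil_mono
  have : (0 : ℝ) < p := by exact_mod_cast Nat.pos_of_ne_zero hp
  gcongr

theorem rl_mono {η : ℝ} (hη : 0 < η) {p q : ℕ} (hp : p ≠ 0) (h : p ≤ q) :
    rl η p ≤ rl η q := by
  unfold rl
  have := lab_mono hη hp h
  gcongr

theorem le_lS {η : ℝ} (hη : 0 < η) {S : Finset ℕ} (h : ∀ p ∈ S, p ≠ 0) :
    log (pr S) ≤ lS η S := by
  rw [log_pr h]
  exact sum_le_sum fun p _ => le_rl hη p

theorem lS_le {η : ℝ} (hη : 0 < η) {S : Finset ℕ} (h : ∀ p ∈ S, p ≠ 0) :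
    lS η S ≤ log (pr S) + η * S.card := by
  rw [log_pr h]
  calc lS η S ≤ ∑ p ∈ S, (log p + η) := sum_le_sum fun p _ => rl_le hη p
    _ = _ := by rw [sum_add_distrib, sum_const, nsmul_eq_mul, mul_comm]

theorem lo_PL {v : ℝ} {b : ℕ} (hb : b ∈ PL v) : lo (PL v) b = PL (log ((b : ℝ) - 1)) := by
  obtain ⟨hp, hv⟩ := mem_PL.1 hb
  have h2 : (2 : ℝ) ≤ b := by exact_mod_cast hp.two_le
  ext q
  unfold lo
  rw [mem_filter, mem_PL, mem_PL]
  constructor
  · rintro ⟨⟨hq, -⟩, h⟩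
    refine ⟨hq, log_le_log (by exact_mod_cast hq.pos) ?_⟩
    have : (q : ℝ) + 1 ≤ b := by exact_mod_cast h
    linarith
  · rintro ⟨hq, h⟩
    have h0 : (0 : ℝ) < q := by exact_mod_cast hq.pos
    have h1 := (log_le_log_iff h0 (by linarith)).1 h
    have h3 : (q : ℝ) < b := by linarith
    exact ⟨⟨hq, (log_le_log h0 h3.le).trans hv⟩, by exact_mod_cast h3⟩

theorem norm_ee (x : ℝ) : ‖ee x‖ = 1 := by
  unfold ee
  have : (2 * π * x * Complex.I : ℂ) = ((2 * π * x : ℝ) : ℂ) * Complex.I := by push_cast; ring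
  rw [this, Complex.norm_exp_ofReal_mul_I]

theorem ee_add (x y : ℝ) : ee (x + y) = ee x * ee y := by
  unfold ee
  rw [← Complex.exp_add]
  congr 1
  push_cast; ring

theorem ee_int (n : ℤ) : ee n = 1 := by
  unfold ee
  have : (2 * π * ((n : ℝ) : ℂ) * Complex.I : ℂ) = n * (2 * π * Complex.I) := by push_cast; ring
  rw [this, Complex.exp_int_mul_two_pi_mul_I]

theorem L1_top : Tendsto L1 atTop atTop :=
  tendsto_log_atTop.comp tendsto_natCast_atTop_atTop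

theorem L2_top : Tendsto L2 atTop atTop := tendsto_log_atTop.comp L1_top

theorem exp_L1 {y : ℕ} (hy : y ≠ 0) : exp (L1 y) = y :=
  exp_log (by exact_mod_cast Nat.pos_of_ne_zero hy)

theorem exp_L2 {y : ℕ} (hy : 2 ≤ y) : exp (L2 y) = L1 y :=
  exp_log (log_pos (by exact_mod_cast hy))

theorem bas_ev (C : ℝ) (k : ℕ) {ε : ℝ} (hε : 0 < ε) :
    ∀ᶠ x : ℝ in atTop, C * log x ^ k ≤ x ^ ε := by
  have h := (isLittleO_log_rpow_rpow_atTop (k : ℝ) hε).bound (c := 1 / (|C| + 1)) (by positivity)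
  filter_upwards [h, eventually_ge_atTop 1] with x hx h1
  have hl := log_nonneg h1
  rw [rpow_natCast, norm_of_nonneg (by positivity), norm_of_nonneg (by positivity)] at hx
  have h3 : 0 ≤ log x ^ k := by positivity
  have h4 : (|C| + 1) * log x ^ k ≤ x ^ ε := by
    rw [one_div, inv_mul_eq_div, le_div_iff₀' (by positivity)] at hx
    exact hx
  nlinarith [le_abs_self C]

/-- powers of `L2` are below small powers of `L1` -/
theorem ev_L2 (C : ℝ) (k : ℕ) {ε : ℝ} (hε : 0 < ε) :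
    ∀ᶠ y : ℕ in atTop, C * L2 y ^ k ≤ L1 y ^ ε := L1_top.eventually (bas_ev C k hε)

/-- powers of `L1` are below small powers of `y` -/
theorem ev_L1 (C : ℝ) (k : ℕ) {ε : ℝ} (hε : 0 < ε) :
    ∀ᶠ y : ℕ in atTop, C * L1 y ^ k ≤ (y : ℝ) ^ ε :=
  tendsto_natCast_atTop_atTop.eventually (bas_ev C k hε)

theorem ev_lin (C : ℝ) (k : ℕ) {ε : ℝ} (hε : 0 < ε) :
    ∀ᶠ y : ℕ in atTop, C * L2 y ^ k ≤ ε * L1 y := by
  filter_upwards [ev_L2 (C / ε) k one_pos] with y hy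
  rw [rpow_one, div_mul_eq_mul_div, div_le_iff₀' hε] at hy
  exact hy

end Vale.Agent.P013
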