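import Vale.Agent.P013.An5
import Vale.Agent.P013.Bas

namespace Vale.Agent.P013

open Finset Real Filter

open Classical

/-- squeeze lemma: increments bounded by a telescoping majorant give a limit -/
theorem an8_lim (D b : ℕ → ℝ) (hb : ∀ m, 1 ≤ m → 0 ≤ b m)
    (h : ∀ m, 1 ≤ m → |D (m + 1) - D m| ≤ b m - b (m + 1)) :
    ∃ c : ℝ, ∀ m, 1 ≤ m → |D m - c| ≤ b m := by
  have hL : ∀ m n, 1 ≤ m → D m - b m ≤ D (m + n) - b (m + n) := by
    intro m n hm
    induction n with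
    | zero => simp
    | succ n ih =>
      have := abs_le.1 (h (m + n) (by omega))
      rw [← add_assoc]; linarith [this.1]
  have hU : ∀ m n, 1 ≤ m → D (m + n) + b (m + n) ≤ D m + b m := by
    intro m n hm
    induction n with
    | zero => simp
    | succ n ih =>
      have := abs_le.1 (h (m + n) (by omega))
      rw [← add_assoc]; linarith [this.2]
  have key : ∀ m n, 1 ≤ m → 1 ≤ n → D m - b m ≤ D n + b n := by
    intro m n hm hn
    have h1 := hL m n hm
    have h2 := hU n m hn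
    have h3 := hb (m + n) (by omega)
    rw [add_comm n m] at h2
    linarith
  have hbd : BddAbove (Set.range fun n : ℕ => D (n + 1) - b (n + 1)) :=
    ⟨D 1 + b 1, by rintro _ ⟨n, rfl⟩; exact key (n + 1) 1 (by omega) le_rfl⟩
  refine ⟨⨆ n : ℕ, (D (n + 1) - b (n + 1)), fun m hm => ?_⟩
  obtain ⟨k, rfl⟩ : ∃ k, m = k + 1 := ⟨m - 1, by omega⟩
  have h1 := le_ciSup hbd k
  have h2 : (⨆ n : ℕ, (D (n + 1) - b (n + 1))) ≤ D (k + 1) + b (k + 1) :=
    ciSup_le fun n => key (n + 1) (k + 1) (by omega) (by omega)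
  rw [abs_le]; constructor <;> linarith

theorem an8_tel {δ : ℝ} (h0 : 0 < δ) (h1 : δ ≤ 1 / 4) {x : ℝ} (hx : 1 ≤ x) :
    δ / 4 * (x ^ (-δ) / x) ≤ x ^ (-δ) - (x + 1) ^ (-δ) := by
  have hx0 : 0 < x := by linarith
  have hl : 1 / (2 * x) ≤ log ((x + 1) / x) := by
    have a1 := Real.one_sub_inv_le_log_of_pos (x := (x + 1) / x) (by positivity)
    have a2 : 1 - ((x + 1) / x)⁻¹ = 1 / (x + 1) := by field_simp; ring
    have a3 : 1 / (2 * x) ≤ 1 / (x + 1) := one_div_le_one_div_of_le (by linarith) (by linarith)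
    linarith
  have e1 : (x + 1) ^ (-δ) = x ^ (-δ) * exp (-(δ * log ((x + 1) / x))) := by
    rw [Real.rpow_def_of_pos (by linarith), Real.rpow_def_of_pos hx0, ← Real.exp_add,
      Real.log_div (by linarith) hx0.ne']
    congr 1; ring
  set t := δ / (2 * x) with ht
  have ht0 : 0 < t := by positivity
  have ht1 : t ≤ 1 := by
    rw [ht, div_le_one (by positivity)]; linarith
  have e2 : exp (-(δ * log ((x + 1) / x))) ≤ 1 - t / 2 := by
    have b1 : exp (-(δ * log ((x + 1) / x))) ≤ exp (-t) := by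
      apply Real.exp_le_exp.2
      have : t = δ * (1 / (2 * x)) := by rw [ht]; ring
      rw [this]; nlinarith
    have b2 : exp (-t) ≤ 1 / (1 + t) := by
      rw [Real.exp_neg, ← one_div]
      exact one_div_le_one_div_of_le (by linarith) (by linarith [Real.add_one_le_exp t])
    have b3 : 1 / (1 + t) ≤ 1 - t / 2 := by
      rw [div_le_iff₀ (by linarith)]; nlinarith
    linarith
  have hp : 0 < x ^ (-δ) := Real.rpow_pos_of_pos hx0 _
  have e3 : δ / 4 * (x ^ (-δ) / x) = x ^ (-δ) * (t / 2) := by rw [ht]; field_simp; ring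
  rw [e1, e3]
  nlinarith

theorem an8_pow {δ : ℝ} (h0 : 0 < δ) (h1 : δ ≤ 1 / 4) {x : ℝ} (hx : 1 ≤ x) :
    x ^ (-δ) ≤ 8 / δ ^ 2 / log (x + 1) ^ 2 := by
  have hx0 : 0 < x := by linarith
  have hl : 0 < log (x + 1) := Real.log_pos (by linarith)
  have a1 := Real.log_le_rpow_div (x := x + 1) (ε := δ / 2) (by linarith) (by positivity)
  have a2 : ((x + 1) ^ (δ / 2)) ^ 2 = (x + 1) ^ δ := by
    rw [← Real.rpow_natCast, ← Real.rpow_mul (by linarith)]; congr 1; push_cast; ring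
  have a3 : (x + 1) ^ δ ≤ 2 * x ^ δ := by
    have b1 : (x + 1) ^ δ ≤ (2 * x) ^ δ :=
      Real.rpow_le_rpow (by linarith) (by linarith) h0.le
    rw [Real.mul_rpow (by norm_num) hx0.le] at b1
    have b2 : (2 : ℝ) ^ δ ≤ 2 ^ (1 : ℝ) :=
      Real.rpow_le_rpow_of_exponent_le (by norm_num) (by linarith)
    rw [Real.rpow_one] at b2
    have b3 : 0 < x ^ δ := Real.rpow_pos_of_pos hx0 _
    nlinarith
  have a4 : log (x + 1) ^ 2 ≤ 8 / δ ^ 2 * x ^ δ := by
    have c1 : log (x + 1) ^ 2 ≤ ((x + 1) ^ (δ / 2) / (δ / 2)) ^ 2 :=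
      pow_le_pow_left₀ hl.le a1 2
    rw [div_pow, a2] at c1
    have c2 : (x + 1) ^ δ / (δ / 2) ^ 2 ≤ 2 * x ^ δ / (δ / 2) ^ 2 :=
      div_le_div_of_nonneg_right a3 (by positivity)
    have c3 : 2 * x ^ δ / (δ / 2) ^ 2 = 8 / δ ^ 2 * x ^ δ := by field_simp; ring
    linarith
  have b3 : 0 < x ^ δ := Real.rpow_pos_of_pos hx0 _
  rw [Real.rpow_neg hx0.le, le_div_iff₀ (by positivity), inv_mul_le_iff₀ b3]
  linarith

theorem an8_succ (f : ℕ → ℝ) (m : ℕ) :
    ∑ p ∈ (range (m + 1 + 1)).filter Nat.Prime, f p =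
      ∑ p ∈ (range (m + 1)).filter Nat.Prime, f p + if (m + 1).Prime then f (m + 1) else 0 := by
  rw [sum_filter, sum_filter, sum_range_succ]

theorem an8_eq (f : ℕ → ℝ) (m : ℕ) :
    ∑ p ∈ (Icc 1 m).filter Nat.Prime, f p = ∑ p ∈ (range (m + 1)).filter Nat.Prime, f p := by
  refine sum_congr ?_ fun _ _ => rfl
  ext p
  simp only [mem_filter, mem_Icc, mem_range]
  constructor
  · rintro ⟨⟨_, h⟩, hp⟩; exact ⟨by omega, hp⟩
  · rintro ⟨h, hp⟩; exact ⟨⟨hp.one_le, by omega⟩, hp⟩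

theorem mert1 : ∃ c C : ℝ, 0 < C ∧ ∀ m : ℕ, 1 ≤ m →
    |∑ p ∈ (range (m + 1)).filter Nat.Prime, log p / p - log m - c| ≤
      C / log ((m : ℝ) + 1) ^ 2 := by
  obtain ⟨δ, C, h0, h1, hC, hθ⟩ := theta_one
  set T : ℕ → ℝ := fun m => ∑ p ∈ (range (m + 1)).filter Nat.Prime, log p / p with hT
  set E : ℕ → ℝ := fun m => ∑ p ∈ (range (m + 1)).filter Nat.Prime, log p - m with hE
  have hEb : ∀ m : ℕ, 1 ≤ m → |E m| ≤ C * ((m : ℝ) ^ (-δ) * m) := by
    intro m hm
    have hm' : (1 : ℝ) ≤ m := by exact_mod_cast hm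
    have := hθ m hm'
    rw [Nat.floor_natCast, an8_eq] at this
    have e : (m : ℝ) ^ (1 - δ) = (m : ℝ) ^ (-δ) * m := by
      rw [show 1 - δ = -δ + 1 by ring, Real.rpow_add_one (by linarith)]
    rw [e] at this
    exact this
  set K := 4 * (1 + C) / δ with hK
  have hK0 : 0 < K := by positivity
  obtain ⟨c, hc⟩ := an8_lim (fun m => T m - log m - E m / m) (fun m => K * (m : ℝ) ^ (-δ))
    (fun m _ => by positivity) (by
      intro m hm
      have hm' : (1 : ℝ) ≤ m := by exact_mod_cast hm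
      have hm0 : (0 : ℝ) < m := by linarith
      set a : ℝ := if (m + 1).Prime then log ((m + 1 : ℕ) : ℝ) else 0 with ha
      have t1 : T (m + 1) = T m + a / ((m : ℝ) + 1) := by
        simp only [hT, ha]
        rw [an8_succ (fun p => log p / p)]
        split_ifs <;> simp
      have t2 : E (m + 1) = E m + a - 1 := by
        simp only [hE, ha]
        rw [an8_succ (fun p => log p)]
        push_cast; ring
      have t3 : T (m + 1) - log ((m + 1 : ℕ) : ℝ) - E (m + 1) / ((m + 1 : ℕ) : ℝ) -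
          (T m - log m - E m / m) =
          (1 / ((m : ℝ) + 1) - log (((m : ℝ) + 1) / m)) + E m / (m * (m + 1)) := by
        rw [t1, t2, Real.log_div (by linarith) hm0.ne']
        push_cast; field_simp; ring
      have l1 := Real.one_sub_inv_le_log_of_pos (x := ((m : ℝ) + 1) / m) (by positivity)
      have l2 : 1 - (((m : ℝ) + 1) / m)⁻¹ = 1 / ((m : ℝ) + 1) := by field_simp; ring
      have l3 := Real.log_le_sub_one_of_pos (x := ((m : ℝ) + 1) / m) (by positivity)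
      have l4 : ((m : ℝ) + 1) / m - 1 = 1 / ((m : ℝ) + 1) + 1 / (m * (m + 1)) := by
        field_simp; ring
      have hp : 0 < (m : ℝ) ^ (-δ) := Real.rpow_pos_of_pos hm0 _
      have l5 : 1 / ((m : ℝ) * (m + 1)) ≤ (m : ℝ) ^ (-δ) / m := by
        have : (m : ℝ) ^ (-(1 : ℝ)) ≤ (m : ℝ) ^ (-δ) :=
          Real.rpow_le_rpow_of_exponent_le hm' (by linarith)
        rw [Real.rpow_neg_one] at this
        rw [div_le_div_iff₀ (by positivity) hm0]
        have h3 : (m : ℝ)⁻¹ * (m * (m + 1)) = m + 1 := by field_simp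
        nlinarith [mul_le_mul_of_nonneg_right this (show (0 : ℝ) ≤ m * (m + 1) by positivity)]
      have l6 : |E m / (m * (m + 1))| ≤ C * ((m : ℝ) ^ (-δ) / m) := by
        rw [abs_div, abs_of_pos (show (0 : ℝ) < m * (m + 1) by positivity),
          div_le_iff₀ (by positivity)]
        have : C * ((m : ℝ) ^ (-δ) / m) * (m * (m + 1)) = C * ((m : ℝ) ^ (-δ) * (m + 1)) := by
          field_simp
        rw [this]
        have := hEb m hm
        nlinarith [mul_pos hC hp]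
      have l7 := an8_tel h0 h1 hm'
      have l8 : K * (δ / 4 * ((m : ℝ) ^ (-δ) / m)) = (1 + C) * ((m : ℝ) ^ (-δ) / m) := by
        rw [hK]; field_simp
      have l9 := mul_le_mul_of_nonneg_left l7 hK0.le
      have l10 := abs_le.1 l6
      show |T (m + 1) - log ((m + 1 : ℕ) : ℝ) - E (m + 1) / ((m + 1 : ℕ) : ℝ) -
          (T m - log m - E m / m)| ≤ K * (m : ℝ) ^ (-δ) - K * ((m + 1 : ℕ) : ℝ) ^ (-δ)
      rw [t3, abs_le]
      push_cast
      constructor <;> nlinarith)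
  refine ⟨c, (K + C) * (8 / δ ^ 2), by positivity, fun m hm => ?_⟩
  have hm' : (1 : ℝ) ≤ m := by exact_mod_cast hm
  have hm0 : (0 : ℝ) < m := by linarith
  have b1 := abs_le.1 (hc m hm)
  have b2 : |E m / m| ≤ C * (m : ℝ) ^ (-δ) := by
    rw [abs_div, abs_of_pos hm0, div_le_iff₀ hm0]
    have := hEb m hm
    linarith
  have b3 := abs_le.1 b2
  have b4 := mul_le_mul_of_nonneg_left (an8_pow h0 h1 hm') (show 0 ≤ K + C by positivity)
  rw [mul_div_assoc]
  show |T m - log m - c| ≤ _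
  rw [abs_le]
  constructor <;> nlinarith

theorem th_seq : ∃ (C : ℝ) (θ : ℕ → ℝ), 0 < C ∧ (∀ m, 1 ≤ m → θ m ≤ log m ∧ log m - C ≤ θ m ∧
    θ m ≤ θ (m + 1)) ∧ ∀ m, 1 ≤ m → (m + 1).Prime →
      θ m + log ((m + 1 : ℕ) : ℝ) / ((m + 1 : ℕ) : ℝ) ≤ θ (m + 1) ∧
      log ((m + 1 : ℕ) : ℝ) - θ m ≤ C / log ((m + 1 : ℕ) : ℝ) ^ 2 := by
  obtain ⟨c, C, hC, h⟩ := mert1
  set T : ℕ → ℝ := fun m => ∑ p ∈ (range (m + 1)).filter Nat.Prime, log p / p with hT
  have hstep : ∀ m : ℕ, T (m + 1) = T m +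
      if (m + 1).Prime then log ((m + 1 : ℕ) : ℝ) / ((m + 1 : ℕ) : ℝ) else 0 := fun m =>
    an8_succ (fun p => log p / p) m
  have hdec : ∀ m : ℕ, 1 ≤ m →
      C / log (((m + 1 : ℕ) : ℝ) + 1) ^ 2 ≤ C / log ((m : ℝ) + 1) ^ 2 := by
    intro m hm
    have hm' : (1 : ℝ) ≤ m := by exact_mod_cast hm
    have hl : 0 < log ((m : ℝ) + 1) := Real.log_pos (by linarith)
    refine div_le_div_of_nonneg_left hC.le (by positivity) (pow_le_pow_left₀ hl.le ?_ 2)
    exact Real.log_le_log (by linarith) (by push_cast; linarith)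
  refine ⟨5 * C + 8, fun m => T m - c - C / log ((m : ℝ) + 1) ^ 2, by positivity,
    fun m hm => ?_, fun m hm hp => ?_⟩
  · have hm' : (1 : ℝ) ≤ m := by exact_mod_cast hm
    have b := abs_le.1 (h m hm)
    have hl : log 2 ≤ log ((m : ℝ) + 1) := Real.log_le_log (by norm_num) (by linarith)
    have h2 := Real.log_two_gt_d9
    have b2 : C / log ((m : ℝ) + 1) ^ 2 ≤ 5 / 2 * C := by
      rw [div_le_iff₀ (by nlinarith)]
      have : (2 : ℝ) / 5 ≤ log ((m : ℝ) + 1) ^ 2 := by nlinarith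
      nlinarith
    have b3 : T m ≤ T (m + 1) := by
      rw [hstep]
      split_ifs
      · have : 0 ≤ log ((m + 1 : ℕ) : ℝ) / ((m + 1 : ℕ) : ℝ) :=
          div_nonneg (Real.log_natCast_nonneg _) (Nat.cast_nonneg _)
        linarith
      · simp
    have b4 := hdec m hm
    refine ⟨?_, ?_, ?_⟩
    · show T m - c - C / log ((m : ℝ) + 1) ^ 2 ≤ log m
      linarith [b.2]
    · show log m - (5 * C + 8) ≤ T m - c - C / log ((m : ℝ) + 1) ^ 2
      linarith [b.1]
    · show T m - c - C / log ((m : ℝ) + 1) ^ 2 ≤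
        T (m + 1) - c - C / log (((m + 1 : ℕ) : ℝ) + 1) ^ 2
      linarith
  · have hm' : (1 : ℝ) ≤ m := by exact_mod_cast hm
    have hm0 : (0 : ℝ) < m := by linarith
    have b := abs_le.1 (h m hm)
    have b3 := hstep m
    rw [if_pos hp] at b3
    have b4 := hdec m hm
    refine ⟨?_, ?_⟩
    · show T m - c - C / log ((m : ℝ) + 1) ^ 2 + _ ≤
        T (m + 1) - c - C / log (((m + 1 : ℕ) : ℝ) + 1) ^ 2
      linarith
    · show log ((m + 1 : ℕ) : ℝ) - (T m - c - C / log ((m : ℝ) + 1) ^ 2) ≤ _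
      push_cast
      have hl : 0 < log ((m : ℝ) + 1) := Real.log_pos (by linarith)
      have l3 := Real.log_le_sub_one_of_pos (x := ((m : ℝ) + 1) / m) (by positivity)
      rw [Real.log_div (by linarith) hm0.ne'] at l3
      have l4 : ((m : ℝ) + 1) / m - 1 = 1 / m := by field_simp; ring
      have l5 : log ((m : ℝ) + 1) ^ 2 ≤ 8 * m := by
        have a1 := Real.log_le_rpow_div (x := (m : ℝ) + 1) (ε := 1 / 2) (by linarith)
          (by norm_num)
        have a2 : (((m : ℝ) + 1) ^ (1 / 2 : ℝ)) ^ 2 = m + 1 := by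
          rw [← Real.rpow_natCast, ← Real.rpow_mul (by linarith)]; norm_num
        have a3 := pow_le_pow_left₀ hl.le a1 2
        rw [div_pow, a2] at a3
        have a4 : ((m : ℝ) + 1) / (1 / 2) ^ 2 = 4 * (m + 1) := by ring
        linarith
      have l6 : 1 / (m : ℝ) ≤ 8 / log ((m : ℝ) + 1) ^ 2 := by
        rw [div_le_div_iff₀ hm0 (by positivity)]; linarith
      have l7 : (5 * C + 8) / log ((m : ℝ) + 1) ^ 2 =
          5 * (C / log ((m : ℝ) + 1) ^ 2) + 8 / log ((m : ℝ) + 1) ^ 2 := by ring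
      have l8 : 0 ≤ C / log ((m : ℝ) + 1) ^ 2 := by positivity
      rw [l7]
      linarith [b.1]

end Vale.Agent.P013
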