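import Vale.Agent.P013.An5
import Vale.Agent.P013.Bas

namespace Vale.Agent.P013

open Finset Real Filter

open Classical

theorem an9_eq (f : ℕ → ℝ) (m : ℕ) :
    ∑ p ∈ (Icc 1 m).filter Nat.Prime, f p = ∑ p ∈ (range (m + 1)).filter Nat.Prime, f p := by
  refine sum_congr ?_ fun _ _ => rfl
  ext p
  simp only [mem_filter, mem_Icc, mem_range]
  constructor
  · rintro ⟨⟨_, h⟩, hp⟩; exact ⟨by omega, hp⟩
  · rintro ⟨h, hp⟩; exact ⟨⟨hp.one_le, by omega⟩, hp⟩

theorem an9_F {c : ℝ}
    (h : ∀ m : ℕ, 1 ≤ m → ∑ p ∈ (range (m + 1)).filter Nat.Prime, log p ≤ c * m) :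
    ∀ m : ℕ, 1 ≤ m →
      ∑ p ∈ (range (m + 1)).filter Nat.Prime, log p * (log m - log p) ≤ c * m := by
  intro m hm
  have hc : 0 ≤ c := by
    have := h 1 le_rfl
    have h0 : 0 ≤ ∑ p ∈ (range (1 + 1)).filter Nat.Prime, log (p : ℝ) :=
      sum_nonneg fun p _ => Real.log_natCast_nonneg p
    simpa using h0.trans this
  induction m, hm using Nat.le_induction with
  | base =>
    have : (range (1 + 1)).filter Nat.Prime = ∅ := by decide
    rw [this]; simpa using hc
  | succ m hm ih =>
    have hm' : (1 : ℝ) ≤ m := by exact_mod_cast hm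
    have hm0 : (0 : ℝ) < m := by linarith
    have e1 : ∑ p ∈ (range (m + 1 + 1)).filter Nat.Prime,
        log (p : ℝ) * (log ((m + 1 : ℕ) : ℝ) - log p) =
        ∑ p ∈ (range (m + 1)).filter Nat.Prime, log (p : ℝ) * (log m - log p) +
          (∑ p ∈ (range (m + 1)).filter Nat.Prime, log (p : ℝ)) *
            (log ((m : ℝ) + 1) - log m) := by
      rw [sum_filter, sum_range_succ, ← sum_filter, sum_mul, ← sum_add_distrib]
      simp only [sub_self, mul_zero, ite_self, add_zero]
      refine sum_congr rfl fun p _ => ?_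
      push_cast; ring
    have l3 := Real.log_le_sub_one_of_pos (x := ((m : ℝ) + 1) / m) (by positivity)
    rw [Real.log_div (by linarith) hm0.ne'] at l3
    have l4 : ((m : ℝ) + 1) / m - 1 = 1 / m := by field_simp; ring
    have l5 : 0 ≤ log ((m : ℝ) + 1) - log m :=
      sub_nonneg.2 (Real.log_le_log hm0 (by linarith))
    have l6 : (∑ p ∈ (range (m + 1)).filter Nat.Prime, log (p : ℝ)) *
        (log ((m : ℝ) + 1) - log m) ≤ c * m * (1 / m) :=
      mul_le_mul (h m hm) (by linarith) l5 (by positivity)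
    have l7 : c * m * (1 / (m : ℝ)) = c := by field_simp
    rw [e1]; push_cast; linarith

theorem pi_asy : ∃ C : ℝ, 0 < C ∧ ∀ u : ℝ, 1 ≤ u →
    |((PL u).card : ℝ) - exp u / u| ≤ C * exp u / u ^ 2 := by
  obtain ⟨δ, C, h0, h1, hC, hθ⟩ := theta_one
  have hlin : ∀ m : ℕ, 1 ≤ m →
      ∑ p ∈ (range (m + 1)).filter Nat.Prime, log p ≤ (1 + C) * m := by
    intro m hm
    have hm' : (1 : ℝ) ≤ m := by exact_mod_cast hm
    have := hθ m hm'
    rw [Nat.floor_natCast, an9_eq] at this
    have e : (m : ℝ) ^ (1 - δ) ≤ (m : ℝ) ^ (1 : ℝ) :=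
      Real.rpow_le_rpow_of_exponent_le hm' (by linarith)
    rw [Real.rpow_one] at e
    nlinarith [(abs_le.1 this).2]
  refine ⟨C / δ + (4 * (1 + C) + 16), by positivity, fun u hu => ?_⟩
  have hu0 : 0 < u := by linarith
  set x := exp u with hx
  have hx1 : 1 ≤ x := Real.one_le_exp hu0.le
  have hx0 : 0 < x := by linarith
  set N := ⌊x⌋₊ with hN
  have hN1 : 1 ≤ N := Nat.le_floor (by simpa using hx1)
  have hN' : (1 : ℝ) ≤ N := by exact_mod_cast hN1
  have hNx : (N : ℝ) ≤ x := Nat.floor_le hx0.le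
  have hxN : x < N + 1 := Nat.lt_floor_add_one x
  have hPL : PL u = (range (N + 1)).filter Nat.Prime := rfl
  have a1 := hθ x hx1
  rw [an9_eq] at a1
  have a2 : x ^ (1 - δ) ≤ x / (δ * u) := by
    rw [show 1 - δ = -δ + 1 by ring, Real.rpow_add_one hx0.ne', hx, ← Real.exp_mul,
      le_div_iff₀ (by positivity)]
    have b1 := Real.add_one_le_exp (δ * u)
    have b2 : exp (u * -δ) * exp (δ * u) = 1 := by rw [← Real.exp_add]; simp [mul_comm]
    have b3 := Real.exp_pos (u * -δ)
    have b4 := Real.exp_pos u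
    have b5 : exp (u * -δ) * (δ * u) ≤ 1 := by nlinarith
    nlinarith
  have hlog : u - log N ≤ 1 := by
    have b1 : log x ≤ log (2 * N) := Real.log_le_log hx0 (by linarith)
    rw [Real.log_mul (by norm_num) (by linarith), hx, Real.log_exp] at b1
    linarith [Real.log_two_lt_d9]
  have a3 : ∑ p ∈ (range (N + 1)).filter Nat.Prime, log p * (u - log p) ≤ 2 * (1 + C) * x := by
    have b1 := an9_F hlin N hN1
    have b2 := hlin N hN1
    have b3 : ∑ p ∈ (range (N + 1)).filter Nat.Prime, log (p : ℝ) * (u - log p) ≤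
        ∑ p ∈ (range (N + 1)).filter Nat.Prime, (log (p : ℝ) * (log N - log p) + log p) :=
      sum_le_sum fun p _ => by nlinarith [Real.log_natCast_nonneg p]
    rw [sum_add_distrib] at b3
    nlinarith
  have hle : ∀ p ∈ (range (N + 1)).filter Nat.Prime, log (p : ℝ) ≤ u := fun p hp =>
    (mem_PL.1 (hPL ▸ hp)).2
  have a4 : ∑ p ∈ (range (N + 1)).filter Nat.Prime, (u - log p) ≤
      (4 * (1 + C) + 16) * x / u := by
    have b1 : ∑ p ∈ (range (N + 1)).filter Nat.Prime, (u - log (p : ℝ)) ≤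
        ∑ p ∈ (range (N + 1)).filter Nat.Prime, (2 / u * (log (p : ℝ) * (u - log p)) +
          if p ∈ range (⌊exp (u / 2)⌋₊ + 1) then u else 0) := by
      refine sum_le_sum fun p hp => ?_
      have c1 := hle p hp
      have c0 := Real.log_natCast_nonneg p
      have c2 : 0 ≤ 2 / u * (log (p : ℝ) * (u - log p)) :=
        mul_nonneg (by positivity) (mul_nonneg c0 (by linarith))
      split_ifs with hq
      · linarith
      · have c3 : exp (u / 2) ≤ p := by
          rw [mem_range, not_lt] at hq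
          have := Nat.lt_floor_add_one (exp (u / 2))
          have h4 : ((⌊exp (u / 2)⌋₊ + 1 : ℕ) : ℝ) ≤ p := by exact_mod_cast hq
          push_cast at h4; linarith
        have c4 : u / 2 ≤ log p := by
          have := Real.log_le_log (Real.exp_pos _) c3
          rwa [Real.log_exp] at this
        have c5 : 2 / u * (log (p : ℝ) * (u - log p)) = (2 * log p / u) * (u - log p) := by ring
        have c6 : 1 ≤ 2 * log (p : ℝ) / u := by rw [le_div_iff₀ hu0]; linarith
        rw [c5]; nlinarith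
    rw [sum_add_distrib, ← mul_sum] at b1
    have b2 : ∑ p ∈ (range (N + 1)).filter Nat.Prime,
        (if p ∈ range (⌊exp (u / 2)⌋₊ + 1) then u else 0) ≤ 2 * exp (u / 2) * u := by
      rw [← sum_filter, sum_const, nsmul_eq_mul]
      refine mul_le_mul_of_nonneg_right ?_ hu0.le
      have c1 : (((range (N + 1)).filter Nat.Prime).filter
          (fun p => p ∈ range (⌊exp (u / 2)⌋₊ + 1))).card ≤ ⌊exp (u / 2)⌋₊ + 1 := by
        refine (card_le_card fun p hp => (mem_filter.1 hp).2).trans (by simp)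
      have c2 : ((⌊exp (u / 2)⌋₊ : ℕ) : ℝ) ≤ exp (u / 2) := Nat.floor_le (Real.exp_pos _).le
      have c3 : 1 ≤ exp (u / 2) := Real.one_le_exp (by linarith)
      have c4 : ((((range (N + 1)).filter Nat.Prime).filter
          (fun p => p ∈ range (⌊exp (u / 2)⌋₊ + 1))).card : ℝ) ≤ (⌊exp (u / 2)⌋₊ : ℕ) + 1 := by
        exact_mod_cast c1
      linarith
    have b3 : 2 * exp (u / 2) * u ≤ 16 * x / u := by
      have c1 := Real.quadratic_le_exp_of_nonneg (x := u / 2) (by linarith)
      have c2 : x = exp (u / 2) * exp (u / 2) := by rw [hx, ← Real.exp_add]; ring_nf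
      have c3 := Real.exp_pos (u / 2)
      rw [le_div_iff₀ hu0, c2]
      nlinarith
    have b4 : 2 / u * ∑ p ∈ (range (N + 1)).filter Nat.Prime, log (p : ℝ) * (u - log p) ≤
        2 / u * (2 * (1 + C) * x) := mul_le_mul_of_nonneg_left a3 (by positivity)
    have b5 : (4 * (1 + C) + 16) * x / u = 2 / u * (2 * (1 + C) * x) + 16 * x / u := by ring
    linarith
  have a5 : 0 ≤ ∑ p ∈ (range (N + 1)).filter Nat.Prime, (u - log (p : ℝ)) :=
    sum_nonneg fun p hp => sub_nonneg.2 (hle p hp)
  rw [sum_sub_distrib, sum_const, nsmul_eq_mul] at a4 a5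
  rw [hPL]
  set n : ℝ := (((range (N + 1)).filter Nat.Prime).card : ℝ)
  set t : ℝ := ∑ p ∈ (range (N + 1)).filter Nat.Prime, log (p : ℝ)
  have a6 : |n * u - x| ≤ (C / δ + (4 * (1 + C) + 16)) * x / u := by
    have b1 := abs_le.1 a1
    have b2 : C * x ^ (1 - δ) ≤ C / δ * x / u := by
      have : C / δ * x / u = C * (x / (δ * u)) := by field_simp
      rw [this]; exact mul_le_mul_of_nonneg_left a2 hC.le
    have b3 : (C / δ + (4 * (1 + C) + 16)) * x / u =
        C / δ * x / u + (4 * (1 + C) + 16) * x / u := by ring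
    have b4 : 0 ≤ (4 * (1 + C) + 16) * x / u := by positivity
    rw [abs_le]; constructor <;> linarith [b1.1, b1.2]
  have a7 : n - x / u = (n * u - x) / u := by field_simp
  rw [a7, abs_div, abs_of_pos hu0, div_le_iff₀ hu0]
  have a8 : (C / δ + (4 * (1 + C) + 16)) * x / u ^ 2 * u =
      (C / δ + (4 * (1 + C) + 16)) * x / u := by field_simp
  rw [a8]; exact a6

end Vale.Agent.P013
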