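import Vale.Agent.P013.Win

namespace Vale.Agent.P013

open Finset Real Filter

open Classical

theorem bx_et {κ y : ℕ} (h : 1 ≤ L1 y) : 0 < et κ y ∧ et κ y ≤ 1 := by
  unfold et
  have : 1 ≤ L1 y ^ (κ + 2) := one_le_pow₀ h
  exact ⟨by positivity, (div_le_one (by positivity)).2 this⟩

theorem box_str (κ e : ℕ) : ∀ᶠ y : ℕ in atTop, ∀ (k : Fin (e + 1) → ℕ) (i : Fin (e + 1)),
    rc (Box (lab (et κ y)) (RgF κ e y) k i) ≤ 1 ∧ ∀ q ∈ Box (lab (et κ y)) (RgF κ e y) k i,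
      q.Prime ∧ et κ y * (k i - 1) < log q ∧ log q ≤ et κ y * k i ∧
      L2 y ^ (8 * i.val + 2) - 1 ≤ et κ y * (k i - 1) ∧ et κ y * k i ≤ L2 y ^ (8 * i.val + 4) := by
  obtain ⟨C, C0, hC⟩ := win
  filter_upwards [L1_top.eventually_ge_atTop 1, L2_top.eventually_ge_atTop (2 * C + 2)]
    with y h1 h2 k i
  obtain ⟨e0, e1⟩ := bx_et (κ := κ) h1
  have hq : ∀ q ∈ Box (lab (et κ y)) (RgF κ e y) k i,
      q.Prime ∧ et κ y * (k i - 1) < log q ∧ log q ≤ et κ y * k i ∧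
      L2 y ^ (8 * i.val + 2) - 1 ≤ et κ y * (k i - 1) ∧
      et κ y * k i ≤ L2 y ^ (8 * i.val + 4) := by
    intro q hq
    obtain ⟨a1, a2⟩ := mem_filter.1 hq
    obtain ⟨a3, a4, a5⟩ := mem_filter.1 a1
    have hp := (mem_PL.1 a3).1
    have a6 := le_rl e0 q
    unfold rl at a4 a5 a6
    rw [a2] at a4 a5 a6
    refine ⟨hp, ?_, a6, by linarith, a5⟩
    have a7 : (lab (et κ y) q : ℝ) < log q / et κ y + 1 :=
      Nat.ceil_lt_add_one (div_nonneg (Real.log_natCast_nonneg q) e0.le)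
    rw [a2] at a7
    have a8 : (k i : ℝ) - 1 < log q / et κ y := by linarith
    rw [lt_div_iff₀ e0] at a8
    linarith
  refine ⟨?_, hq⟩
  have h3 : L2 y ≤ L2 y ^ (8 * i.val + 2) :=
    le_self_pow₀ (by linarith) (by omega)
  have h4 := hC (2 * C) (et κ y * (k i - 1)) (et κ y) _ (by positivity) e0.le (fun p hp => by
    obtain ⟨a1, a2, a3, a4, _⟩ := hq p hp
    exact ⟨a1, by linarith, a2.le, by linarith⟩)
  refine h4.trans ?_
  rw [div_le_one (by positivity)]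
  nlinarith

theorem box_card (κ e : ℕ) : ∀ᶠ y : ℕ in atTop,
    ((Fintype.piFinset fun i => (RgF κ e y i).image (lab (et κ y))).card : ℝ) ≤
      L1 y ^ ((κ + 4) * (e + 1)) := by
  filter_upwards [L1_top.eventually_ge_atTop 2, L2_top.eventually_ge_atTop 1,
    ev_L2 1 (8 * e + 4) one_pos] with y h1 h2 h3
  obtain ⟨e0, e1⟩ := bx_et (κ := κ) (y := y) (by linarith)
  rw [one_mul, Real.rpow_one] at h3
  have h : ∀ i : Fin (e + 1),
      (((RgF κ e y i).image (lab (et κ y))).card : ℝ) ≤ L1 y ^ (κ + 4) := by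
    intro i
    have a1 : (RgF κ e y i).image (lab (et κ y)) ⊆ range (⌊L1 y ^ (κ + 3)⌋₊ + 1) := by
      intro c hc
      obtain ⟨p, hp, rfl⟩ := mem_image.1 hc
      have a2 := (mem_filter.1 hp).2.2
      have a3 : L2 y ^ (8 * i.val + 4) ≤ L2 y ^ (8 * e + 4) :=
        pow_le_pow_right₀ h2 (by have := i.2; omega)
      refine mem_range.2 (Nat.lt_succ_of_le (Nat.le_floor ?_))
      have a4 : et κ y * lab (et κ y) p ≤ L1 y := by unfold rl at a2; linarith
      have a5 : (0 : ℝ) < L1 y ^ (κ + 2) := by positivity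
      have a6 : et κ y * L1 y ^ (κ + 2) = 1 := by unfold et; field_simp
      calc (lab (et κ y) p : ℝ) = et κ y * lab (et κ y) p * L1 y ^ (κ + 2) := by
            rw [mul_right_comm, a6, one_mul]
        _ ≤ L1 y * L1 y ^ (κ + 2) := mul_le_mul_of_nonneg_right a4 a5.le
        _ = _ := by ring
    have a7 := card_le_card a1
    rw [card_range] at a7
    have a8 : (⌊L1 y ^ (κ + 3)⌋₊ : ℝ) ≤ L1 y ^ (κ + 3) := Nat.floor_le (by positivity)
    have a9 : 1 ≤ L1 y ^ (κ + 3) := one_le_pow₀ (by linarith)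
    calc _ ≤ ((⌊L1 y ^ (κ + 3)⌋₊ + 1 : ℕ) : ℝ) := by exact_mod_cast a7
      _ ≤ L1 y ^ (κ + 3) * 2 := by push_cast; linarith
      _ ≤ L1 y ^ (κ + 3) * L1 y := mul_le_mul_of_nonneg_left h1 (by positivity)
      _ = _ := by ring
  rw [Fintype.card_piFinset, Nat.cast_prod]
  refine (Finset.prod_le_prod (fun i _ => Nat.cast_nonneg _) fun i _ => h i).trans (le_of_eq ?_)
  rw [Finset.prod_const, card_univ, Fintype.card_fin, ← pow_mul]

theorem bx_rc0 (S : Finset ℕ) : 0 ≤ rc S := Finset.sum_nonneg fun _ _ => by positivity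

theorem box_mass (κ e : ℕ) : ∀ᶠ y : ℕ in atTop,
    ∑ k ∈ Fintype.piFinset (fun i => (RgF κ e y i).image (lab (et κ y))), MK κ e y k ≤ L1 y := by
  obtain ⟨C, C0, hC⟩ := rc_PL
  filter_upwards [L2_top.eventually_ge_atTop 1,
    ev_L2 ((8 * e + 4 + C) ^ (e + 1)) (e + 1) one_pos] with y h2 h3
  rw [Real.rpow_one] at h3
  have h1 : ∑ k ∈ Fintype.piFinset (fun i => (RgF κ e y i).image (lab (et κ y))), MK κ e y k =
      ∏ i, ∑ c ∈ (RgF κ e y i).image (lab (et κ y)),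
        rc ((RgF κ e y i).filter fun p => lab (et κ y) p = c) := by
    rw [Finset.prod_univ_sum]
    rfl
  have h4 : ∀ i : Fin (e + 1), ∑ c ∈ (RgF κ e y i).image (lab (et κ y)),
      rc ((RgF κ e y i).filter fun p => lab (et κ y) p = c) = rc (RgF κ e y i) := fun i =>
    Finset.sum_fiberwise_of_maps_to (fun p hp => mem_image_of_mem _ hp) _
  have h5 : ∀ i : Fin (e + 1), rc (RgF κ e y i) ≤ (8 * e + 4 + C) * L2 y := by
    intro i
    have a1 : rc (RgF κ e y i) ≤ rc (PL (L2 y ^ (8 * i.val + 4))) :=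
      Finset.sum_le_sum_of_subset_of_nonneg (filter_subset _ _) fun _ _ _ => by positivity
    have a2 := hC (L2 y ^ (8 * i.val + 4)) (one_le_pow₀ h2)
    rw [Real.log_pow] at a2
    have a3 : log (L2 y) ≤ L2 y := (Real.log_le_sub_one_of_pos (by linarith)).trans (by linarith)
    have a4 : ((8 * i.val + 4 : ℕ) : ℝ) ≤ 8 * e + 4 := by
      have : 8 * i.val + 4 ≤ 8 * e + 4 := by have := i.2; omega
      exact_mod_cast this
    have a5 : ((8 * i.val + 4 : ℕ) : ℝ) * log (L2 y) ≤ (8 * e + 4) * L2 y :=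
      mul_le_mul a4 a3 (Real.log_nonneg h2) (by positivity)
    nlinarith
  rw [h1]
  simp only [h4]
  refine (Finset.prod_le_prod (fun i _ => bx_rc0 _) fun i _ => h5 i).trans ?_
  rw [Finset.prod_const, card_univ, Fintype.card_fin, mul_pow]
  exact h3

theorem RS_le {e : ℕ} (Q : Fin e → Finset ℕ) (δ : Fin e → ℕ → ℝ) (M : ℤ) (d : ℕ) :
    ‖RS Q δ M d‖ ≤ ∏ i, ∑ q ∈ Q i, |δ i q| := by
  rw [Finset.prod_univ_sum]
  refine (norm_sum_le _ _).trans (le_of_eq (Finset.sum_congr rfl fun a _ => ?_))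
  rw [norm_mul, norm_ee, mul_one, Complex.norm_real, Real.norm_eq_abs, Finset.abs_prod]

theorem bx_cons {e : ℕ} (Q : Fin (e + 1) → Finset ℕ) (F : (Fin (e + 1) → ℕ) → ℂ) :
    ∑ a ∈ Fintype.piFinset Q, F a = ∑ q ∈ Q 0,
      ∑ a ∈ Fintype.piFinset (fun i : Fin e => Q i.succ), F (Fin.cons q a) := by
  rw [← Finset.sum_product']
  refine Finset.sum_nbij' (fun a => (a 0, fun i => a i.succ)) (fun x => Fin.cons x.1 x.2)
    ?_ ?_ ?_ ?_ ?_
  · intro a ha
    have := Fintype.mem_piFinset.1 ha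
    exact mem_product.2 ⟨this 0, Fintype.mem_piFinset.2 fun i => this _⟩
  · intro x hx
    obtain ⟨h1, h2⟩ := mem_product.1 hx
    refine Fintype.mem_piFinset.2 fun i => ?_
    refine Fin.cases ?_ (fun j => ?_) i
    · simpa using h1
    · simpa using Fintype.mem_piFinset.1 h2 j
  · intro a _
    exact Fin.cons_self_tail a
  · intro x _
    simp
  · intro a _
    exact congrArg F (Fin.cons_self_tail a).symm

theorem RS_split {e : ℕ} (Q : Fin (e + 1) → Finset ℕ) (c : Fin (e + 1) → ℝ) (hc : ∀ i, 0 < c i)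
    (h : ∀ q ∈ Q 0, c 0 ≤ q) (M : ℤ) (d : ℕ) :
    (∏ i, c i) * ‖RS Q (fun _ q => 1 / (q : ℝ)) M d‖ ≤ ∑ q ∈ Q 0, ‖RS (fun i => Q i.succ)
      (fun i p => if p ∈ Q i.succ then c i.succ / p else 0) M (d * q)‖ := by
  have h0 : 0 ≤ ∏ i, c i := Finset.prod_nonneg fun i _ => (hc i).le
  have h1 : ((∏ i, c i : ℝ) : ℂ) * RS Q (fun _ q => 1 / (q : ℝ)) M d =
      ∑ q ∈ Q 0, ((c 0 / q : ℝ) : ℂ) * RS (fun i => Q i.succ)
        (fun i p => if p ∈ Q i.succ then c i.succ / p else 0) M (d * q) := by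
    unfold RS
    rw [bx_cons, Finset.mul_sum]
    refine Finset.sum_congr rfl fun q _ => ?_
    rw [Finset.mul_sum, Finset.mul_sum]
    refine Finset.sum_congr rfl fun a ha => ?_
    have ha' := Fintype.mem_piFinset.1 ha
    rw [← mul_assoc, ← mul_assoc, ← Complex.ofReal_mul, ← Complex.ofReal_mul]
    congr 2
    · simp only [Fin.prod_univ_succ, Fin.cons_zero, Fin.cons_succ, ha', if_true]
      rw [mul_mul_mul_comm, ← Finset.prod_mul_distrib]
      simp only [mul_one_div]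
    · simp only [Fin.prod_univ_succ, Fin.cons_zero, Fin.cons_succ, Nat.cast_mul, mul_assoc]
  have h2 : (∏ i, c i) * ‖RS Q (fun _ q => 1 / (q : ℝ)) M d‖ =
      ‖((∏ i, c i : ℝ) : ℂ) * RS Q (fun _ q => 1 / (q : ℝ)) M d‖ := by
    rw [norm_mul, Complex.norm_real, Real.norm_eq_abs, abs_of_nonneg h0]
  rw [h2, h1]
  refine (norm_sum_le _ _).trans (Finset.sum_le_sum fun q hq => ?_)
  rw [norm_mul, Complex.norm_real, Real.norm_eq_abs]
  have a1 : (0 : ℝ) < q := (hc 0).trans_le (h q hq)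
  refine mul_le_of_le_one_left (norm_nonneg _) ?_
  rw [abs_of_nonneg (div_nonneg (hc 0).le a1.le)]
  exact (div_le_one a1).2 (h q hq)

end Vale.Agent.P013
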