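import Vale.Agent.P013.Par4

namespace Vale.Agent.P013

open Finset Real Filter

open Classical

theorem diff_et {κ y : ℕ} {β : ℝ} (hL : 4 ≤ L1 y) (h0 : 0 ≤ β) (h : β ≤ L1 y) :
    0 < et κ y ∧ et κ y * (2 * β + 4) ≤ 1 := by
  have L0 : 0 < L1 y := by linarith
  refine ⟨by unfold et; positivity, ?_⟩
  rw [et, one_div_mul_eq_div, div_le_one (by positivity)]
  have h1 : L1 y ^ 2 ≤ L1 y ^ (κ + 2) := pow_le_pow_right₀ (by linarith) (by omega)
  nlinarith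

theorem diff : ∃ κ0 : ℕ, ∀ κ : ℕ, κ0 ≤ κ → ∀ t : ℝ, 0 < t → t ≤ 1 / 100 → ∀ᶠ y : ℕ in atTop,
    ∀ b ∈ bs t y, ∀ β : ℝ, 1.6 * (t * L1 y) ≤ β → β ≤ 2.9 * (t * L1 y) →
    κ / 9 * (L2 y / L1 y ^ 2) ≤ VV (okR (et κ y) β) 1 (lo (P1 y) b) -
      VV (okR (et κ y) (β + κ * L2 y)) 1 (lo (P1 y) b) := by
  obtain ⟨C, C0, hC⟩ := par1
  refine ⟨⌈18 * C⌉₊, fun κ hκ t t0 t1 => ?_⟩
  have k1 : 18 * C ≤ κ := (Nat.le_ceil _).trans (Nat.cast_le.2 hκ)
  filter_upwards [ev_lin κ 1 (show 0 < 0.05 * t by positivity),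
    ev_lin 3 1 (show (0 : ℝ) < 0.9 by norm_num), L1_top.eventually_ge_atTop (60 / t),
    L1_top.eventually_ge_atTop 4] with y e1 e2 e3 e4 b hb β h1 h2
  rw [pow_one] at e1 e2
  rw [div_le_iff₀ t0] at e3
  obtain ⟨hb1, hb2⟩ := mem_filter.1 hb
  obtain ⟨hp, hb3⟩ := mem_PL.1 hb1
  have l0 : 0 ≤ L2 y := Real.log_nonneg (show 1 ≤ L1 y by linarith)
  have tL : t * L1 y ≤ 1 / 100 * L1 y := mul_le_mul_of_nonneg_right t1 (by linarith)
  have hbP : b ∈ PL (be y / 2) := mem_PL.2 ⟨hp, by unfold be; linarith⟩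
  have b2 : (2 : ℝ) ≤ b := by exact_mod_cast hp.two_le
  have u1 : log ((b : ℝ) - 1) ≤ log b := Real.log_le_log (by linarith) (by linarith)
  have u2 : log b - 1 ≤ log ((b : ℝ) - 1) := by
    have := Real.log_le_log (by linarith) (show (b : ℝ) ≤ 2 * ((b : ℝ) - 1) by linarith)
    rw [Real.log_mul two_ne_zero (by linarith)] at this
    linarith [Real.log_two_lt_d9]
  have kl : 0 ≤ κ * L2 y := by positivity
  rw [P1, lo_PL hbP]
  generalize log ((b : ℝ) - 1) = u at *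
  obtain ⟨τ, hτ⟩ : ∃ τ, τ = t * L1 y := ⟨_, rfl⟩
  rw [mul_assoc, ← hτ] at e1
  rw [mul_comm, ← hτ] at e3
  rw [← hτ] at h1 h2 hb2 hb3 tL
  have key : ∀ γ, β ≤ γ → γ ≤ β + κ * L2 y →
      |VV (okR (et κ y) γ) 1 (PL u) - 2 / γ| ≤ C * L2 y / τ ^ 2 := by
    intro γ g1 g2
    obtain ⟨a1, a2⟩ := diff_et (κ := κ) e4 (show 0 ≤ γ by linarith) (by linarith)
    refine (hC _ γ u (by linarith) a1 a2 (by linarith) (by linarith)).trans ?_
    have a3 : log γ ≤ L2 y := Real.log_le_log (by linarith) (show γ ≤ L1 y by linarith)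
    exact div_le_div₀ (by positivity) (mul_le_mul_of_nonneg_left a3 C0.le) (by nlinarith)
      (pow_le_pow_left₀ (by linarith) (by linarith) 2)
  have k2 := (abs_le.1 (key β le_rfl (by linarith))).1
  have k3 := (abs_le.1 (key _ (by linarith) le_rfl)).2
  have τ0 : 0 < τ := by linarith
  have β0 : 0 < β := by linarith
  have k4 : 2 * (κ * L2 y) / (9 * τ ^ 2) ≤ 2 / β - 2 / (β + κ * L2 y) := by
    have : 2 / β - 2 / (β + κ * L2 y) = 2 * (κ * L2 y) / (β * (β + κ * L2 y)) := by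
      field_simp; ring
    rw [this]
    refine div_le_div_of_nonneg_left (by positivity) (by positivity) ?_
    have := mul_le_mul (show β ≤ 3 * τ by linarith) (show β + κ * L2 y ≤ 3 * τ by linarith)
      (by positivity) (by positivity)
    linarith
  have k5 : L2 y / L1 y ^ 2 ≤ L2 y / τ ^ 2 :=
    div_le_div_of_nonneg_left l0 (by positivity) (pow_le_pow_left₀ τ0.le (by linarith) 2)
  have k6 := mul_le_mul_of_nonneg_left k5 (show (0 : ℝ) ≤ κ / 9 by positivity)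
  have k7 := mul_le_mul_of_nonneg_right k1 (show 0 ≤ L2 y / τ ^ 2 by positivity)
  have x1 : 2 * (κ * L2 y) / (9 * τ ^ 2) = 2 / 9 * (κ * (L2 y / τ ^ 2)) := by ring
  have x2 : C * L2 y / τ ^ 2 = C * (L2 y / τ ^ 2) := by ring
  linarith

end Vale.Agent.P013
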