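import Vale.Agent.P013.Bas
import Vale.Agent.P031.Mer

namespace Vale.Agent.P013

open Finset Real Filter

open Classical

open P031 in
theorem win_D : ∃ C : ℝ, 0 < C ∧ ∀ M N : ℕ, 2 ≤ M → M ≤ N →
    |rs (Nat.primesLE N) - rs (Nat.primesLE M) - (log (log N) - log (log M))| ≤ C / log M := by
  obtain ⟨C0, hC0⟩ := merA_ge
  obtain ⟨C, C0le, hC⟩ : ∃ C : ℝ, 0 ≤ C ∧ ∀ N : ℕ, 1 ≤ N → log N - C ≤ merA N ∧ merA N ≤ log N + C :=
    ⟨max C0 (log 4), le_max_of_le_right (Real.log_nonneg (by norm_num)), fun N hN =>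
      ⟨by linarith [hC0 N hN, le_max_left C0 (log 4)],
        by linarith [merA_le hN, le_max_right C0 (log 4)]⟩⟩
  obtain ⟨D, hD⟩ : ∃ D : ℕ → ℝ, ∀ n, D n = rs (Nat.primesLE n) - merA n / log n - log (log n) :=
    ⟨_, fun _ => rfl⟩
  have lp : ∀ n : ℕ, 2 ≤ n → 0 < log n := fun n hn =>
    Real.log_pos (by exact_mod_cast (by omega : 1 < n))
  refine ⟨3 * C + 1, by positivity, fun M N hM hN => ?_⟩
  have key : D N + C / log N ≤ D M + C / log M ∧
      D M - (C + 1) / log M ≤ D N - (C + 1) / log N := by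
    induction N, hN using Nat.le_induction with
    | base => exact ⟨le_rfl, le_rfl⟩
    | succ n hn' ih =>
      have hn : 2 ≤ n := hM.trans hn'
      have s := mer_step hn
      have a0 : 0 < log (n : ℝ) := lp n hn
      have n0 : (0 : ℝ) < n := Nat.cast_pos.2 (by omega)
      have ab : log (n : ℝ) ≤ log ((n + 1 : ℕ) : ℝ) := Real.log_le_log n0 (by push_cast; linarith)
      have ba : log ((n + 1 : ℕ) : ℝ) ≤ log (n : ℝ) + 1 := by
        have e1 := Real.log_le_sub_one_of_pos (show 0 < ((n + 1 : ℕ) : ℝ) / n by positivity)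
        rw [Real.log_div (by positivity) n0.ne'] at e1
        have e2 : ((n + 1 : ℕ) : ℝ) / n ≤ 2 := by
          rw [div_le_iff₀ n0]; push_cast
          have : (1 : ℝ) ≤ n := by exact_mod_cast (by omega)
          linarith
        linarith
      obtain ⟨c1, c2⟩ := hC n (by omega)
      rw [hD (n + 1), s]
      rw [hD n] at ih
      generalize log ((n + 1 : ℕ) : ℝ) = b at *
      generalize log (n : ℝ) = a at *
      have b0 : 0 < b := by linarith
      have w0 : 0 ≤ 1 / a - 1 / b := sub_nonneg.2 (one_div_le_one_div_of_le a0 ab)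
      have u1 := mul_le_mul_of_nonneg_right c2 w0
      have u2 := mul_le_mul_of_nonneg_right (show b - (C + 1) ≤ merA n by linarith) w0
      have v1 := Real.log_le_sub_one_of_pos (div_pos a0 b0)
      have v2 := Real.log_le_sub_one_of_pos (div_pos b0 a0)
      rw [Real.log_div a0.ne' b0.ne'] at v1
      rw [Real.log_div b0.ne' a0.ne'] at v2
      have x1 : (a + C) * (1 / a - 1 / b) = 1 - a / b + C / a - C / b := by field_simp; ring
      have x2 : (b - (C + 1)) * (1 / a - 1 / b) = b / a - 1 - (C + 1) / a + (C + 1) / b := by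
        field_simp; ring
      exact ⟨by linarith [ih.1], by linarith [ih.2]⟩
  obtain ⟨k1, k2⟩ := key
  have l1 := lp M hM
  have l2 := lp N (hM.trans hN)
  have l3 : log M ≤ log N := Real.log_le_log (Nat.cast_pos.2 (by omega)) (Nat.cast_le.2 hN)
  have y : ∀ n : ℕ, 2 ≤ n → 1 - C / log n ≤ merA n / log n ∧ merA n / log n ≤ 1 + C / log n := by
    intro n hn
    obtain ⟨c1, c2⟩ := hC n (by omega)
    have l := lp n hn
    have e1 := div_le_div_of_nonneg_right c1 l.le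
    have e2 := div_le_div_of_nonneg_right c2 l.le
    rw [sub_div, div_self l.ne'] at e1
    rw [add_div, div_self l.ne'] at e2
    exact ⟨e1, e2⟩
  obtain ⟨y1, y2⟩ := y M hM
  obtain ⟨y3, y4⟩ := y N (hM.trans hN)
  have z1 : 0 ≤ C / log N := by positivity
  have z2 : 0 ≤ (C + 1) / log N := by positivity
  have z3 : C / log N ≤ C / log M := div_le_div_of_nonneg_left C0le l1 l3
  have z4 : (3 * C + 1) / log M = 3 * (C / log M) + 1 / log M := by ring
  have z5 : (C + 1) / log M = C / log M + 1 / log M := by ring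
  have z6 : 0 ≤ 1 / log M := by positivity
  rw [hD N, hD M] at k1 k2
  exact abs_le.2 ⟨by linarith, by linarith⟩

theorem win_fl {u : ℝ} (hu : 1 ≤ u) : 2 ≤ ⌊exp u⌋₊ ∧ u / 2 ≤ log (⌊exp u⌋₊ : ℝ) ∧
    log (log (⌊exp u⌋₊ : ℝ)) ≤ log u ∧ log u ≤ log (log (⌊exp u⌋₊ : ℝ)) + 1 / u := by
  have h1 : (2 : ℝ) ≤ exp u := by linarith [Real.add_one_le_exp u]
  have hM : 2 ≤ ⌊exp u⌋₊ := Nat.le_floor (by exact_mod_cast h1)
  have m2 : (2 : ℝ) ≤ ⌊exp u⌋₊ := by exact_mod_cast hM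
  have a1 : log (⌊exp u⌋₊ : ℝ) ≤ u := by
    have := Real.log_le_log (by linarith) (Nat.floor_le (exp_pos u).le)
    rwa [Real.log_exp] at this
  have a2 : u - 1 / 2 ≤ log (⌊exp u⌋₊ : ℝ) := by
    have e1 := Real.log_le_sub_one_of_pos (show 0 < exp u / (⌊exp u⌋₊ : ℝ) by positivity)
    rw [Real.log_div (exp_pos u).ne' (by positivity), Real.log_exp] at e1
    have e2 : exp u / (⌊exp u⌋₊ : ℝ) ≤ 3 / 2 := by
      rw [div_le_iff₀ (by linarith)]
      linarith [Nat.lt_floor_add_one (exp u)]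
    linarith
  have a3 : u / 2 ≤ log (⌊exp u⌋₊ : ℝ) := by linarith
  have a4 : 0 < log (⌊exp u⌋₊ : ℝ) := by linarith
  refine ⟨hM, a3, Real.log_le_log a4 a1, ?_⟩
  have e1 := Real.log_le_sub_one_of_pos (show 0 < u / log (⌊exp u⌋₊ : ℝ) by positivity)
  rw [Real.log_div (by linarith) a4.ne'] at e1
  have e2 : u / log (⌊exp u⌋₊ : ℝ) ≤ 1 + 1 / u := by
    rw [div_le_iff₀ a4]
    have e3 : 1 / 2 ≤ 1 / u * log (⌊exp u⌋₊ : ℝ) := by
      rw [one_div_mul_eq_div, le_div_iff₀ (by linarith)]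
      linarith
    linarith
  linarith

theorem win_PL (u : ℝ) : PL u = Nat.primesLE ⌊exp u⌋₊ := by
  ext p
  simp [PL, Nat.mem_primesLE, Nat.lt_succ_iff]

theorem win_sub {M N : ℕ} (h : M ≤ N) : Nat.primesLE M ⊆ Nat.primesLE N := fun _ hp =>
  Nat.mem_primesLE.2 ⟨(Nat.mem_primesLE.1 hp).1.trans h, (Nat.mem_primesLE.1 hp).2⟩

theorem mert2 : ∃ C : ℝ, 0 < C ∧ ∀ u v : ℝ, 1 ≤ u → u ≤ v →
    |rc ((PL v).filter fun p => u < log p) - log (v / u)| ≤ C / u := by
  obtain ⟨C, C0, hC⟩ := win_D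
  refine ⟨2 * C + 1, by positivity, fun u v hu huv => ?_⟩
  obtain ⟨a1, a2, a3, a4⟩ := win_fl hu
  obtain ⟨b1, -, b3, b4⟩ := win_fl (hu.trans huv)
  have hMN : ⌊exp u⌋₊ ≤ ⌊exp v⌋₊ := Nat.floor_le_floor (exp_le_exp.2 huv)
  have h1 : (PL v).filter (fun p : ℕ => u < log p) = PL v \ PL u := by
    ext p
    simp only [mem_filter, Finset.mem_sdiff, mem_PL]
    constructor
    · rintro ⟨h, h'⟩
      exact ⟨h, fun h2 => absurd h2.2 (not_le.2 h')⟩
    · rintro ⟨h, h'⟩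
      exact ⟨h, not_le.1 fun h2 => h' ⟨h.1, h2⟩⟩
  have h2 := abs_le.1 (hC _ _ a1 hMN)
  have u0 : 0 < u := by linarith
  rw [h1, win_PL, win_PL, rc, sum_sdiff_eq_sub (win_sub hMN), Real.log_div (by linarith) u0.ne']
  have h3 : C / log (⌊exp u⌋₊ : ℝ) ≤ C / (u / 2) :=
    div_le_div_of_nonneg_left C0.le (by linarith) a2
  have h4 : (2 * C + 1) / u = C / (u / 2) + 1 / u := by field_simp
  have h5 : 1 / v ≤ 1 / u := one_div_le_one_div_of_le u0 huv
  unfold P031.rs at h2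
  exact abs_le.2 ⟨by linarith [h2.1], by linarith [h2.2]⟩

theorem win : ∃ C : ℝ, 0 < C ∧ ∀ (t u b : ℝ) (S : Finset ℕ), 0 < t → 0 ≤ b →
    (∀ p ∈ S, p.Prime ∧ t ≤ log p ∧ u ≤ log p ∧ log p ≤ u + b) → rc S ≤ C * (b + 1) / t := by
  obtain ⟨C0, hC0⟩ := P031.merA_ge
  have l4 : 0 ≤ log 4 := Real.log_nonneg (by norm_num)
  refine ⟨1 + log 4 + |C0|, by positivity, fun t u b S ht hb hS => ?_⟩
  rcases S.eq_empty_or_nonempty with rfl | hne
  · rw [rc, sum_empty]; positivity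
  have h0 := S.min'_mem hne
  have h1 := S.max'_mem hne
  set p0 := S.min' hne
  set p1 := S.max' hne
  have h01 : p0 ≤ p1 := S.min'_le _ h1
  have nn : ∀ p : ℕ, 0 ≤ log p / p := fun p => div_nonneg (Real.log_natCast_nonneg p) (by positivity)
  have e1 : ∑ p ∈ S, log p / p ≤ log p0 / p0 + (P031.merA p1 - P031.merA p0) := by
    rw [P031.merA, P031.merA, ← sum_sdiff_eq_sub (win_sub h01), ← add_sum_erase _ _ h0]
    refine add_le_add le_rfl (sum_le_sum_of_subset_of_nonneg (fun p hp => ?_) fun p _ _ => nn p)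
    obtain ⟨hp1, hp2⟩ := mem_erase.1 hp
    refine Finset.mem_sdiff.2 ⟨Nat.mem_primesLE.2 ⟨S.le_max' _ hp2, (hS p hp2).1⟩, fun h => hp1 ?_⟩
    exact le_antisymm (Nat.mem_primesLE.1 h).1 (S.min'_le _ hp2)
  have e2 : log p0 / p0 ≤ 1 := by
    have p0p : (0 : ℝ) < p0 := Nat.cast_pos.2 (hS p0 h0).1.pos
    rw [div_le_one p0p]
    linarith [Real.log_le_sub_one_of_pos p0p]
  have e3 := P031.merA_le (hS p1 h1).1.one_le
  have e4 := hC0 p0 (hS p0 h0).1.one_le
  have e5 : rc S * t ≤ ∑ p ∈ S, log p / p := by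
    rw [rc, sum_mul]
    refine sum_le_sum fun p hp => ?_
    rw [one_div_mul_eq_div]
    exact div_le_div_of_nonneg_right (hS p hp).2.1 (by positivity)
  rw [le_div_iff₀ ht]
  have e6 := (hS p0 h0).2.2.1
  have e7 := (hS p1 h1).2.2.2
  nlinarith [le_abs_self C0, abs_nonneg C0, mul_nonneg (add_nonneg l4 (abs_nonneg C0)) hb]

theorem sum_plog : ∃ C : ℝ, 0 < C ∧ ∀ S : Finset ℕ, (∀ p ∈ S, p.Prime) →
    ∑ p ∈ S, 1 / ((p : ℝ) * log p) ≤ C := by
  obtain ⟨F, hF⟩ : ∃ F : ℕ → ℝ, ∀ n, F n = ∑ p ∈ Nat.primesLE n, 1 / ((p : ℝ) * log p) -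
    P031.merA n / log n ^ 2 + 8 / log n := ⟨_, fun _ => rfl⟩
  have lp : ∀ n : ℕ, 2 ≤ n → 1 / 2 < log n ∧ P031.merA n ≤ 4 * log n := fun n hn => by
    have h1 := Real.log_le_log two_pos (show (2 : ℝ) ≤ n by exact_mod_cast hn)
    have h2 := P031.merA_le (show 1 ≤ n by omega)
    rw [show (4 : ℝ) = 2 ^ 2 by norm_num, Real.log_pow] at h2
    push_cast at h2
    exact ⟨by linarith [Real.log_two_gt_d9], by linarith [Real.log_two_gt_d9]⟩
  have key : ∀ N, 2 ≤ N → F N ≤ F 2 := by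
    intro N hN
    induction N, hN using Nat.le_induction with
    | base => exact le_rfl
    | succ n hn ih =>
      refine le_trans ?_ ih
      obtain ⟨a0, a1⟩ := lp n hn
      have n0 : (0 : ℝ) < n := Nat.cast_pos.2 (by omega)
      have ab : log (n : ℝ) ≤ log ((n + 1 : ℕ) : ℝ) := Real.log_le_log n0 (by push_cast; linarith)
      have s : ∑ p ∈ Nat.primesLE (n + 1), 1 / ((p : ℝ) * log p) -
          P031.merA (n + 1) / log ((n + 1 : ℕ) : ℝ) ^ 2 =
          ∑ p ∈ Nat.primesLE n, 1 / ((p : ℝ) * log p) -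
            P031.merA n / log ((n + 1 : ℕ) : ℝ) ^ 2 := by
        have h1 : log ((n + 1 : ℕ) : ℝ) ≠ 0 := by linarith
        unfold P031.merA
        rw [Nat.primesLE_succ]
        split_ifs
        · rw [sum_insert (Nat.notMem_primesLE n), sum_insert (Nat.notMem_primesLE n)]
          have : log ((n + 1 : ℕ) : ℝ) / ((n + 1 : ℕ) : ℝ) / log ((n + 1 : ℕ) : ℝ) ^ 2 =
            1 / (((n + 1 : ℕ) : ℝ) * log ((n + 1 : ℕ) : ℝ)) := by field_simp
          rw [add_div, this]; ring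
        · rfl
      rw [hF (n + 1), hF n, s]
      generalize log ((n + 1 : ℕ) : ℝ) = b at *
      generalize log (n : ℝ) = a at *
      have a2 : 0 < a := by linarith
      have b0 : 0 < b := by linarith
      have w1 := one_div_le_one_div_of_le a2 ab
      have w2 : 0 < 1 / b := by positivity
      have w3 : 4 * a * (1 / a + 1 / b) ≤ 8 := by
        have := mul_le_mul_of_nonneg_left (show 1 / a + 1 / b ≤ 2 * (1 / a) by linarith)
          (show 0 ≤ 4 * a by linarith)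
        rwa [show 4 * a * (2 * (1 / a)) = 8 by field_simp; ring] at this
      have w4 := mul_le_mul_of_nonneg_right a1 (show 0 ≤ 1 / a + 1 / b by linarith)
      have w5 := mul_le_mul_of_nonneg_right (w4.trans w3) (sub_nonneg.2 w1)
      have x1 : P031.merA n * (1 / a + 1 / b) * (1 / a - 1 / b) =
        P031.merA n / a ^ 2 - P031.merA n / b ^ 2 := by field_simp; ring
      have x2 : 8 * (1 / a - 1 / b) = 8 / a - 8 / b := by ring
      linarith
  refine ⟨|F 2| + 1, by positivity, fun S hS => ?_⟩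
  have h1 := key (S.sup id + 2) (by omega)
  obtain ⟨a0, a1⟩ := lp (S.sup id + 2) (by omega)
  have h2 : ∑ p ∈ S, 1 / ((p : ℝ) * log p) ≤
      ∑ p ∈ Nat.primesLE (S.sup id + 2), 1 / ((p : ℝ) * log p) :=
    sum_le_sum_of_subset_of_nonneg (fun p hp => Nat.mem_primesLE.2
      ⟨(le_sup (f := id) hp).trans (Nat.le_add_right _ _), hS p hp⟩) fun p _ _ =>
        one_div_nonneg.2 (mul_nonneg (by positivity) (Real.log_natCast_nonneg p))
  rw [hF] at h1
  generalize log ((S.sup id + 2 : ℕ) : ℝ) = a at *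
  have a2 : 0 < a := by linarith
  have h3 : P031.merA (S.sup id + 2) / a ^ 2 ≤ 8 / a := by
    rw [div_le_div_iff₀ (by positivity) a2]
    nlinarith
  linarith [le_abs_self (F 2)]

theorem rc_PL : ∃ C : ℝ, 0 < C ∧ ∀ u : ℝ, 1 ≤ u → rc (PL u) ≤ log u + C := by
  obtain ⟨C, hC⟩ := P031.mer_nat
  refine ⟨|C| + 1, by positivity, fun u hu => ?_⟩
  obtain ⟨a1, -, a3, -⟩ := win_fl hu
  have h := (abs_le.1 (hC _ a1)).2
  rw [win_PL, rc]
  unfold P031.rs at h
  linarith [le_abs_self C]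

theorem win_prod (S : Finset ℕ) : ∏ p ∈ S, (1 + 1 / (p : ℝ)) ≤ exp (rc S) := by
  rw [rc, Real.exp_sum]
  refine prod_le_prod (fun _ _ => by positivity) fun p _ => ?_
  linarith [Real.add_one_le_exp (1 / (p : ℝ))]

theorem prod_PL : ∃ C : ℝ, 0 < C ∧ ∀ u : ℝ, 1 ≤ u →
    ∏ p ∈ PL u, (1 + 1 / (p : ℝ)) ≤ C * u := by
  obtain ⟨C, -, hC⟩ := rc_PL
  refine ⟨exp C, exp_pos _, fun u hu => (win_prod _).trans ((exp_le_exp.2 (hC u hu)).trans ?_)⟩
  rw [Real.exp_add, Real.exp_log (by linarith), mul_comm]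

theorem prod_ratio : ∃ C : ℝ, 0 < C ∧ ∀ m0 m1 : ℕ, 1 ≤ m0 → m0 ≤ m1 →
    ∏ p ∈ (Ioc m0 m1).filter Nat.Prime, (1 + 1 / (p : ℝ)) ≤
      C * log ((m1 : ℝ) + 1) / log ((m0 : ℝ) + 1) := by
  obtain ⟨C, C0, hC⟩ := win_D
  refine ⟨exp (1 + 2 * C), exp_pos _, fun m0 m1 h0 h1 => (win_prod _).trans ?_⟩
  have h := (abs_le.1 (hC (m0 + 1) (m1 + 1) (by omega) (by omega))).2
  have m2 : (2 : ℝ) ≤ (m0 : ℝ) + 1 := by exact_mod_cast (by omega : 2 ≤ m0 + 1)
  have m3 : (m0 : ℝ) ≤ m1 := Nat.cast_le.2 h1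
  have l0 : 1 / 2 < log ((m0 : ℝ) + 1) := by
    linarith [Real.log_le_log two_pos m2, Real.log_two_gt_d9]
  have l1 : log ((m0 : ℝ) + 1) ≤ log ((m1 : ℝ) + 1) := Real.log_le_log (by linarith) (by linarith)
  have e1 : rc ((Ioc m0 m1).filter Nat.Prime) ≤ 1 / ((m0 + 1 : ℕ) : ℝ) +
      (P031.rs (Nat.primesLE (m1 + 1)) - P031.rs (Nat.primesLE (m0 + 1))) := by
    rw [P031.rs, P031.rs, ← sum_sdiff_eq_sub (win_sub (by omega)),
      ← sum_insert (f := fun p : ℕ => 1 / (p : ℝ)) (by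
        rw [Finset.mem_sdiff, Nat.mem_primesLE, Nat.mem_primesLE]
        exact fun h => h.2 ⟨le_rfl, h.1.2⟩)]
    refine sum_le_sum_of_subset_of_nonneg (fun p hp => ?_) fun _ _ _ => by positivity
    obtain ⟨hp1, hp2⟩ := mem_filter.1 hp
    rw [mem_Ioc] at hp1
    rw [mem_insert, Finset.mem_sdiff, Nat.mem_primesLE, Nat.mem_primesLE]
    by_cases hp3 : p = m0 + 1
    · exact Or.inl hp3
    · exact Or.inr ⟨⟨by omega, hp2⟩, fun h => by omega⟩
  push_cast at h e1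
  have e2 : 1 / ((m0 : ℝ) + 1) ≤ 1 := (div_le_one (by linarith)).2 (by linarith)
  have e3 : C / log ((m0 : ℝ) + 1) ≤ 2 * C := by
    rw [div_le_iff₀ (by linarith)]
    nlinarith
  calc _ ≤ exp (1 + 2 * C + (log (log ((m1 : ℝ) + 1)) - log (log ((m0 : ℝ) + 1)))) :=
        exp_le_exp.2 (by linarith)
    _ = _ := by
        rw [Real.exp_add, Real.exp_sub, Real.exp_log (by linarith), Real.exp_log (by linarith),
          mul_div_assoc]

end Vale.Agent.P013
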