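import Vale.Agent.P013.Fam1
import Vale.Agent.P013.Win

namespace Vale.Agent.P013

open Finset Real Filter

open Classical

theorem fam2_sum {A : Finset (Finset ℕ)} {B : Finset (Finset ℕ)} {a b : ℕ}
    (h : ∀ U ∈ A, a ∉ insert b U ∧ b ∉ U ∧ insert a (insert b U) ∈ B) :
    1 / ((a : ℝ) * b) * ∑ U ∈ A, ∏ q ∈ U, 1 / (q : ℝ) ≤ ∑ F ∈ B, 1 / (pr F : ℝ) := by
  have hinj : Set.InjOn (fun U : Finset ℕ => insert a (insert b U)) A := by
    intro U hU U' hU' e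
    obtain ⟨a1, a2, -⟩ := h U hU
    obtain ⟨b1, b2, -⟩ := h U' hU'
    dsimp only at e
    rw [← erase_insert a2, ← erase_insert a1, e, erase_insert b1, erase_insert b2]
  calc 1 / ((a : ℝ) * b) * ∑ U ∈ A, ∏ q ∈ U, 1 / (q : ℝ)
      = ∑ U ∈ A, 1 / (pr (insert a (insert b U)) : ℝ) := by
        rw [mul_sum]
        refine sum_congr rfl fun U hU => ?_
        obtain ⟨a1, a2, -⟩ := h U hU
        rw [pr, prod_insert a1, prod_insert a2, prod_div_distrib, prod_const_one]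
        push_cast
        rw [div_mul_div_comm, one_mul, mul_assoc]
    _ = ∑ F ∈ A.image (fun U : Finset ℕ => insert a (insert b U)), 1 / (pr F : ℝ) :=
        (sum_image (f := fun F => 1 / (pr F : ℝ)) hinj).symm
    _ ≤ _ := by
        refine sum_le_sum_of_subset_of_nonneg (fun F hF => ?_) fun _ _ _ => by positivity
        obtain ⟨U, hU, rfl⟩ := mem_image.1 hF
        exact (h U hU).2.2

theorem fam2_win {C t τ u μ : ℝ} {r : ℕ}
    (hC : ∀ u v : ℝ, 1 ≤ u → u ≤ v →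
      |rc ((PL v).filter fun p => u < log p) - log (v / u)| ≤ C / u)
    (C0 : 0 < C) (h0 : 0 < t) (h1 : t ≤ 1 / 100) (hμ : μ = log (1 + 5 / 12 * t) / 2)
    (τ0 : 0 < τ) (q2 : 10 ≤ r) (q3 : (r : ℝ) ≤ 1 / t) (q4 : 1.1 * τ ≤ u) (q5 : u ≤ 1.2 * τ)
    (u1 : 1 ≤ u) (e3 : 1 / t + C ≤ μ * τ) :
    ∃ S : Finset ℕ, (∀ q ∈ S, q.Prime ∧ u < log q ∧ log q ≤ u + 0.5 * τ / r) ∧
      μ ^ ⌈1 / t⌉₊ / (⌈1 / t⌉₊).factorial ≤ ∑ U ∈ powersetCard r S, ∏ q ∈ U, 1 / (q : ℝ) := by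
  have μ0 : 0 < μ := by
    rw [hμ]
    exact half_pos (Real.log_pos (by linarith))
  have μ1 : μ ≤ 1 := by
    have := Real.log_le_sub_one_of_pos (show 0 < 1 + 5 / 12 * t by linarith)
    rw [hμ]
    linarith
  have r10 : (10 : ℝ) ≤ r := by exact_mod_cast q2
  have r0 : (0 : ℝ) < r := by linarith
  have d0 : 0 ≤ 0.5 * τ / r := by positivity
  obtain ⟨S, hS⟩ : ∃ S, S = (PL (u + 0.5 * τ / r)).filter fun p : ℕ => u < log p := ⟨_, rfl⟩
  have hSm : ∀ q ∈ S, q.Prime ∧ u < log q ∧ log q ≤ u + 0.5 * τ / r := by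
    intro q hq
    rw [hS] at hq
    obtain ⟨g1, g2⟩ := mem_filter.1 hq
    exact ⟨(mem_PL.1 g1).1, g2, (mem_PL.1 g1).2⟩
  refine ⟨S, hSm, ?_⟩
  have hrc : 2 * μ - C / u ≤ rc S := by
    have g := (abs_le.1 (hC u (u + 0.5 * τ / r) u1 (by linarith))).1
    rw [← hS] at g
    have g2 : log (1 + 5 / 12 * t) ≤ log ((u + 0.5 * τ / r) / u) := by
      refine Real.log_le_log (by linarith) ?_
      rw [le_div_iff₀ (by linarith)]
      have g3 : 5 / 12 * t * u ≤ 0.5 * τ / r := by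
        rw [le_div_iff₀ r0]
        have g4 : r * t ≤ 1 := (le_div_iff₀ h0).1 q3
        have g5 : (r * t) * u ≤ 1 * u := mul_le_mul_of_nonneg_right g4 (by linarith)
        linarith
      linarith
    linarith
  have g1 : r * (1 / u) + C / u ≤ μ := by
    rw [mul_one_div, ← add_div, div_le_iff₀ (by linarith)]
    have g2 : μ * τ ≤ μ * u := mul_le_mul_of_nonneg_left (by linarith) μ0.le
    linarith
  have hes := esym_ge S (fun q => 1 / (q : ℝ)) (m := 1 / u) (μ := μ) r (by positivity) μ0.le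
    (fun q hq => by
      obtain ⟨g1, g2, -⟩ := hSm q hq
      have g3 : (0 : ℝ) < q := by exact_mod_cast g1.pos
      have g4 := Real.log_le_sub_one_of_pos g3
      exact ⟨by positivity, one_div_le_one_div_of_le (by linarith) (by linarith)⟩)
    (by
      unfold rc at hrc
      linarith)
  have hR : r ≤ ⌈1 / t⌉₊ := by exact_mod_cast q3.trans (Nat.le_ceil _)
  rw [div_le_iff₀ (by positivity)]
  have g1 : μ ^ ⌈1 / t⌉₊ ≤ μ ^ r := pow_le_pow_of_le_one μ0.le μ1 hR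
  have g2 : (r.factorial : ℝ) ≤ (⌈1 / t⌉₊).factorial := by
    exact_mod_cast Nat.factorial_le hR
  have g3 : 0 ≤ ∑ U ∈ powersetCard r S, ∏ q ∈ U, 1 / (q : ℝ) := by positivity
  calc _ ≤ _ := g1.trans hes
    _ ≤ _ := by rw [mul_comm]; exact mul_le_mul_of_nonneg_left g2 g3

theorem fam {t : ℝ} (h0 : 0 < t) (h1 : t ≤ 1 / 100) : ∃ c : ℝ, 0 < c ∧ ∀ κ : ℕ,
    ∀ᶠ y : ℕ in atTop, ∀ a ∈ tp t y, ∀ b ∈ bs t y,
    c / ((a : ℝ) * b) ≤ ∑ F ∈ FamP (et κ y) (be y) (t * L1 y) (P1 y) a b, 1 / (pr F : ℝ) := by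
  obtain ⟨C, C0, hC⟩ := mert2
  obtain ⟨μ, hμ⟩ : ∃ μ : ℝ, μ = log (1 + 5 / 12 * t) / 2 := ⟨_, rfl⟩
  have μ0 : 0 < μ := by
    rw [hμ]
    exact half_pos (Real.log_pos (by linarith))
  refine ⟨μ ^ ⌈1 / t⌉₊ / (⌈1 / t⌉₊).factorial, by positivity, fun κ => ?_⟩
  filter_upwards [L1_top.eventually_ge_atTop 100, L1_top.eventually_ge_atTop (20 / t ^ 2),
    L1_top.eventually_ge_atTop ((1 / t + C) / (μ * t)), L2_top.eventually_ge_atTop 0,
    ev_lin 3 1 (show (0 : ℝ) < 1 / 10 by norm_num)] with y e1 e2 e3 e4 e5 a ha b hb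
  rw [pow_one] at e5
  obtain ⟨L, hL⟩ : ∃ L, L = L1 y := ⟨_, rfl⟩
  have hβ : be y = L - 3 * L2 y := by rw [hL, be]
  have η0 : 0 < et κ y := by unfold et; positivity
  have η1 : et κ y ≤ 1 := by
    unfold et
    exact div_le_one_of_le₀ (one_le_pow₀ (by linarith)) (by positivity)
  obtain ⟨ha1, ha2⟩ := mem_filter.1 ha
  obtain ⟨hb1, hb2⟩ := mem_filter.1 hb
  have ha3 := (mem_PL.1 ha1).2
  obtain ⟨hb3, hb4⟩ := mem_PL.1 hb1
  rw [← hL] at e1 e2 e3 e5 ha2 hb2 hb4 ⊢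
  obtain ⟨τ, hτ⟩ : ∃ τ, τ = t * L := ⟨_, rfl⟩
  rw [← hτ] at ha2 hb2 hb4 ⊢
  have τ0 : 0 < τ := by rw [hτ]; positivity
  have τ1 : τ ≤ L / 100 := by
    have : t * L ≤ 1 / 100 * L := mul_le_mul_of_nonneg_right h1 (by linarith)
    linarith
  have t20 : 1 / t ≤ 0.05 * τ := by
    rw [div_le_iff₀ (by positivity)] at e2
    rw [div_le_iff₀ h0, hτ]
    linarith
  have e6 : 1 / t + C ≤ μ * τ := by
    rw [div_le_iff₀ (by positivity)] at e3
    rw [hτ]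
    linarith
  have t100 : 100 ≤ 1 / t := by rw [le_div_iff₀ h0]; linarith
  have r1 := rl_le η0 a
  have r2 := rl_le η0 b
  have r3 := rl_nonneg η0 a
  have r4 := rl_nonneg η0 b
  obtain ⟨W, hW⟩ : ∃ W, W = be y - rl (et κ y) a - rl (et κ y) b - 2.2 * τ := ⟨_, rfl⟩
  obtain ⟨r, q1, q2, q3, q4, q5⟩ := fam_r (W := W) h0 h1 τ0
    (by rw [show τ / (3 * t) = L / 3 by rw [hτ]; field_simp]; rw [hW]; linarith)
    (by rw [show τ / t = L by rw [hτ]; field_simp]; rw [hW]; linarith)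
  have r10 : (10 : ℝ) ≤ r := by exact_mod_cast q2
  have r0 : (0 : ℝ) < r := by linarith
  obtain ⟨u, hu⟩ : ∃ u, u = W / r := ⟨_, rfl⟩
  rw [← hu] at q4 q5
  have hur : u * r = W := by rw [hu]; field_simp
  have d1 : 0.5 * τ / r ≤ 0.05 * τ := by
    rw [div_le_iff₀ r0]
    have : τ * 10 ≤ τ * r := mul_le_mul_of_nonneg_left r10 τ0.le
    linarith
  have d2 : et κ y * r ≤ 0.05 * τ := by
    have : et κ y * r ≤ 1 * r := mul_le_mul_of_nonneg_right η1 r0.le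
    linarith
  obtain ⟨S, hSm, hc⟩ := fam2_win hC C0 h0 h1 hμ τ0 q2 q3 q4 q5 (by linarith) e6
  have hP : ∀ p ∈ P1 y, p.Prime := fun p hp => (mem_PL.1 hp).1
  have hbP : b ∈ P1 y := mem_PL.2 ⟨hb3, by linarith⟩
  have hSP : S ⊆ P1 y := fun q hq => by
    obtain ⟨g3, -, g4⟩ := hSm q hq
    exact mem_PL.2 ⟨g3, by linarith⟩
  refine le_trans ?_ (fam2_sum (A := powersetCard r S) (a := a) (b := b) fun U hU => ?_)
  · rw [div_eq_mul_one_div, mul_comm]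
    exact mul_le_mul_of_nonneg_left hc (by positivity)
  · obtain ⟨g1, g2⟩ := mem_powersetCard.1 hU
    exact fam_mem (u := u) (r := r) η0 τ0 hP ha1 hbP (g1.trans hSP) ha2 hb2 hb4 q1 q2 g2
      (by rw [hur, hW]) q4 q5 d2 fun q hq => (hSm q (g1 hq)).2

theorem fam_mass {t : ℝ} (h0 : 0 < t) (h1 : t ≤ 1 / 100) : ∃ c : ℝ, 0 < c ∧ ∀ (κ : ℕ) (θ : ℝ),
    ∀ᶠ y : ℕ in atTop, ∀ N : ℕ, c * GM t θ y N ≤ ∑ F ∈ Fam t θ κ y N, 1 / (pr F : ℝ) := by
  obtain ⟨c, c0, hc⟩ := fam h0 h1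
  refine ⟨c, c0, fun κ θ => ?_⟩
  filter_upwards [hc κ] with y hy N
  have hd : Set.PairwiseDisjoint
      (((tp t y ×ˢ bs t y).filter fun x => Good t θ y N x.1 x.2 : Finset (ℕ × ℕ)) : Set (ℕ × ℕ))
      fun x => FamP (et κ y) (be y) (t * L1 y) (P1 y) x.1 x.2 := by
    rintro ⟨a, b⟩ - ⟨a', b'⟩ hx' hne
    refine disjoint_left.2 fun F g g' => hne ?_
    obtain ⟨-, a1, a2, a3, a4, -⟩ := mem_filter.1 g
    obtain ⟨-, b1, b2, b3, b4, -⟩ := mem_filter.1 g'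
    have hb' := (mem_PL.1 (mem_filter.1 (mem_product.1 (mem_filter.1 hx').1).2).1).2
    have e1 : a = a' := le_antisymm (b3 a a1) (a3 a' b1)
    have e2 : b' = b := by
      by_contra e
      exact absurd (a4 b' b2 e) (not_lt.2 hb')
    rw [e1, e2]
  calc c * GM t θ y N
      = ∑ x ∈ (tp t y ×ˢ bs t y).filter fun x => Good t θ y N x.1 x.2, c / ((x.1 : ℝ) * x.2) := by
        rw [GM, sum_filter, sum_product, mul_sum]
        refine sum_congr rfl fun a _ => ?_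
        rw [mul_sum]
        refine sum_congr rfl fun b _ => ?_
        split_ifs
        · rw [mul_one_div]
        · rw [mul_zero]
    _ ≤ ∑ x ∈ (tp t y ×ˢ bs t y).filter fun x => Good t θ y N x.1 x.2,
          ∑ F ∈ FamP (et κ y) (be y) (t * L1 y) (P1 y) x.1 x.2, 1 / (pr F : ℝ) := by
        refine sum_le_sum fun x hx => ?_
        have g := mem_product.1 (mem_filter.1 hx).1
        exact hy _ g.1 _ g.2
    _ = _ := (sum_biUnion hd).symm
    _ ≤ _ := by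
        refine sum_le_sum_of_subset_of_nonneg (fun F hF => ?_) fun _ _ _ => by positivity
        obtain ⟨x, hx, hF⟩ := mem_biUnion.1 hF
        obtain ⟨g1, g2⟩ := mem_filter.1 hx
        obtain ⟨g3, g4⟩ := mem_product.1 g1
        exact mem_filter.2 ⟨(mem_filter.1 hF).1, x.1, g3, x.2, g4, g2, hF⟩

end Vale.Agent.P013
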