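import Vale.Agent.P013.MT
import Vale.Agent.P013.Fam2
import Vale.Agent.P013.Diff

namespace Vale.Agent.P013

open Finset Real Filter

open Classical

theorem gain : ∃ C : ℝ, 0 < C ∧ ∀ t : ℝ, 0 < t → t ≤ 1 / 100 → ∃ c : ℝ, 0 < c ∧ ∃ κ0 : ℕ,
    ∀ κ : ℕ, κ0 ≤ κ → ∀ θ : ℝ, ∀ᶠ y : ℕ in atTop, ∀ N : ℕ,
    (c * κ * GM t θ y N - C) * (L2 y / L1 y ^ 2) ≤ VV (okM t θ κ y N) 0 (P1 y) := by
  obtain ⟨C, C0, hC⟩ := par0
  obtain ⟨κ0, hκ0⟩ := diff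
  refine ⟨4 * C, by positivity, fun t t0 t1 => ?_⟩
  obtain ⟨c, c0, hc⟩ := fam_mass t0 t1
  refine ⟨c / 9, by positivity, κ0, fun κ hκ θ => ?_⟩
  filter_upwards [hκ0 κ hκ t t0 t1, hc κ θ, ev_lin 3 1 (show (0 : ℝ) < 1 / 2 by norm_num),
    L1_top.eventually_ge_atTop 4, eventually_ge_atTop 2] with y e1 e2 e3 e4 e5 N
  rw [pow_one] at e3
  have l0 : 0 ≤ L2 y := Real.log_nonneg (show 1 ≤ L1 y by linarith)
  have hmn : ∀ T, ∃ b, T ∈ Fam t θ κ y N → b ∈ bs t y ∧ b ∈ T ∧ (∀ q ∈ T, b ≤ q) ∧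
      ∀ q ∈ T, up T q ∈ Fam t θ κ y N → q = b := by
    intro T
    by_cases h : T ∈ Fam t θ κ y N
    · obtain ⟨-, -, b, hb⟩ := fam_mn t0 e5 h
      exact ⟨b, fun _ => hb⟩
    · exact ⟨0, fun h' => absurd h' h⟩
  choose mn hmn using hmn
  have hF : ∀ T ∈ Fam t θ κ y N, T ⊆ P1 y ∧ T.card % 2 = 1 ∧ Alive (okR (et κ y) (be y)) 0 T ∧
      1.6 * (t * L1 y) ≤ be y - lS (et κ y) T ∧ be y - lS (et κ y) T ≤ 2.9 * (t * L1 y) := by
    intro T hT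
    obtain ⟨h1, a, -, b, -, -, h2⟩ := mem_filter.1 hT
    obtain ⟨-, -, -, -, -, h3⟩ := mem_filter.1 h2
    exact ⟨mem_powerset.1 h1, h3⟩
  have h1 := mt (η := et κ y) (β := be y) (β' := be' κ y) (P := P1 y) (F := Fam t θ κ y N) mn
    (fun p hp => (mem_PL.1 hp).1.ne_zero) fun T hT =>
      ⟨(hF T hT).1, (hmn T hT).2.1, (hmn T hT).2.2.1, (hF T hT).2.1, (hF T hT).2.2.1,
        (hmn T hT).2.2.2⟩
  have b1 : L1 y / 2 ≤ be y := by unfold be; linarith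
  have b2 : be y ≤ L1 y := by unfold be; linarith
  obtain ⟨a1, a2⟩ := diff_et (κ := κ) e4 (show 0 ≤ be y by linarith) b2
  have h2 := hC _ (be y) (be y / 2) (by linarith) a1 a2 le_rfl
  have h3 : C * log (be y) / be y ^ 2 ≤ C * L2 y / (L1 y / 2) ^ 2 :=
    div_le_div₀ (by positivity) (mul_le_mul_of_nonneg_left
      (Real.log_le_log (by linarith) b2) C0.le) (by nlinarith)
      (pow_le_pow_left₀ (by linarith) b1 2)
  have h4 : ∑ T ∈ Fam t θ κ y N, 1 / (pr T : ℝ) * (κ / 9 * (L2 y / L1 y ^ 2)) ≤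
      ∑ T ∈ Fam t θ κ y N, 1 / (pr T : ℝ) *
        (VV (okR (et κ y) (be y - lS (et κ y) T)) 1 (lo (P1 y) (mn T)) -
          VV (okR (et κ y) (be' κ y - lS (et κ y) T)) 1 (lo (P1 y) (mn T))) := by
    refine sum_le_sum fun T hT => mul_le_mul_of_nonneg_left ?_ (by positivity)
    rw [show be' κ y - lS (et κ y) T = be y - lS (et κ y) T + κ * L2 y by unfold be'; ring]
    exact e1 _ (hmn T hT).1 _ (hF T hT).2.2.2.1 (hF T hT).2.2.2.2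
  rw [← sum_mul] at h4
  have h5 := mul_le_mul_of_nonneg_right (e2 N)
    (show (0 : ℝ) ≤ κ / 9 * (L2 y / L1 y ^ 2) by positivity)
  have x1 : C * L2 y / (L1 y / 2) ^ 2 = 4 * C * (L2 y / L1 y ^ 2) := by ring
  have x2 : (c / 9 * κ * GM t θ y N - 4 * C) * (L2 y / L1 y ^ 2) =
      c * GM t θ y N * (κ / 9 * (L2 y / L1 y ^ 2)) - 4 * C * (L2 y / L1 y ^ 2) := by ring
  rw [okM, h1, x2]
  unfold P1 at *
  linarith

end Vale.Agent.P013
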