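import Vale.Agent.P013.Hv0
import Vale.Agent.P013.Win

namespace Vale.Agent.P013

open Finset Real Filter

open Classical

theorem hv1_mono {S T : Finset ℕ} (h : S ⊆ T) : rc S ≤ rc T :=
  sum_le_sum_of_subset_of_nonneg h fun _ _ _ => by positivity

theorem hv1_bs {t : ℝ} (h0 : 0 < t) :
    ∀ᶠ y : ℕ in atTop, 0.008 ≤ rc (bs t y) ∧ rc (bs t y) ≤ 1 := by
  obtain ⟨C, C0, hC⟩ := mert2
  filter_upwards [(L1_top.const_mul_atTop h0).eventually_ge_atTop (2 + 1000 * C)] with y hy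
  set u := t * L1 y with hu
  have u0 : 0 < u := by linarith
  have A := abs_le.1 (hC u (1.01 * u) (by linarith) (by linarith))
  have B := abs_le.1 (hC (0.75 * u) (1.01 * u) (by linarith) (by linarith))
  have e1 : 1.01 * u / u = 1.01 := by field_simp
  have e2 : 1.01 * u / (0.75 * u) = 1.01 / 0.75 := by field_simp
  rw [e1] at A
  rw [e2] at B
  have l1 : (1 : ℝ) - 1.01⁻¹ ≤ log 1.01 := one_sub_inv_le_log_of_pos (by norm_num)
  have l2 : log (1.01 / 0.75 : ℝ) ≤ 1.01 / 0.75 - 1 := log_le_sub_one_of_pos (by norm_num)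
  have d1 : C / u ≤ 0.001 := by rw [div_le_iff₀ u0]; linarith
  have d2 : C / (0.75 * u) ≤ 0.01 := by rw [div_le_iff₀ (by linarith)]; linarith
  have s1 : rc ((PL (1.01 * u)).filter fun p : ℕ => u < log p) ≤ rc (bs t y) :=
    hv1_mono (monotone_filter_right _ fun p _ hp => le_of_lt hp)
  have s2 : rc (bs t y) ≤ rc ((PL (1.01 * u)).filter fun p : ℕ => 0.75 * u < log p) :=
    hv1_mono (monotone_filter_right _ fun p _ (hp : u ≤ log p) => by linarith)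
  norm_num at l1 l2 A B s1 s2 d1 d2 ⊢
  constructor <;> linarith [A.1, B.2]

theorem hv1_tp {t : ℝ} (h0 : 0 < t) (h1 : t ≤ 1 / 100) :
    ∀ᶠ y : ℕ in atTop, 1 ≤ rc (tp t y) := by
  obtain ⟨C, C0, hC⟩ := mert2
  filter_upwards [(L1_top.const_mul_atTop h0).eventually_ge_atTop (1 + C),
    ev_lin 3 1 (show (0 : ℝ) < 0.1 by norm_num), L1_top.eventually_gt_atTop 0] with y hy h3 L0
  rw [pow_one] at h3
  set u := 1.3 * (t * L1 y) with hu
  have u1 : 1 + C ≤ u := by linarith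
  have u2 : u ≤ 0.013 * L1 y := by nlinarith
  have b1 : 0.45 * L1 y ≤ be y / 2 := by rw [be]; linarith
  have A := abs_le.1 (hC u (be y / 2) (by linarith) (by linarith))
  have d1 : C / u ≤ 1 := by rw [div_le_iff₀ (by linarith)]; linarith
  have l1 : log ((2 : ℝ) ^ 5) ≤ log (be y / 2 / u) := by
    refine log_le_log (by norm_num) ?_
    rw [le_div_iff₀ (by linarith)]
    linarith
  rw [Real.log_pow] at l1
  have := Real.log_two_gt_d9
  have e : tp t y = (PL (be y / 2)).filter fun p : ℕ => u < log p := rfl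
  rw [e]
  push_cast at l1
  linarith [A.1]

theorem hv1_small {t θ : ℝ} (h0 : 0 < t) (h2 : 0 < θ) (h3 : θ ≤ t / 4) :
    ∀ᶠ y : ℕ in atTop,
      (2 / (y : ℝ) ^ (-θ) + 1) ^ 2 * (2 / t * (y : ℝ) ^ (-t)) ≤ 0.001 := by
  filter_upwards [ev_L1 (18000 / t) 0 (half_pos h0), eventually_ge_atTop 1] with y hy y1
  have y1' : (1 : ℝ) ≤ y := by exact_mod_cast y1
  have y0 : (0 : ℝ) < y := by linarith
  rw [pow_zero, mul_one] at hy
  have a1 : 1 ≤ (y : ℝ) ^ θ := one_le_rpow y1' h2.le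
  have a2 : 2 / (y : ℝ) ^ (-θ) = 2 * (y : ℝ) ^ θ := by rw [rpow_neg y0.le, div_inv_eq_mul]
  have a3 : ((y : ℝ) ^ θ) ^ 2 ≤ (y : ℝ) ^ (t / 2) := by
    rw [← rpow_natCast, ← rpow_mul y0.le]
    exact rpow_le_rpow_of_exponent_le y1' (by push_cast; linarith)
  have a4 : (y : ℝ) ^ (-t) * ((y : ℝ) ^ (t / 2) * (y : ℝ) ^ (t / 2)) = 1 := by
    rw [← rpow_add y0, ← rpow_add y0, show -t + (t / 2 + t / 2) = 0 by ring, rpow_zero]
  have a5 : 0 < (y : ℝ) ^ (-t) := rpow_pos_of_pos y0 _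
  have a6 : 0 < (y : ℝ) ^ (t / 2) := rpow_pos_of_pos y0 _
  rw [a2]
  set Z := (y : ℝ) ^ (t / 2)
  set W := (y : ℝ) ^ (-t)
  have b1 : (2 * (y : ℝ) ^ θ + 1) ^ 2 ≤ 9 * Z := by nlinarith
  have b2 : W * Z * (18000 / t) ≤ 1 := by
    calc W * Z * (18000 / t) ≤ W * Z * Z := mul_le_mul_of_nonneg_left hy (by positivity)
      _ = 1 := by rw [← a4]; ring
  calc _ ≤ 9 * Z * (2 / t * W) := mul_le_mul_of_nonneg_right b1 (by positivity)
    _ = 0.001 * (W * Z * (18000 / t)) := by ring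
    _ ≤ _ := by linarith

theorem hv1_fin (t θ : ℝ) (y N : ℕ) : ∃ H : Finset (ℕ × ℤ), ∀ i, i ∈ H ↔ Heavy t θ y N i.1 i.2 := by
  refine ⟨((range (⌊(y : ℝ) ^ θ⌋₊ + 1)) ×ˢ
    (Icc (-⌈(y : ℝ) ^ (1 + θ)⌉) ⌈(y : ℝ) ^ (1 + θ)⌉)).filter fun i => Heavy t θ y N i.1 i.2,
    fun i => ⟨fun h => (mem_filter.1 h).2, fun h => mem_filter.2 ⟨mem_product.2 ⟨?_, ?_⟩, h⟩⟩⟩
  · exact mem_range.2 (Nat.lt_succ_of_le (Nat.le_floor h.2.1))
  · have a := h.2.2.1.trans (Int.le_ceil _)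
    rw [mem_Icc, ← abs_le]
    exact_mod_cast a

theorem dichot {t θ η : ℝ} (h0 : 0 < t) (h1 : t ≤ 1 / 100) (h2 : 0 < θ) (h3 : θ ≤ t / 4)
    (h4 : 0 < η) (h5 : η ≤ 1) : ∀ᶠ y : ℕ in atTop, ∀ N : ℕ, η / 300 ≤ GM t θ y N ∨
    ∃ V U, Heavy t θ y N V U ∧ rc ((tp t y).filter fun p => ¬ (p : ℤ) ∣ ZZ N V U) ≤ η := by
  filter_upwards [hv1_bs h0, hv1_tp h0 h1, hv1_small h0 h2 h3, heavy_inter h0 h1 h2 h3,
    eventually_ge_atTop 1] with y hb ht hs hi y1 N
  have y0 : (0 : ℝ) < y := by exact_mod_cast y1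
  rw [or_iff_not_imp_right]
  intro hn
  push Not at hn
  obtain ⟨H, hH⟩ := hv1_fin t θ y N
  set D : ℕ × ℤ → Finset ℕ := fun i => (bs t y).filter fun p => (p : ℤ) ∣ ZZ N i.1 i.2 with hD
  have F := few H (bs t y) D (α := (y : ℝ) ^ (-θ)) (β := 2 / t * (y : ℝ) ^ (-t))
    (rpow_pos_of_pos y0 _) (by positivity)
    (fun i hi' => ⟨filter_subset _ _, ((hH i).1 hi').2.2.2.2⟩) hb.2
    (fun i hi' j hj hij => by
      rw [hD, ← filter_and]
      exact hi N i.1 j.1 i.2 j.2 ((hH i).1 hi') ((hH j).1 hj) hij) (by linarith)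
  set P : ℕ → Prop := fun p => ∃ i ∈ H, ∃ j ∈ H, i ≠ j ∧ p ∈ D i ∧ p ∈ D j with hP
  have S : rc ((bs t y).filter P) + rc ((bs t y).filter fun p => ¬ P p) = rc (bs t y) :=
    sum_filter_add_sum_filter_not _ _ _
  have K : ∀ b ∈ (bs t y).filter fun p => ¬ P p,
      η ≤ rc ((tp t y).filter fun a => Good t θ y N a b) := by
    intro b hb'
    obtain ⟨b1, b2⟩ := mem_filter.1 hb'
    by_cases hc : ∃ i ∈ H, b ∈ D i
    · obtain ⟨i, i1, i2⟩ := hc
      refine (hn i.1 i.2 ((hH i).1 i1)).le.trans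
        (hv1_mono (monotone_filter_right _ fun a _ ha => ?_))
      rintro ⟨V, U, k1, k2, k3⟩
      have j1 := (hH (V, U)).2 k1
      by_cases e : i = (V, U)
      · subst e
        exact ha k2
      · exact b2 ⟨i, i1, _, j1, e, i2, mem_filter.2 ⟨b1, k3⟩⟩
    · rw [filter_true_of_mem]
      · linarith
      · rintro a - ⟨V, U, k1, -, k3⟩
        exact hc ⟨(V, U), (hH (V, U)).2 k1, mem_filter.2 ⟨b1, k3⟩⟩
  have G : GM t θ y N = ∑ b ∈ bs t y,
      1 / (b : ℝ) * rc ((tp t y).filter fun a => Good t θ y N a b) := by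
    rw [GM, sum_comm]
    refine sum_congr rfl fun b _ => ?_
    rw [rc, sum_filter, mul_sum]
    refine sum_congr rfl fun a _ => ?_
    split_ifs
    · rw [one_div_mul_one_div, mul_comm]
    · simp
  have G2 : rc ((bs t y).filter fun p => ¬ P p) * η ≤ GM t θ y N := by
    rw [G, rc, sum_mul]
    refine (sum_le_sum fun b hb' => mul_le_mul_of_nonneg_left (K b hb') (by positivity)).trans
      (sum_le_sum_of_subset_of_nonneg (filter_subset _ _) fun b _ _ =>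
        mul_nonneg (by positivity) (sum_nonneg fun _ _ => by positivity))
  have F' : rc ((bs t y).filter P) ≤ 0.001 := by
    refine le_trans (hv1_mono fun p hp => ?_) (F.trans hs)
    simp only [mem_filter] at hp ⊢
    exact hp
  have G3 : 0.007 ≤ rc ((bs t y).filter fun p => ¬ P p) := by linarith [hb.1]
  nlinarith

end Vale.Agent.P013
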