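import Vale.Agent.P013.SI
import Vale.Agent.P013.Bas

namespace Vale.Agent.P013

open Finset Real Filter

open Classical

theorem FL1_ok {b p : ℕ} {D : ℝ} {T : Finset ℕ} (hT : ∀ q ∈ T, q ≠ 0) (hp : p ≠ 0) (hD : 0 < D) :
    okF b D T p ↔ log (pr T) + b * log p ≤ log D := by
  have h1 : (0 : ℝ) < pr T := by exact_mod_cast pr_pos hT
  have h2 : (0 : ℝ) < p := by exact_mod_cast Nat.pos_of_ne_zero hp
  unfold okF
  rw [← log_le_log_iff (by positivity) hD, log_mul h1.ne' (by positivity), log_pow]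

theorem FL1_logD {s : ℕ} {z D : ℝ} (hz : 2 ≤ z) (hD : z ^ s ≤ D) : s * log z ≤ log D := by
  rw [← log_pow]
  exact log_le_log (by positivity) hD

theorem FL1_B {b s σ : ℕ} {z D : ℝ} (hb : 2 ≤ b) (hs : b + 1 ≤ s) (hσ : σ < 2)
    (hz : 2 ≤ z) (hD : z ^ s ≤ D) (S : Finset ℕ) (hP : ∀ p ∈ S, p.Prime ∧ (p : ℝ) ≤ z)
    (h : Alive (okF b D) σ S) : log D * (1 - 1 / (b : ℝ)) ^ S.card ≤ log D - log (pr S) := by
  have hD0 : 0 < D := lt_of_lt_of_le (by positivity) hD
  have hb' : (2 : ℝ) ≤ b := by exact_mod_cast hb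
  have hs' : (b : ℝ) + 1 ≤ s := by exact_mod_cast hs
  have hlz : 0 ≤ log z := log_nonneg (by linarith)
  have hL := FL1_logD hz hD
  have hr : 0 ≤ 1 - 1 / (b : ℝ) := by
    rw [sub_nonneg, div_le_one (by linarith)]
    linarith
  induction S using Finset.induction_on_min with
  | empty => simp [pr]
  | insert a S hm ih =>
    have ha : a ∉ S := fun h' => lt_irrefl _ (hm a h')
    have hPS : ∀ p ∈ S, p.Prime ∧ (p : ℝ) ≤ z := fun p hp => hP p (mem_insert_of_mem hp)
    have hPa := hP a (mem_insert_self _ _)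
    have h0 : ∀ p ∈ S, p ≠ 0 := fun p hp => (hPS p hp).1.ne_zero
    have h0' : ∀ p ∈ insert a S, p ≠ 0 := fun p hp => (hP p hp).1.ne_zero
    have ha0 : (0 : ℝ) < a := by exact_mod_cast hPa.1.pos
    have hla : 0 ≤ log a := log_natCast_nonneg a
    rw [SI_alive_ins _ _ hm] at h
    have ih' := ih hPS h.1
    have hlog : log (pr (insert a S)) = log a + log (pr S) := by
      rw [log_pr h0', log_pr h0, sum_insert ha]
    have key : b * log a ≤ log D - log (pr S) := by
      by_cases ht : (S.card + 1) % 2 = σ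
      · have := (FL1_ok h0' hPa.1.ne_zero hD0).1 (h.2 ht)
        rw [hlog] at this
        linarith
      · rcases S.eq_empty_or_nonempty with rfl | hne
        · have h1 : log a ≤ log z := log_le_log ha0 hPa.2
          have h2 : log (pr ∅) = 0 := by simp [pr]
          rw [h2]
          nlinarith
        · have hm1 := S.min'_mem hne
          have hup : up S (S.min' hne) = S := filter_true_of_mem fun q hq => S.min'_le q hq
          have h1 := h.1 _ hm1 (by rw [hup]; omega)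
          rw [hup, FL1_ok h0 (h0 _ hm1) hD0] at h1
          have h2 : log a ≤ log (S.min' hne) :=
            log_le_log ha0 (by exact_mod_cast (hm _ hm1).le)
          nlinarith
    rw [card_insert_of_notMem ha, hlog, pow_succ, ← mul_assoc]
    have h3 : log a ≤ (log D - log (pr S)) * (1 / b) := by
      rw [mul_one_div, le_div_iff₀ (by linarith)]
      linarith
    nlinarith [mul_le_mul_of_nonneg_right ih' hr]
theorem fl_alive {b s σ : ℕ} {z D : ℝ} {P S : Finset ℕ} (hb : 2 ≤ b) (hs : b + 1 ≤ s) (hσ : σ < 2)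
    (hz : 2 ≤ z) (hD : z ^ s ≤ D) (hP : ∀ p ∈ P, p.Prime ∧ (p : ℝ) ≤ z)
    (h : S ∈ AS (okF b D) σ P) : (pr S : ℝ) ≤ D := by
  obtain ⟨h1, h2⟩ := mem_filter.1 h
  have hS : ∀ p ∈ S, p.Prime ∧ (p : ℝ) ≤ z := fun p hp => hP p (mem_powerset.1 h1 hp)
  have hB := FL1_B hb hs hσ hz hD S hS h2
  have hD0 : 0 < D := lt_of_lt_of_le (by positivity) hD
  have hb' : (2 : ℝ) ≤ b := by exact_mod_cast hb
  have hr : 0 ≤ 1 - 1 / (b : ℝ) := by
    rw [sub_nonneg, div_le_one (by linarith)]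
    linarith
  have hL : 0 ≤ log D :=
    le_trans (mul_nonneg (Nat.cast_nonneg s) (log_nonneg (by linarith))) (FL1_logD hz hD)
  have h3 : (0 : ℝ) < pr S := by exact_mod_cast pr_pos fun p hp => (hS p hp).1.ne_zero
  rw [← log_le_log_iff h3 hD0]
  have := mul_nonneg hL (pow_nonneg hr S.card)
  linarith

theorem fl_disc {b s σ p : ℕ} {z D : ℝ} {P T : Finset ℕ} (hb : 2 ≤ b) (hs : b + 1 ≤ s)
    (hσ : σ < 2) (hz : 2 ≤ z) (hD : z ^ s ≤ D) (hP : ∀ p ∈ P, p.Prime ∧ (p : ℝ) ≤ z)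
    (h : T ∈ DS (okF b D) σ P p) :
    s < T.card + b ∧ log z * (1 - 1 / (b : ℝ)) ^ (T.card - 1) ≤ log p := by
  obtain ⟨h1, hp, -, -, h4, h5⟩ := mem_filter.1 h
  have hT : ∀ q ∈ T, q.Prime ∧ (q : ℝ) ≤ z := fun q hq => hP q (mem_powerset.1 h1 hq)
  have h0 : ∀ q ∈ T, q ≠ 0 := fun q hq => (hT q hq).1.ne_zero
  have hD0 : 0 < D := lt_of_lt_of_le (by positivity) hD
  have hb' : (2 : ℝ) ≤ b := by exact_mod_cast hb
  have hs' : (b : ℝ) + 1 ≤ s := by exact_mod_cast hs
  have hlz : 0 < log z := log_pos (by linarith)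
  have hL := FL1_logD hz hD
  have hr : 0 ≤ 1 - 1 / (b : ℝ) := by
    rw [sub_nonneg, div_le_one (by linarith)]
    linarith
  rw [FL1_ok h0 (h0 p hp) hD0, not_le] at h4
  have hle : ∀ q ∈ T, log q ≤ log z := fun q hq =>
    log_le_log (by exact_mod_cast (hT q hq).1.pos) (hT q hq).2
  constructor
  · have h6 : log (pr T) ≤ T.card * log z := by
      rw [log_pr h0]
      have := sum_le_card_nsmul T (fun q : ℕ => log q) (log z) hle
      rwa [nsmul_eq_mul] at this
    have h7 : (s : ℝ) * log z < (T.card + b) * log z := by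
      nlinarith [mul_le_mul_of_nonneg_left (hle p hp) (Nat.cast_nonneg (α := ℝ) b)]
    exact_mod_cast lt_of_mul_lt_mul_right h7 hlz.le
  · have hB := FL1_B hb hs hσ hz hD (T.erase p) (fun q hq => hT q (mem_of_mem_erase hq)) h5
    rw [card_erase_of_mem hp] at hB
    have h6 : log (pr T) = log p + log (pr (T.erase p)) := by
      rw [log_pr h0, log_pr fun q hq => h0 q (mem_of_mem_erase hq), add_sum_erase T (fun q : ℕ => log q) hp]
    have h7 : (b + 1) * log z * (1 - 1 / (b : ℝ)) ^ (T.card - 1) ≤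
        log D * (1 - 1 / (b : ℝ)) ^ (T.card - 1) :=
      mul_le_mul_of_nonneg_right (by nlinarith) (pow_nonneg hr _)
    have h8 : (b + 1) * (log z * (1 - 1 / (b : ℝ)) ^ (T.card - 1)) ≤ (b + 1) * log p := by
      nlinarith
    exact le_of_mul_le_mul_left h8 (by linarith)

end Vale.Agent.P013
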