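import Vale.Agent.P013.Bas

namespace Vale.Agent.P013

open Finset Real Filter

open Classical

theorem SI_up_ins {a : ℕ} {S : Finset ℕ} (h : ∀ x ∈ S, a < x) {p : ℕ} (hp : p ∈ S) :
    up (insert a S) p = up S p := by
  unfold up
  rw [filter_insert, if_neg (not_le.2 (h p hp))]

theorem SI_up_self {a : ℕ} {S : Finset ℕ} (h : ∀ x ∈ S, a < x) :
    up (insert a S) a = insert a S := by
  unfold up
  refine filter_true_of_mem fun x hx => ?_
  rcases mem_insert.1 hx with rfl | hx
  · exact le_rfl
  · exact (h x hx).le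

theorem SI_alive_ins (ok : Finset ℕ → ℕ → Prop) (σ : ℕ) {a : ℕ} {S : Finset ℕ}
    (h : ∀ x ∈ S, a < x) : Alive ok σ (insert a S) ↔
      Alive ok σ S ∧ ((S.card + 1) % 2 = σ → ok (insert a S) a) := by
  have ha : a ∉ S := fun h' => lt_irrefl _ (h a h')
  unfold Alive
  rw [forall_mem_insert, SI_up_self h, card_insert_of_notMem ha, and_comm]
  refine and_congr_left fun _ => forall₂_congr fun p hp => ?_
  rw [SI_up_ins h hp]

theorem SI_disc_ins (ok : Finset ℕ → ℕ → Prop) (σ : ℕ) {a : ℕ} {S : Finset ℕ}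
    (h : ∀ x ∈ S, a < x) : Disc ok σ (insert a S) a ↔
      (S.card + 1) % 2 = σ ∧ ¬ ok (insert a S) a ∧ Alive ok σ S := by
  have ha : a ∉ S := fun h' => lt_irrefl _ (h a h')
  unfold Disc
  rw [card_insert_of_notMem ha, erase_insert ha]
  refine ⟨fun h' => h'.2.2, fun h' => ⟨mem_insert_self _ _, fun q hq => ?_, h'⟩⟩
  rcases mem_insert.1 hq with rfl | hq
  · exact le_rfl
  · exact (h q hq).le

theorem SI_ind (R : ℕ → Prop) (S : Finset ℕ) :
    ∏ p ∈ S, (if R p then (1 : ℝ) else 0) = if ∀ p ∈ S, R p then 1 else 0 := by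
  rw [prod_boole]

theorem SI_ind' (R : ℕ → Prop) (S : Finset ℕ) :
    ∏ p ∈ S, (1 - if R p then (1 : ℝ) else 0) = if ∀ p ∈ S, ¬ R p then 1 else 0 := by
  by_cases h : ∀ p ∈ S, ¬ R p
  · rw [if_pos h]
    exact prod_eq_one fun p hp => by rw [if_neg (h p hp)]; ring
  · rw [if_neg h]
    push Not at h
    obtain ⟨p, hp, hR⟩ := h
    exact prod_eq_zero hp (by rw [if_pos hR]; ring)

theorem SI_nonneg (ok : Finset ℕ → ℕ → Prop) (σ : ℕ) (P : Finset ℕ) (R : ℕ → Prop) :
    0 ≤ ∑ p ∈ P, ∑ T ∈ DS ok σ P p, (∏ q ∈ T, (if R q then (1 : ℝ) else 0)) *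
      ∏ q ∈ lo P p, (1 - if R q then (1 : ℝ) else 0) := by
  refine sum_nonneg fun p _ => sum_nonneg fun T _ => mul_nonneg ?_ ?_
  · exact prod_nonneg fun q _ => by split_ifs <;> norm_num
  · exact prod_nonneg fun q _ => by split_ifs <;> norm_num
theorem si (ok : Finset ℕ → ℕ → Prop) {σ : ℕ} (hσ : σ < 2) (P : Finset ℕ) (g : ℕ → ℝ) :
    SV ok σ P g = ∏ p ∈ P, (1 - g p) -
      (-1) ^ σ * ∑ p ∈ P, ∑ T ∈ DS ok σ P p, (∏ q ∈ T, g q) * ∏ q ∈ lo P p, (1 - g q) := by
  induction P using Finset.induction_on_min with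
  | empty =>
    have : AS ok σ ∅ = {∅} := by
      unfold AS
      rw [powerset_empty, filter_singleton, if_pos]
      intro p hp
      simp at hp
    simp [SV, this]
  | insert a P h ih =>
    have ha : a ∉ P := fun h' => lt_irrefl _ (h a h')
    have h1 : SV ok σ (insert a P) g = (1 - g a) * SV ok σ P g -
        (-1) ^ σ * ∑ T ∈ DS ok σ (insert a P) a, ∏ q ∈ T, g q := by
      unfold SV AS DS
      rw [sum_filter, sum_filter, sum_filter, sum_powerset_insert ha, sum_powerset_insert ha,
        mul_sum, ← sum_add_distrib, ← sum_add_distrib, mul_sum, ← sum_sub_distrib]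
      refine sum_congr rfl fun S hS => ?_
      have hS' : ∀ x ∈ S, a < x := fun x hx => h x (mem_powerset.1 hS hx)
      have haS : a ∉ S := fun h' => lt_irrefl _ (hS' a h')
      have hd : ¬ Disc ok σ S a := fun h' => haS h'.1
      rw [if_neg hd, zero_add, card_insert_of_notMem haS, prod_insert haS]
      simp only [SI_alive_ins ok σ hS', SI_disc_ins ok σ hS']
      by_cases h1 : Alive ok σ S
      · by_cases h2 : (S.card + 1) % 2 = σ
        · by_cases h3 : ok (insert a S) a
          · simp only [h1, h2, h3, true_and, not_true, false_and, if_true, if_false, imp_self]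
            ring
          · have h4 : (-1 : ℝ) ^ σ = (-1) ^ (S.card + 1) := by
              rw [← h2, ← neg_one_pow_eq_pow_mod_two]
            simp only [h1, h2, h3, true_and, not_false_iff, if_true, imp_false, not_true, if_false]
            rw [h4]
            ring
        · simp only [h1, h2, true_and, false_and, if_true, if_false, false_imp_iff]
          ring
      · simp only [h1, false_and, and_false, if_false]
        ring
    have h2 : ∀ p ∈ P, DS ok σ (insert a P) p = DS ok σ P p := by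
      intro p hp
      unfold DS
      ext T
      simp only [mem_filter, mem_powerset]
      refine and_congr_left fun hT => ⟨fun h' x hx => ?_, fun h' => h'.trans (subset_insert _ _)⟩
      rcases mem_insert.1 (h' hx) with rfl | hx'
      · exact absurd (hT.2.1 _ hx) (not_le.2 (h p hp))
      · exact hx'
    have h3 : lo (insert a P) a = ∅ := by
      unfold lo
      refine filter_false_of_mem fun x hx => ?_
      rcases mem_insert.1 hx with rfl | hx
      · exact lt_irrefl _
      · exact not_lt.2 (h x hx).le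
    have h4 : ∀ p ∈ P, ∏ q ∈ lo (insert a P) p, (1 - g q) = (1 - g a) * ∏ q ∈ lo P p, (1 - g q) := by
      intro p hp
      unfold lo
      rw [filter_insert, if_pos (h p hp), prod_insert fun h' => ha (mem_filter.1 h').1]
    have h5 : ∑ p ∈ P, ∑ T ∈ DS ok σ (insert a P) p,
        (∏ q ∈ T, g q) * ∏ q ∈ lo (insert a P) p, (1 - g q) =
        (1 - g a) * ∑ p ∈ P, ∑ T ∈ DS ok σ P p, (∏ q ∈ T, g q) * ∏ q ∈ lo P p, (1 - g q) := by
      rw [mul_sum]
      refine sum_congr rfl fun p hp => ?_
      rw [h2 p hp, h4 p hp, mul_sum]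
      exact sum_congr rfl fun T _ => by ring
    rw [h1, ih, prod_insert ha, sum_insert ha, h5, h3]
    simp only [prod_empty, mul_one]
    ring

theorem si_lower (ok : Finset ℕ → ℕ → Prop) (P : Finset ℕ) (R : ℕ → Prop) :
    ∑ S ∈ AS ok 0 P, (-1 : ℝ) ^ S.card * (if ∀ p ∈ S, R p then 1 else 0) ≤
      if ∀ p ∈ P, ¬ R p then 1 else 0 := by
  have h := si ok (σ := 0) (by norm_num) P fun p => if R p then 1 else 0
  have h2 := SI_nonneg ok 0 P R
  unfold SV at h
  simp only [SI_ind, SI_ind'] at h h2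
  rw [h]
  linarith

theorem si_upper (ok : Finset ℕ → ℕ → Prop) (P : Finset ℕ) (R : ℕ → Prop) :
    (if ∀ p ∈ P, ¬ R p then 1 else 0) ≤
      ∑ S ∈ AS ok 1 P, (-1 : ℝ) ^ S.card * (if ∀ p ∈ S, R p then 1 else 0) := by
  have h := si ok (σ := 1) (by norm_num) P fun p => if R p then 1 else 0
  have h2 := SI_nonneg ok 1 P R
  unfold SV at h
  simp only [SI_ind, SI_ind'] at h h2
  rw [h]
  linarith

end Vale.Agent.P013
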