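import Vale.Agent.P013.FL2
import Vale.Agent.P013.FL1
import Vale.Agent.P013.SI
import Vale.Agent.P013.Bas
import Vale.Agent.P031.FL

namespace Vale.Agent.P013

open Finset Real Filter

open Classical

theorem three_pow_US {U : Finset ℕ} (hU : ∀ p ∈ U, p.Prime) : (3 : ℝ) ^ U.card ≤ 2 * pr U := by
  have h : ∀ V : Finset ℕ, (∀ p ∈ V, p.Prime ∧ p ≠ 2) → 3 ^ V.card ≤ pr V := by
    intro V hV
    unfold pr
    rw [← prod_const]
    exact prod_le_prod' (fun p hp => by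
      have := (hV p hp).1.two_le
      have := (hV p hp).2
      omega)
  have h1 := h (U.erase 2) (fun p hp => ⟨hU p (mem_of_mem_erase hp), ne_of_mem_erase hp⟩)
  have h2 : 3 ^ U.card ≤ 2 * pr U := by
    by_cases h2 : 2 ∈ U
    · have e1 : pr U = 2 * pr (U.erase 2) := (mul_prod_erase U (fun p => p) h2).symm
      have e2 : U.card = (U.erase 2).card + 1 := (card_erase_add_one h2).symm
      rw [e1, e2, pow_succ]; omega
    · rw [erase_eq_of_notMem h2] at h1; omega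
  exact_mod_cast h2

theorem us : ∃ s : ℕ, 1 ≤ s ∧ ∀ (z A R : ℝ) (m c : ℕ) (S : Finset ℕ) (B : ℕ → Finset ℕ)
    (T : Finset ℕ), 2 ≤ z → 0 ≤ A → 0 ≤ R → 0 < m →
    (∀ q ∈ S, q.Prime ∧ (q : ℝ) ≤ z ∧ m.Coprime q ∧ B q ⊆ range q ∧ (B q).card ≤ 2 ∧
      3 * (B q).card ≤ 2 * q) →
    (∀ r ∈ T, A < r ∧ (r : ℝ) ≤ A + R ∧ r ≡ c [MOD m] ∧ ∀ q ∈ S, r % q ∉ B q) →
    (T.card : ℝ) ≤ 2 * (R / m) * ∏ q ∈ S, (1 - ((B q).card : ℝ) / q) + z ^ s := by
  obtain ⟨b, s, hb, hs, H⟩ := fl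
  refine ⟨2 * s + 1, by omega, fun z A R m c S B T hz hA hR hm hS hT => ?_⟩
  have hP : ∀ p ∈ S, p.Prime ∧ (p : ℝ) ≤ z := fun p hp => ⟨(hS p hp).1, (hS p hp).2.1⟩
  obtain ⟨-, H2⟩ := H z (z ^ s) S (fun q => ((B q).card : ℝ) / q) hz le_rfl (fun p hp => by
    obtain ⟨h1, h2, -, -, h5, h6⟩ := hS p hp
    have hp0 : (0 : ℝ) < p := by exact_mod_cast h1.pos
    have h5' : ((B p).card : ℝ) ≤ 2 := by exact_mod_cast h5
    have h6' : 3 * ((B p).card : ℝ) ≤ 2 * p := by exact_mod_cast h6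
    refine ⟨h1, h2, by positivity, div_le_div_of_nonneg_right h5' hp0.le, ?_⟩
    rw [div_le_div_iff₀ hp0 (by norm_num)]; linarith)
  set I := (Ioc ⌊A⌋₊ ⌊A + R⌋₊).filter (fun r => r ≡ c [MOD m]) with hI
  have h1 : (T.card : ℝ) ≤ ∑ r ∈ I, (if ∀ p ∈ S, ¬ (r % p ∈ B p) then (1 : ℝ) else 0) := by
    have hsub : T ⊆ I := fun r hr => by
      obtain ⟨a1, a2, a3, -⟩ := hT r hr
      exact mem_filter.2 ⟨mem_Ioc.2 ⟨(Nat.floor_lt hA).2 a1, Nat.le_floor a2⟩, a3⟩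
    calc (T.card : ℝ) = ∑ r ∈ T, (if ∀ p ∈ S, ¬ (r % p ∈ B p) then (1 : ℝ) else 0) := by
          rw [sum_congr rfl (fun r hr => if_pos (hT r hr).2.2.2)]; simp
      _ ≤ _ := sum_le_sum_of_subset_of_nonneg hsub (fun _ _ _ => by split_ifs <;> norm_num)
  have h2 : ∑ r ∈ I, (if ∀ p ∈ S, ¬ (r % p ∈ B p) then (1 : ℝ) else 0) ≤
      ∑ U ∈ AS (okF b (z ^ s)) 1 S, (-1 : ℝ) ^ U.card *
        ∑ r ∈ I, ∏ q ∈ U, (if r % q ∈ B q then (1 : ℝ) else 0) := by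
    simp only [mul_sum]
    rw [sum_comm]
    refine sum_le_sum (fun r _ => ?_)
    have := si_upper (okF b (z ^ s)) S (fun p => r % p ∈ B p)
    simp only [prod_boole]
    convert this
    rfl
  have h3 : ∀ U ∈ AS (okF b (z ^ s)) 1 S, (-1 : ℝ) ^ U.card *
      ∑ r ∈ I, ∏ q ∈ U, (if r % q ∈ B q then (1 : ℝ) else 0) ≤
      R / m * ((-1) ^ U.card * ∏ q ∈ U, ((B q).card : ℝ) / q) + 2 * z ^ s := by
    intro U hU
    have hUS : U ⊆ S := mem_powerset.1 (mem_filter.1 hU).1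
    have e1 := Vale.Agent.P031.FL_crt hA hR B U (fun q hq => (hS q (hUS hq)).1)
      (fun q hq => ⟨(hS q (hUS hq)).2.2.2.1, (hS q (hUS hq)).2.2.2.2.1.trans (by norm_num)⟩) hm
      (fun q hq => (hS q (hUS hq)).2.2.1) c
    have e2 := three_pow_US (fun q hq => (hS q (hUS hq)).1)
    have e3 := fl_alive hb hs (by norm_num) hz le_rfl hP hU
    rw [← hI] at e1
    obtain ⟨e4, e5⟩ := abs_le.1 e1
    rcases neg_one_pow_eq_or ℝ U.card with h | h <;> rw [h] <;> linarith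
  have h4 : ((AS (okF b (z ^ s)) 1 S).card : ℝ) ≤ z ^ s := by
    have := card_fam (A := AS (okF b (z ^ s)) 1 S) (X := z ^ s) (by positivity) 1 one_pos
      (fun U hU => ⟨fun p hp => (hS p (mem_powerset.1 (mem_filter.1 hU).1 hp)).1,
        fl_alive hb hs (by norm_num) hz le_rfl hP hU, one_dvd _⟩)
    simpa using this
  have h5 := sum_le_sum h3
  rw [sum_add_distrib, ← mul_sum, sum_const, nsmul_eq_mul] at h5
  have h6 : R / m * SV (okF b (z ^ s)) 1 S (fun q => ((B q).card : ℝ) / q) ≤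
      R / m * (2 * ∏ q ∈ S, (1 - ((B q).card : ℝ) / q)) :=
    mul_le_mul_of_nonneg_left H2 (by positivity)
  unfold SV at h6
  have h7 : ((AS (okF b (z ^ s)) 1 S).card : ℝ) * (2 * z ^ s) ≤ z ^ (2 * s + 1) := by
    have hz0 : 0 < z ^ s := by positivity
    calc _ ≤ z ^ s * (z * z ^ s) := mul_le_mul h4 (by nlinarith) (by positivity) hz0.le
      _ = _ := by ring
  linarith

end Vale.Agent.P013
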