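import Vale.Agent.P013.St0
import Vale.Agent.P013.US

namespace Vale.Agent.P013

open Finset Real Filter

open Classical

theorem rm (A : ℕ) : ∃ C : ℝ, 0 < C ∧ ∀ᶠ y : ℕ in atTop, ∀ (N : ℕ) (P : Finset ℕ), 1 ≤ N →
    (∀ p ∈ P, p.Prime) → (P.card : ℝ) ^ 2 ≤ y * L1 y ^ A →
    (((range y ×ˢ range y).filter fun x => (∀ q ∈ P1 y, ¬ q ∣ N + x.1 + x.2) ∧
      ∃ p ∈ P, p ∣ N + x.1 + x.2).card : ℝ) ≤ C * ((y : ℝ) ^ 2 * (L2 y / L1 y ^ 2)) := by

  obtain ⟨s, hs, hus⟩ := us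
  obtain ⟨C1, hC1, hbig⟩ := bigp A
  obtain ⟨C2, hC2⟩ := P031.prod_le
  have hs0 : (1 : ℝ) ≤ s := by exact_mod_cast hs
  refine ⟨80 * s * |C2| * C1 + 1, by positivity, ?_⟩
  filter_upwards [hbig, ev_L1 1 2 (show (0 : ℝ) < 0.44 by norm_num),
    ev_lin 3 1 (show (0 : ℝ) < 0.5 by norm_num), L1_top.eventually_ge_atTop (20 * s),
    L2_top.eventually_ge_atTop 1, eventually_ge_atTop 2] with y hb h1 h2 h3 h4 hy N P hN hP hc
  obtain ⟨b1, b2⟩ := hb P hP hc
  have hy0 : (0 : ℝ) < y := by positivity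
  have hL : 0 < L1 y := by linarith
  obtain ⟨z, hz⟩ : ∃ z, z = exp (L1 y / (20 * s)) := ⟨_, rfl⟩
  have hlz : log z = L1 y / (20 * s) := by rw [hz, log_exp]
  have hz2 : 2 ≤ z := by
    have : 1 ≤ L1 y / (20 * s) := by rw [le_div_iff₀ (by positivity)]; linarith
    have := add_one_le_exp (L1 y / (20 * s))
    linarith
  have hzs : z ^ s = (y : ℝ) ^ (0.05 : ℝ) := by
    rw [hz, ← exp_nat_mul, rpow_def_of_pos hy0]
    congr 1
    unfold L1
    field_simp
    ring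
  have hsub : ∀ q ∈ P031.PP z, q ∈ P1 y := by
    intro q hq
    obtain ⟨q1, q2⟩ := P031.mem_PP.1 hq
    refine mem_PL.2 ⟨q1, ?_⟩
    have := log_le_log (by exact_mod_cast q1.pos) q2
    have h5 : L1 y / (20 * s) ≤ L1 y / 20 :=
      div_le_div_of_nonneg_left hL.le (by norm_num) (by linarith)
    unfold be
    rw [pow_one] at h2
    linarith
  let Tp : ℕ → Finset ℕ := fun p => (range (2 * y)).filter fun n =>
    (∀ q ∈ P1 y, ¬ q ∣ N + n) ∧ p ∣ N + n
  have hTp : ∀ p ∈ P.filter (fun p => p ∉ P1 y), ((Tp p).card : ℝ) ≤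
      80 * s * |C2| * (y / L1 y) * (1 / p) + (y : ℝ) ^ (0.05 : ℝ) := by
    intro p hp
    obtain ⟨p1, p2⟩ := mem_filter.1 hp
    have pp := hP p p1
    have hN' : (1 : ℝ) ≤ N := by exact_mod_cast hN
    have := hus z (N - 1) (2 * y) p 0 (P031.PP z) (fun _ => {0}) ((Tp p).image (N + ·)) hz2
      (by linarith) (by positivity) pp.pos (fun q hq => by
        obtain ⟨q1, q2⟩ := P031.mem_PP.1 hq
        have := q1.two_le
        refine ⟨q1, q2, (Nat.coprime_primes pp q1).2 fun h => p2 (h ▸ hsub q hq), ?_, by simp,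
          by simp; omega⟩
        simp; omega) (fun r hr => by
        obtain ⟨n, hn, rfl⟩ := mem_image.1 hr
        obtain ⟨n1, n2, n3⟩ := mem_filter.1 hn
        have n4 : (n : ℝ) + 1 ≤ 2 * y := by exact_mod_cast mem_range.1 n1
        have n5 : (0 : ℝ) ≤ n := Nat.cast_nonneg _
        refine ⟨by push_cast; linarith, by push_cast; linarith, (Nat.modEq_zero_iff_dvd).2 n3,
          fun q hq h => n2 q (hsub q hq) (Nat.dvd_of_mod_eq_zero (by simpa using h))⟩)
    rw [card_image_of_injective _ (add_right_injective N), hzs] at this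
    simp only [card_singleton, Nat.cast_one] at this
    have h6 : ∏ q ∈ P031.PP z, (1 - 1 / (q : ℝ)) ≤ |C2| * (20 * s) / L1 y := by
      refine (hC2 z hz2).trans ?_
      rw [hlz, div_div_eq_mul_div]
      exact div_le_div_of_nonneg_right
        (mul_le_mul_of_nonneg_right (le_abs_self _) (by positivity)) hL.le
    have h7 := mul_le_mul_of_nonneg_left h6 (show 0 ≤ 2 * (2 * (y : ℝ) / p) by positivity)
    have h8 : 2 * (2 * (y : ℝ) / p) * (|C2| * (20 * s) / L1 y) =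
        80 * s * |C2| * (y / L1 y) * (1 / p) := by ring
    linarith
  have hT : (((P.filter fun p => p ∉ P1 y).biUnion Tp).card : ℝ) ≤
      (80 * s * |C2| * C1 + 1) * (y * (L2 y / L1 y ^ 2)) := by
    have e1 : (((P.filter fun p => p ∉ P1 y).biUnion Tp).card : ℝ) ≤
        ∑ p ∈ P.filter (fun p => p ∉ P1 y), ((Tp p).card : ℝ) := by exact_mod_cast card_biUnion_le
    have e2 := sum_le_sum hTp
    rw [sum_add_distrib, ← mul_sum, sum_const, nsmul_eq_mul] at e2
    have e3 : ((P.filter fun p => p ∉ P1 y).card : ℝ) ≤ (y : ℝ) ^ (0.51 : ℝ) :=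
      le_trans (by exact_mod_cast card_filter_le _ _) b2
    have e4 := mul_le_mul_of_nonneg_left b1 (show 0 ≤ 80 * s * |C2| * (y / L1 y) by positivity)
    have e5 : (y : ℝ) ^ (0.51 : ℝ) * (y : ℝ) ^ (0.05 : ℝ) ≤ y * (L2 y / L1 y ^ 2) := by
      have e6 : (y : ℝ) ^ (0.51 : ℝ) * (y : ℝ) ^ (0.05 : ℝ) * (y : ℝ) ^ (0.44 : ℝ) = y := by
        rw [← rpow_add hy0, ← rpow_add hy0]; norm_num
      rw [← mul_div_assoc, le_div_iff₀ (by positivity)]
      have e7 : 0 ≤ (y : ℝ) ^ (0.51 : ℝ) * (y : ℝ) ^ (0.05 : ℝ) := by positivity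
      have e8 := mul_le_mul_of_nonneg_left h1 e7
      nlinarith
    have e9 := mul_le_mul_of_nonneg_right e3 (show 0 ≤ (y : ℝ) ^ (0.05 : ℝ) by positivity)
    have e10 : 80 * s * |C2| * (y / L1 y) * (C1 * (L2 y / L1 y)) =
        80 * s * |C2| * C1 * (y * (L2 y / L1 y ^ 2)) := by field_simp
    unfold rc at e4
    linarith
  have hm := card_le_mul_card_image_of_maps_to (f := fun x : ℕ × ℕ => x.1 + x.2)
    (s := (range y ×ˢ range y).filter fun x => (∀ q ∈ P1 y, ¬ q ∣ N + x.1 + x.2) ∧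
      ∃ p ∈ P, p ∣ N + x.1 + x.2) (t := (P.filter fun p => p ∉ P1 y).biUnion Tp)
    (fun x hx => by
      obtain ⟨x1, x2, p, p1, p2⟩ := mem_filter.1 hx
      obtain ⟨x3, x4⟩ := mem_product.1 x1
      rw [mem_range] at x3 x4
      rw [add_assoc] at x2 p2
      exact mem_biUnion.2 ⟨p, mem_filter.2 ⟨p1, fun h => x2 p h p2⟩,
        mem_filter.2 ⟨mem_range.2 (by omega), x2, p2⟩⟩) y (fun n _ => by
      refine le_trans (card_le_card_of_injOn (t := range y) Prod.fst (fun x hx => ?_)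
        fun x hx x' hx' h => ?_) (card_range y).le
      · exact (mem_product.1 (mem_filter.1 (mem_filter.1 hx).1).1).1
      · have e1 := (mem_filter.1 hx).2
        have e2 := (mem_filter.1 hx').2
        exact Prod.ext h (by omega))
  have hm' : (((range y ×ˢ range y).filter fun x => (∀ q ∈ P1 y, ¬ q ∣ N + x.1 + x.2) ∧
      ∃ p ∈ P, p ∣ N + x.1 + x.2).card : ℝ) ≤
      y * ((P.filter fun p => p ∉ P1 y).biUnion Tp).card := by exact_mod_cast hm
  refine hm'.trans ((mul_le_mul_of_nonneg_left hT hy0.le).trans (le_of_eq ?_))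
  ring

end Vale.Agent.P013
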