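import Vale.Agent.P013.St0
import Vale.Agent.P013.US

namespace Vale.Agent.P013

open Finset Real Filter

open Classical

theorem st3_B (Z : ℤ) (V q : ℕ) : ∃ B : Finset ℕ, q.Prime → B ⊆ range q ∧
    B.card = (if (q : ℤ) ∣ Z ∨ q ∣ V then 1 else 2) ∧ ∀ r ∈ B, r = 0 ∨ (q : ℤ) ∣ V * r - Z := by
  by_cases hq : q.Prime
  swap
  · exact ⟨∅, fun h => absurd h hq⟩
  haveI := Fact.mk hq
  by_cases h : (q : ℤ) ∣ Z ∨ q ∣ V
  · exact ⟨{0}, fun _ => ⟨by simpa using hq.pos, by rw [if_pos h]; rfl,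
      fun r hr => Or.inl (mem_singleton.1 hr)⟩⟩
  · have hV : (V : ZMod q) ≠ 0 := fun h' => h (Or.inr ((ZMod.natCast_eq_zero_iff _ _).1 h'))
    have hZ : (Z : ZMod q) ≠ 0 := fun h' =>
      h (Or.inl ((ZMod.intCast_zmod_eq_zero_iff_dvd _ _).1 h'))
    have h0 : ((Z : ZMod q) / V).val ≠ 0 := by
      rw [Ne, ZMod.val_eq_zero]
      exact div_ne_zero hZ hV
    refine ⟨{0, ((Z : ZMod q) / V).val}, fun _ => ⟨fun r hr => ?_, ?_, fun r hr => ?_⟩⟩
    · rcases mem_insert.1 hr with rfl | hr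
      · exact mem_range.2 hq.pos
      · rw [mem_singleton.1 hr]
        exact mem_range.2 (ZMod.val_lt _)
    · rw [if_neg h, card_pair h0.symm]
    · rcases mem_insert.1 hr with rfl | hr
      · exact Or.inl rfl
      · right
        rw [mem_singleton.1 hr, ← ZMod.intCast_zmod_eq_zero_iff_dvd]
        push_cast
        rw [ZMod.natCast_zmod_val, mul_div_cancel₀ _ hV, sub_self]

theorem st3_sieve : ∃ s0 : ℕ, 1 ≤ s0 ∧ ∀ (w : ℝ) (s : ℤ) (N V : ℕ) (U : ℤ) (n0 m p : ℕ), 1 ≤ w →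
    1 ≤ N → (s = 1 ∨ s = -1) → (∀ n, n0 ≤ n → n ≤ n0 + m → exp w < ell s V U n) →
    p.Prime → w < log p →
    (((Sur s N V U n0 m w).filter fun n => p ∣ N + n).card : ℝ) ≤ 2 * ((m : ℝ) / p) *
      ∏ q ∈ Od w, (1 - (if (q : ℤ) ∣ ZZ N V U ∨ q ∣ V then (1 : ℝ) else 2) / q) + exp w ^ s0 := by
  obtain ⟨s0, hs0, h⟩ := us
  refine ⟨s0, hs0, fun w s N V U n0 m p hw hN hs hl hp hpw => ?_⟩
  choose B hB using st3_B (ZZ N V U) V
  have hO : ∀ q ∈ Od w, q.Prime ∧ log q ≤ w ∧ 3 ≤ q := fun q hq => by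
    obtain ⟨h1, h2⟩ := mem_erase.1 hq
    obtain ⟨h3, h4⟩ := mem_PL.1 h2
    have := h3.two_le
    exact ⟨h3, h4, by omega⟩
  have hqz : ∀ q ∈ Od w, (q : ℝ) ≤ exp w := fun q hq => by
    obtain ⟨h1, h2, -⟩ := hO q hq
    rw [← log_le_iff_le_exp (by exact_mod_cast h1.pos)]
    exact h2
  have hN' : (1 : ℝ) ≤ N := by exact_mod_cast hN
  have h1 := h (exp w) ((N : ℝ) + n0 - 1) m p 0 (Od w) B
    (((Sur s N V U n0 m w).filter fun n => p ∣ N + n).image fun n => N + n)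
    (by linarith [add_one_le_exp w]) (by linarith [(Nat.cast_nonneg n0 : (0 : ℝ) ≤ n0)])
    (Nat.cast_nonneg m) hp.pos (fun q hq => ?_) fun r hr => ?_
  · rw [card_image_of_injective _ (add_right_injective N)] at h1
    refine h1.trans (le_of_eq ?_)
    congr 2
    refine prod_congr rfl fun q hq => ?_
    rw [(hB q (hO q hq).1).2.1]
    split_ifs <;> simp
  · obtain ⟨h1, h2, h3⟩ := hO q hq
    obtain ⟨h4, h5, -⟩ := hB q h1
    refine ⟨h1, hqz q hq, (Nat.coprime_primes hp h1).2 ?_, h4, ?_, ?_⟩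
    · rintro rfl
      linarith
    · rw [h5]
      split_ifs <;> omega
    · rw [h5]
      split_ifs <;> omega
  · obtain ⟨n, hn, rfl⟩ := mem_image.1 hr
    obtain ⟨h1, h2⟩ := mem_filter.1 hn
    obtain ⟨h3, h4, h5⟩ := mem_filter.1 h1
    obtain ⟨h6, h7⟩ := mem_Ico.1 h3
    have h8 : (n0 : ℝ) ≤ n := by exact_mod_cast h6
    have h9 : (n : ℝ) + 1 ≤ n0 + m := by exact_mod_cast h7
    refine ⟨by push_cast; linarith, by push_cast; linarith, (Nat.modEq_zero_iff_dvd).2 h2,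
      fun q hq hm => ?_⟩
    rcases (hB q (hO q hq).1).2.2 _ hm with h10 | h10
    · exact h5 q hq (Nat.dvd_of_mod_eq_zero h10)
    · have h11 : (q : ℤ) ∣ ell s V U n := by
        have e : (V : ℤ) * n - U = (V * (((N + n) % q : ℕ) : ℤ) - ZZ N V U) +
            q * (V * (((N + n) / q : ℕ) : ℤ)) := by
          have := congrArg (Nat.cast : ℕ → ℤ) (Nat.mod_add_div (N + n) q)
          rw [Nat.cast_add, Nat.cast_mul, Nat.cast_add] at this
          rw [ZZ]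
          linear_combination (-(V : ℤ)) * this
        rw [ell, e]
        exact Dvd.dvd.mul_left (dvd_add h10 (dvd_mul_right _ _)) s
      have h12 := hl n h6 h7.le
      have h13 : (0 : ℤ) ≤ ell s V U n := by
        have : (0 : ℝ) ≤ ell s V U n := ((exp_pos w).trans h12).le
        exact_mod_cast this
      rw [← Int.toNat_of_nonneg h13, Int.natCast_dvd_natCast] at h11
      have h14 := (Nat.prime_dvd_prime_iff_eq (hO q hq).1 h4).1 h11
      have h15 : (q : ℝ) = ell s V U n := by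
        have : (q : ℤ) = ell s V U n := by rw [h14, Int.toNat_of_nonneg h13]
        exact_mod_cast this
      linarith [hqz q hq]

theorem st_up : ∃ C t0 : ℝ, 0 < C ∧ 0 < t0 ∧ ∀ t θ : ℝ, 0 < t → t ≤ t0 → 0 < θ → θ ≤ t →
    ∀ᶠ y : ℕ in atTop, ∀ (s : ℤ) (N V : ℕ) (U : ℤ) (n0 p : ℕ), 1 ≤ N → StH θ y s V U n0 →
    p.Prime → 1.3 * (t * L1 y) < log p → (p : ℝ) ≤ (y : ℝ) ^ (0.9 : ℝ) →
    (((Sur s N V U n0 (y / 2) (1.3 * (t * L1 y))).filter fun n => p ∣ N + n).card : ℝ) ≤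
      C * (y / p) * (V / Nat.totient V) * GG N V U (1.3 * (t * L1 y)) / (t * L1 y) := by
  obtain ⟨s0, hs0, h⟩ := st3_sieve
  obtain ⟨c, hc, hG⟩ := GG_ge
  obtain ⟨C, hC, hG2⟩ := GG_two
  have hs0' : (1 : ℝ) ≤ s0 := by exact_mod_cast hs0
  refine ⟨C + 1, 1 / (30 * s0), by positivity, by positivity, fun t θ ht ht0 _ _ => ?_⟩
  have hts : t * s0 ≤ 1 / 30 := by
    rw [le_div_iff₀ (by positivity)] at ht0
    linarith
  have ht1 : t ≤ 1 / 30 := by nlinarith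
  filter_upwards [L1_top.eventually_ge_atTop (1 / t), L1_top.eventually_ge_atTop 3,
    ev_L1 (1.3 / c) 2 (by norm_num : (0 : ℝ) < 0.05), eventually_ge_atTop 1]
    with y h1 h2 h3 h4 s N V U n0 p hN hS hp hpw hpy
  obtain ⟨hs, hV, -, hco, hl⟩ := hS
  have hy0 : y ≠ 0 := by omega
  have hy : (0 : ℝ) < y := by exact_mod_cast h4
  have hτ : 1 ≤ t * L1 y := by
    rw [div_le_iff₀ ht] at h1
    linarith
  have hw : 1 ≤ 1.3 * (t * L1 y) := by linarith
  have hp0 : (0 : ℝ) < p := by exact_mod_cast hp.pos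
  have hyr : ∀ x : ℝ, (y : ℝ) ^ x = exp (L1 y * x) := fun x => by
    rw [rpow_def_of_pos hy, L1]
  have h5 := h _ s N V U n0 (y / 2) p hw hN hs (fun n hn hn' => by
    refine lt_of_lt_of_le ?_ (hl n hn hn').1
    rw [← exp_L1 hy0, lt_div_iff₀ (by norm_num)]
    have e1 : exp (L1 y) = exp (1.3 * (t * L1 y)) * exp (L1 y - 1.3 * (t * L1 y)) := by
      rw [← exp_add]
      ring_nf
    rw [e1]
    refine mul_lt_mul_of_pos_left ?_ (exp_pos _)
    have e2 : 2 ≤ L1 y - 1.3 * (t * L1 y) := by nlinarith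
    have e3 := exp_le_exp.2 e2
    have e4 : exp 2 = exp 1 * exp 1 := by rw [← exp_add]; norm_num
    nlinarith [exp_one_gt_d9]) hp hpw
  have hφ : 1 ≤ (V : ℝ) / Nat.totient V := by
    rw [le_div_iff₀ (by exact_mod_cast Nat.totient_pos.2 hV), one_mul]
    exact_mod_cast Nat.totient_le V
  obtain ⟨h6, -⟩ := hG N V U _ hw
  have h7 := hG2 N V U _ hw hV hco
  set G := GG N V U (1.3 * (t * L1 y)) with hGd
  set Φ := (V : ℝ) / Nat.totient V with hΦ
  have hG0 : 0 < G := lt_of_lt_of_le (by positivity) h6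
  have h8 : 2 * (((y / 2 : ℕ) : ℝ) / p) ≤ y / p := by
    rw [← mul_div_assoc]
    refine div_le_div_of_nonneg_right ?_ hp0.le
    exact_mod_cast Nat.mul_div_le y 2
  have h9 : C / (1.3 * (t * L1 y)) * Φ * G ≤ C / (t * L1 y) * Φ * G := by
    refine mul_le_mul_of_nonneg_right (mul_le_mul_of_nonneg_right ?_ (by linarith)) hG0.le
    exact div_le_div_of_nonneg_left hC.le (by linarith) (by linarith)
  have h10 : 2 * (((y / 2 : ℕ) : ℝ) / p) *
      ∏ q ∈ Od (1.3 * (t * L1 y)), (1 - (if (q : ℤ) ∣ ZZ N V U ∨ q ∣ V then (1 : ℝ) else 2) / q) ≤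
      y / p * (C / (t * L1 y) * Φ * G) :=
    (mul_le_mul_of_nonneg_left (h7.trans h9) (by positivity)).trans
      (mul_le_mul_of_nonneg_right h8 (by positivity))
  have h11 : exp (1.3 * (t * L1 y)) ^ s0 ≤ (y : ℝ) ^ (0.05 : ℝ) := by
    rw [← exp_nat_mul, hyr, exp_le_exp]
    nlinarith
  have h12 : (y : ℝ) ^ (0.05 : ℝ) * (y : ℝ) ^ (0.05 : ℝ) ≤ y / p := by
    rw [le_div_iff₀ hp0]
    calc _ ≤ (y : ℝ) ^ (0.05 : ℝ) * (y : ℝ) ^ (0.05 : ℝ) * (y : ℝ) ^ (0.9 : ℝ) :=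
          mul_le_mul_of_nonneg_left hpy (by positivity)
      _ = y := by
          rw [← rpow_add hy, ← rpow_add hy]
          norm_num
  have h13 : 1 ≤ (y : ℝ) ^ (0.05 : ℝ) * (G / (t * L1 y)) := by
    have e1 : t * L1 y ≤ L1 y := by nlinarith
    have e2 : c / (1.3 * (t * L1 y)) / (t * L1 y) ≤ G / (t * L1 y) :=
      div_le_div_of_nonneg_right h6 (by positivity)
    have e3 : 1.3 / c * (t * L1 y) ^ 2 ≤ (y : ℝ) ^ (0.05 : ℝ) :=
      le_trans (mul_le_mul_of_nonneg_left (pow_le_pow_left₀ (by positivity) e1 2)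
        (by positivity)) h3
    calc (1 : ℝ) = 1.3 / c * (t * L1 y) ^ 2 * (c / (1.3 * (t * L1 y)) / (t * L1 y)) := by
          field_simp
      _ ≤ _ := mul_le_mul e3 e2 (by positivity) (by positivity)
  have h14 : (y : ℝ) ^ (0.05 : ℝ) ≤ y / p * Φ * (G / (t * L1 y)) := by
    calc _ ≤ (y : ℝ) ^ (0.05 : ℝ) * ((y : ℝ) ^ (0.05 : ℝ) * (G / (t * L1 y))) :=
          le_mul_of_one_le_right (by positivity) h13
      _ ≤ y / p * (G / (t * L1 y)) := by
          rw [← mul_assoc]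
          exact mul_le_mul_of_nonneg_right h12 (by positivity)
      _ ≤ _ := mul_le_mul_of_nonneg_right (le_mul_of_one_le_right (by positivity) hφ)
          (by positivity)
  calc _ ≤ _ := h5
    _ ≤ y / p * (C / (t * L1 y) * Φ * G) + y / p * Φ * (G / (t * L1 y)) :=
        add_le_add h10 (h11.trans h14)
    _ = _ := by ring

end Vale.Agent.P013
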