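import Vale.Agent.P013.St2
import Vale.Agent.P013.St3

namespace Vale.Agent.P013

open Finset Real Filter

open Classical

theorem St4_cnt (N n0 m p : ℕ) :
    ((Ico n0 (n0 + m)).filter fun n => p ∣ N + n).card ≤ m / p + 2 := by
  have h : (Icc ((N + n0) / p) ((N + n0) / p + m / p + 1)).card = m / p + 2 := by
    rw [Nat.card_Icc]
    generalize (N + n0) / p = a
    generalize m / p = b
    omega
  rw [← h]
  refine Finset.card_le_card_of_injOn (fun n => (N + n) / p) ?_ ?_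
  · intro n hn
    rw [Finset.mem_coe, Finset.mem_filter, Finset.mem_Ico] at hn
    rw [Finset.mem_coe, Finset.mem_Icc]
    refine ⟨Nat.div_le_div_right (by omega), ?_⟩
    refine (Nat.div_le_div_right (show N + n ≤ N + n0 + m by omega)).trans ?_
    rcases Nat.eq_zero_or_pos p with rfl | hp
    · simp
    · rw [Nat.add_div hp]
      split_ifs <;> omega
  · intro a ha b hb hab
    have h1 := Nat.div_mul_cancel (Finset.mem_filter.1 ha).2
    have h2 := Nat.div_mul_cancel (Finset.mem_filter.1 hb).2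
    simp only at hab
    rw [hab] at h1
    omega

theorem St4_sth {θ : ℝ} (hθ : 0 < θ) {y V : ℕ} {U : ℤ} (hy : 1 ≤ y) (hV : 1 ≤ V)
    (h1 : (V : ℝ) ≤ (y : ℝ) ^ θ) (h2 : |(U : ℝ)| ≤ (y : ℝ) ^ (1 + θ)) (h3 : IsCoprime (V : ℤ) U) :
    ∃ (s : ℤ) (n0 : ℕ), StH θ y s V U n0 ∧ n0 + y / 2 ≤ 2 * y := by
  have y0 : (0 : ℝ) < y := by exact_mod_cast hy
  have V1 : (1 : ℝ) ≤ V := by exact_mod_cast hV
  have e : (y : ℝ) ^ (1 + θ) = y * (y : ℝ) ^ θ := by rw [Real.rpow_add y0, Real.rpow_one]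
  have p0 : 0 < (y : ℝ) ^ θ := by positivity
  rw [abs_le] at h2
  by_cases hU : (U : ℝ) ≤ V * y
  · refine ⟨1, 2 * y - y / 2, ⟨Or.inl rfl, hV, h1, h3, fun n a1 a2 => ?_⟩, by omega⟩
    have b1 : 3 * y ≤ 2 * n := by omega
    have b2 : n ≤ 2 * y := by omega
    have c1 : 3 * (y : ℝ) ≤ 2 * n := by exact_mod_cast b1
    have c2 : (n : ℝ) ≤ 2 * y := by exact_mod_cast b2
    simp only [ell]
    push_cast
    constructor
    · nlinarith
    · have : (V : ℝ) * n ≤ (y : ℝ) ^ θ * (2 * y) := by gcongr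
      nlinarith
  · refine ⟨-1, 0, ⟨Or.inr rfl, hV, h1, h3, fun n a1 a2 => ?_⟩, by omega⟩
    have b1 : 2 * n ≤ y := by omega
    have c1 : 2 * (n : ℝ) ≤ y := by exact_mod_cast b1
    have c2 : (0 : ℝ) ≤ n := Nat.cast_nonneg n
    push Not at hU
    simp only [ell]
    push_cast
    constructor
    · nlinarith
    · have : 0 ≤ (V : ℝ) * n := by positivity
      nlinarith

theorem St4_rc_union (S T : Finset ℕ) : rc (S ∪ T) ≤ rc S + rc T := by
  unfold rc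
  rw [← Finset.sum_union_inter]
  exact le_add_of_nonneg_right (Finset.sum_nonneg fun _ _ => by positivity)

theorem St4_own {θ : ℝ} {y N V n0 n p : ℕ} {s U : ℤ} (hS : StH θ y s V U n0) (y17 : 17 ≤ y)
    (l0 : 0 ≤ L2 y) (a1 : n0 ≤ n) (a2 : n < n0 + y / 2) (a3 : (ell s V U n).toNat.Prime)
    (hp : p.Prime) (hpn : p ∣ N + n) (h1 : p ∈ P1 y) : ¬ (p : ℤ) ∣ ZZ N V U := by
  intro h2
  have y17' : (17 : ℝ) ≤ y := by exact_mod_cast y17
  have y0 : (0 : ℝ) < y := by linarith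
  obtain ⟨b1, -⟩ := hS.2.2.2.2 n a1 a2.le
  have b0 : 0 ≤ ell s V U n := by
    have : (0 : ℝ) ≤ ell s V U n := by linarith
    exact_mod_cast this
  have b2 : (p : ℤ) ∣ ell s V U n := by
    have e : ell s V U n = s * (V * ((N + n : ℕ) : ℤ) - ZZ N V U) := by
      simp only [ell, ZZ]; push_cast; ring
    rw [e]
    exact Dvd.dvd.mul_left (dvd_sub (Dvd.dvd.mul_left (by exact_mod_cast hpn) _) h2) _
  rw [← Int.toNat_of_nonneg b0] at b2 b1
  have b3 : p = (ell s V U n).toNat :=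
    (Nat.prime_dvd_prime_iff_eq hp a3).1 (by exact_mod_cast b2)
  rw [← b3] at b1
  have b4 : (y : ℝ) / 4 ≤ p := by exact_mod_cast b1
  have b5 := (mem_PL.1 h1).2
  have b6 : 2 * log p ≤ log y := by
    have : be y ≤ L1 y := by rw [be]; linarith
    have b7 : log (y : ℝ) = L1 y := rfl
    linarith
  have p0 : (0 : ℝ) < p := by linarith
  have b7 : (p : ℝ) ^ 2 ≤ y := by
    rw [← Real.log_le_log_iff (by positivity) y0, Real.log_pow]
    exact_mod_cast b6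
  nlinarith

theorem St4_log {θ : ℝ} {y V n0 n : ℕ} {s U : ℤ} (hS : StH θ y s V U n0) (y17 : 17 ≤ y)
    (hθ : θ ≤ 1 / 100) (L3 : 3 ≤ L1 y) (a1 : n0 ≤ n) (a2 : n < n0 + y / 2) :
    log (ell s V U n) ≤ 2 * L1 y := by
  have y17' : (17 : ℝ) ≤ y := by exact_mod_cast y17
  have y0 : (0 : ℝ) < y := by linarith
  obtain ⟨b1, b2⟩ := hS.2.2.2.2 n a1 a2.le
  refine (Real.log_le_log (by linarith) b2).trans ?_
  rw [Real.log_mul (by norm_num) (by positivity), Real.log_rpow y0]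
  have b3 : log 3 ≤ 2 := by
    have := Real.log_le_sub_one_of_pos (show (0 : ℝ) < 3 by norm_num)
    linarith
  have b4 : log (y : ℝ) = L1 y := rfl
  rw [b4]
  nlinarith

theorem St4_big {y N n0 : ℕ} {P : Finset ℕ} {c L ρ G : ℝ} (hy : 1 ≤ y) (c0 : 0 < c) (L0 : 0 < L)
    (ρ1 : 1 ≤ ρ) (G1 : c / L ≤ G) (e2 : 300 / c * L ^ 2 ≤ (y : ℝ) ^ (0.39 : ℝ))
    (hb : (P.card : ℝ) ≤ (y : ℝ) ^ (0.51 : ℝ)) :
    (((P.filter fun p : ℕ => (y : ℝ) ^ (0.9 : ℝ) < p).biUnion fun p =>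
      (Ico n0 (n0 + y / 2)).filter fun n => p ∣ N + n).card : ℝ) ≤
      1 / 100 * (y * ρ * G / L) := by
  have y0 : (0 : ℝ) < y := by exact_mod_cast hy
  have y1 : (1 : ℝ) ≤ (y : ℝ) ^ (0.1 : ℝ) :=
    Real.one_le_rpow (by exact_mod_cast hy) (by norm_num)
  have y2 : (y : ℝ) = (y : ℝ) ^ (0.1 : ℝ) * (y : ℝ) ^ (0.9 : ℝ) := by
    rw [← Real.rpow_add y0]; norm_num
  have y3 : (y : ℝ) = (y : ℝ) ^ (0.51 : ℝ) * (y : ℝ) ^ (0.1 : ℝ) * (y : ℝ) ^ (0.39 : ℝ) := by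
    rw [← Real.rpow_add y0, ← Real.rpow_add y0]; norm_num
  set E' := P.filter fun p : ℕ => (y : ℝ) ^ (0.9 : ℝ) < p with hE'
  calc _ ≤ ∑ p ∈ E', (((Ico n0 (n0 + y / 2)).filter fun n => p ∣ N + n).card : ℝ) := by
        exact_mod_cast Finset.card_biUnion_le
    _ ≤ E'.card • (3 * (y : ℝ) ^ (0.1 : ℝ)) := by
        refine Finset.sum_le_card_nsmul _ _ _ fun p hp => ?_
        have a1 := (Finset.mem_filter.1 hp).2
        have p0 : (0 : ℝ) < p := lt_trans (by positivity) a1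
        have a2 : (((Ico n0 (n0 + y / 2)).filter fun n => p ∣ N + n).card : ℝ) ≤
            ((y / 2 / p : ℕ) : ℝ) + 2 := by exact_mod_cast St4_cnt N n0 (y / 2) p
        have a3 : ((y / 2 / p : ℕ) : ℝ) ≤ (y : ℝ) ^ (0.1 : ℝ) := by
          refine Nat.cast_div_le.trans ?_
          rw [div_le_iff₀ p0]
          have a4 : ((y / 2 : ℕ) : ℝ) ≤ y := by exact_mod_cast Nat.div_le_self y 2
          have a5 := mul_le_mul_of_nonneg_left a1.le (zero_le_one.trans y1)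
          linarith
        linarith
    _ ≤ (y : ℝ) ^ (0.51 : ℝ) * (3 * (y : ℝ) ^ (0.1 : ℝ)) := by
        rw [nsmul_eq_mul]
        refine mul_le_mul_of_nonneg_right (le_trans ?_ hb) (by positivity)
        exact_mod_cast Finset.card_filter_le _ _
    _ = 1 / 100 * ((y : ℝ) ^ (0.51 : ℝ) * (y : ℝ) ^ (0.1 : ℝ) * (300 / c * L ^ 2) * 1 *
          (c / L) / L) := by field_simp; ring
    _ ≤ 1 / 100 * ((y : ℝ) ^ (0.51 : ℝ) * (y : ℝ) ^ (0.1 : ℝ) * (y : ℝ) ^ (0.39 : ℝ) * ρ *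
          G / L) := by gcongr
    _ = _ := by rw [← y3]

theorem struct (A : ℕ) : ∃ t0 : ℝ, 0 < t0 ∧ ∀ t : ℝ, 0 < t → t ≤ t0 → ∃ η : ℝ, 0 < η ∧ η ≤ 1 ∧
    ∀ θ : ℝ, 0 < θ → θ ≤ t → ∀ᶠ y : ℕ in atTop, ∀ (N V : ℕ) (U : ℤ) (P : Finset ℕ), 1 ≤ N →
    1 ≤ V → (V : ℝ) ≤ (y : ℝ) ^ θ → |(U : ℝ)| ≤ (y : ℝ) ^ (1 + θ) → IsCoprime (V : ℤ) U →
    (∀ p ∈ P, p.Prime ∧ p ≠ 2) → (P.card : ℝ) ^ 2 ≤ y * L1 y ^ A →
    rc ((tp t y).filter fun p => ¬ (p : ℤ) ∣ ZZ N V U) ≤ η →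
    ∃ n < 2 * y, ∀ p ∈ P, ¬ p ∣ N + n := by
  obtain ⟨t1, t10, hlow⟩ := st_low
  obtain ⟨C, t2, C0, t20, hup⟩ := st_up
  obtain ⟨c, c0, hG⟩ := GG_ge
  obtain ⟨C2, C20, hbig⟩ := bigp A
  refine ⟨min (min t1 t2) (1 / 100), by positivity, fun t t0 ht => ?_⟩
  have ht1 : t ≤ t1 := ht.trans ((min_le_left _ _).trans (min_le_left _ _))
  have ht2 : t ≤ t2 := ht.trans ((min_le_left _ _).trans (min_le_right _ _))
  have ht3 : t ≤ 1 / 100 := ht.trans (min_le_right _ _)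
  refine ⟨min 1 (t / (100 * C)), by positivity, min_le_left _ _, fun θ θ0 hθ => ?_⟩
  filter_upwards [hlow t θ t0 ht1 θ0 hθ, hup t θ t0 ht2 θ0 hθ, hbig,
    L1_top.eventually_ge_atTop (1 / t), L1_top.eventually_ge_atTop 3,
    L2_top.eventually_ge_atTop 0, eventually_ge_atTop 17,
    ev_lin C2 1 (show 0 < t / (100 * C) by positivity),
    ev_L1 (300 / c) 2 (show (0 : ℝ) < 0.39 by norm_num)]
    with y hl hu hb L1t L3 l0 y17 e1 e2 N V U P hN hV hVy hUy hVU hP hPc hη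
  obtain ⟨s, n0, hS, hn0⟩ := St4_sth θ0 (by omega : 1 ≤ y) hV hVy hUy hVU
  by_contra hcon
  push Not at hcon
  have y17' : (17 : ℝ) ≤ y := by exact_mod_cast y17
  have y0 : (0 : ℝ) < y := by linarith
  set L := L1 y with hL
  have L0 : 0 < L := by linarith
  have tL : 1 ≤ t * L := by rwa [div_le_iff₀' t0] at L1t
  set w := 1.3 * (t * L) with hw
  have w1 : 1 ≤ w := by rw [hw]; linarith
  have wL : w ≤ L := by rw [hw]; nlinarith
  set G := GG N V U w with hGd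
  have G1 : c / L ≤ G := le_trans (by gcongr) (hG N V U w w1).1
  have G0 : 0 < G := lt_of_lt_of_le (by positivity) G1
  set ρ : ℝ := V / Nat.totient V with hρ
  have ρ1 : 1 ≤ ρ := by
    rw [hρ, le_div_iff₀ (by exact_mod_cast Nat.totient_pos.2 hV), one_mul]
    exact_mod_cast Nat.totient_le V
  set Su := Sur s N V U n0 (y / 2) w with hSu
  have hSm : ∀ n ∈ Su, n0 ≤ n ∧ n < n0 + y / 2 ∧ (ell s V U n).toNat.Prime ∧
      ∀ q ∈ Od w, ¬ q ∣ N + n := by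
    intro n hn
    rw [hSu, Sur, Finset.mem_filter, Finset.mem_Ico] at hn
    exact ⟨hn.1.1, hn.1.2, hn.2⟩
  have h1 : (y : ℝ) * ρ * G / 16 ≤ Su.card * (2 * L) := by
    refine (hl s N V U n0 hS).trans ?_
    rw [← nsmul_eq_mul]
    refine Finset.sum_le_card_nsmul _ _ _ fun n hn => ?_
    obtain ⟨a1, a2, -⟩ := hSm n hn
    exact St4_log hS y17 (hθ.trans ht3) L3 a1 a2
  set E := P.filter fun p : ℕ => w < log p ∧ (p : ℝ) ≤ (y : ℝ) ^ (0.9 : ℝ) ∧
    (p ∈ P1 y → ¬ (p : ℤ) ∣ ZZ N V U) with hE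
  set E' := P.filter fun p : ℕ => (y : ℝ) ^ (0.9 : ℝ) < p with hE'
  have hsub : Su ⊆ E.biUnion (fun p => Su.filter fun n => p ∣ N + n) ∪
      E'.biUnion (fun p => (Ico n0 (n0 + y / 2)).filter fun n => p ∣ N + n) := by
    intro n hn
    obtain ⟨a1, a2, a3, a4⟩ := hSm n hn
    obtain ⟨p, hp, hpn⟩ := hcon n (by omega)
    rw [Finset.mem_union, Finset.mem_biUnion, Finset.mem_biUnion]
    by_cases hb : (y : ℝ) ^ (0.9 : ℝ) < p
    · exact Or.inr ⟨p, Finset.mem_filter.2 ⟨hp, hb⟩,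
        Finset.mem_filter.2 ⟨Finset.mem_Ico.2 ⟨a1, a2⟩, hpn⟩⟩
    · refine Or.inl ⟨p, Finset.mem_filter.2 ⟨hp, ?_, not_lt.1 hb, fun h1 h2 => ?_⟩,
        Finset.mem_filter.2 ⟨hn, hpn⟩⟩
      · by_contra hc
        exact a4 p (Finset.mem_erase.2 ⟨(hP p hp).2, mem_PL.2 ⟨(hP p hp).1, not_lt.1 hc⟩⟩) hpn
      · exact St4_own hS y17 l0 a1 a2 a3 (hP p hp).1 hpn h1 h2
  have hb' := hb P (fun p hp => (hP p hp).1) hPc
  have hrc : rc E ≤ t / (100 * C) + t / (100 * C) := by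
    have s1 : E ⊆ ((tp t y).filter fun p => ¬ (p : ℤ) ∣ ZZ N V U) ∪ P.filter fun p => p ∉ P1 y := by
      intro p hp
      rw [hE, Finset.mem_filter] at hp
      by_cases h : p ∈ P1 y
      · exact Finset.mem_union_left _ (Finset.mem_filter.2
          ⟨Finset.mem_filter.2 ⟨h, hp.2.1⟩, hp.2.2.2 h⟩)
      · exact Finset.mem_union_right _ (Finset.mem_filter.2 ⟨hp.1, h⟩)
    refine le_trans (Finset.sum_le_sum_of_subset_of_nonneg s1 fun _ _ _ => by positivity) ?_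
    refine (St4_rc_union _ _).trans (add_le_add (hη.trans (min_le_right _ _)) (hb'.1.trans ?_))
    rw [← mul_div_assoc, div_le_iff₀ L0]
    simpa using e1
  have h2 : ((E.biUnion fun p => Su.filter fun n => p ∣ N + n).card : ℝ) ≤
      2 / 100 * (y * ρ * G / L) := by
    calc _ ≤ ∑ p ∈ E, ((Su.filter fun n => p ∣ N + n).card : ℝ) := by
          exact_mod_cast Finset.card_biUnion_le
      _ ≤ ∑ p ∈ E, C * y * ρ * G / (t * L) * (1 / (p : ℝ)) := by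
          refine Finset.sum_le_sum fun p hp => ?_
          rw [hE, Finset.mem_filter] at hp
          refine (hu s N V U n0 p hN hS (hP p hp.1).1 hp.2.1 hp.2.2.1).trans (le_of_eq ?_)
          ring
      _ = C * y * ρ * G / (t * L) * rc E := by rw [← Finset.mul_sum, rc]
      _ ≤ C * y * ρ * G / (t * L) * (t / (100 * C) + t / (100 * C)) := by gcongr
      _ = _ := by field_simp; ring
  have h3 : ((E'.biUnion fun p => (Ico n0 (n0 + y / 2)).filter fun n => p ∣ N + n).card : ℝ) ≤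
      1 / 100 * (y * ρ * G / L) := St4_big (by omega) c0 L0 ρ1 G1 e2 hb'.2
  have h4 : (Su.card : ℝ) ≤ 3 / 100 * (y * ρ * G / L) := by
    have := (Finset.card_le_card hsub).trans (Finset.card_union_le _ _)
    have h5 : (Su.card : ℝ) ≤ ((E.biUnion fun p => Su.filter fun n => p ∣ N + n).card : ℝ) +
        ((E'.biUnion fun p => (Ico n0 (n0 + y / 2)).filter fun n => p ∣ N + n).card : ℝ) := by
      exact_mod_cast this
    linarith
  have h5 : 0 < (y : ℝ) * ρ * G := by positivity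
  have h6 := mul_le_mul_of_nonneg_right h4 (show 0 ≤ 2 * L by positivity)
  have h7 : 3 / 100 * (y * ρ * G / L) * (2 * L) = 6 / 100 * (y * ρ * G) := by field_simp; ring
  linarith

end Vale.Agent.P013
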