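import Vale.Agent.P013.Rem
import Vale.Agent.P013.Gain
import Vale.Agent.P013.Hv1
import Vale.Agent.P013.St4
import Vale.Agent.P013.Rm

namespace Vale.Agent.P013

open Finset Real Filter

open Classical

theorem Core_split (ok : Finset ℕ → ℕ → Prop) (y N : ℕ) (P : Finset ℕ) :
    ∑ S ∈ AS ok 0 P, (-1 : ℝ) ^ S.card * cnt y N (pr S) =
      (y : ℝ) ^ 2 * VV ok 0 P + ∑ S ∈ AS ok 0 P, (-1 : ℝ) ^ S.card *
        ((cnt y N (pr S) : ℝ) - (y : ℝ) ^ 2 / pr S) := by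
  unfold VV
  rw [mul_sum, ← sum_add_distrib]
  refine sum_congr rfl fun S _ => ?_
  ring

theorem Core_pair {y N : ℕ} {P Q : Finset ℕ}
    (h : (((range y ×ˢ range y).filter fun x => (∀ q ∈ Q, ¬ q ∣ N + x.1 + x.2) ∧
      ∃ p ∈ P, p ∣ N + x.1 + x.2).card : ℝ) <
      (((range y ×ˢ range y).filter fun x => ∀ q ∈ Q, ¬ q ∣ N + x.1 + x.2).card : ℝ)) :
    ∃ n < 2 * y, ∀ p ∈ P, ¬ p ∣ N + n := by
  have h' : ((range y ×ˢ range y).filter fun x => (∀ q ∈ Q, ¬ q ∣ N + x.1 + x.2) ∧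
      ∃ p ∈ P, p ∣ N + x.1 + x.2).card <
      ((range y ×ˢ range y).filter fun x => ∀ q ∈ Q, ¬ q ∣ N + x.1 + x.2).card := by
    exact_mod_cast h
  obtain ⟨x, hx, hx'⟩ := exists_mem_notMem_of_card_lt_card h'
  rw [mem_filter] at hx hx'
  have hm := mem_product.mp hx.1
  have m1 := mem_range.mp hm.1
  have m2 := mem_range.mp hm.2
  refine ⟨x.1 + x.2, by omega, fun p hp hd => hx' ⟨hx.1, hx.2, p, hp, ?_⟩⟩
  rwa [add_assoc]

theorem core (A : ℕ) : ∀ᶠ y : ℕ in atTop, ∀ (N : ℕ) (P : Finset ℕ), 1 ≤ N →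
    (∀ p ∈ P, p.Prime ∧ p ≠ 2) → (P.card : ℝ) ^ 2 ≤ y * L1 y ^ A →
    ∃ n < 2 * y, ∀ p ∈ P, ¬ p ∣ N + n := by
  obtain ⟨t0, ht0, hs⟩ := struct A
  obtain ⟨C, hC, hg⟩ := gain
  obtain ⟨D, hD, hr⟩ := rm A
  have h0 : 0 < min t0 (1 / 100) := lt_min ht0 (by norm_num)
  have h1 : min t0 (1 / 100) ≤ 1 / 100 := min_le_right _ _
  have h1' : min t0 (1 / 100) ≤ t0 := min_le_left _ _
  generalize min t0 (1 / 100) = t at h0 h1 h1'
  obtain ⟨η, e0, e1, hs⟩ := hs t h0 h1'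
  obtain ⟨c, hc, κ0, hg⟩ := hg t h0 h1
  obtain ⟨κ1, hκ1⟩ := exists_nat_ge (300 * (C + D + 3) / (c * η))
  have k0 : κ0 ≤ max κ0 κ1 := le_max_left _ _
  have k1 : (κ1 : ℝ) ≤ (max κ0 κ1 : ℕ) := by exact_mod_cast le_max_right κ0 κ1
  generalize max κ0 κ1 = κ at k0 k1
  have hk : C + D + 3 ≤ c * κ * (η / 300) := by
    have := hκ1.trans k1
    rw [div_le_iff₀ (by positivity)] at this
    nlinarith
  have t4 : 0 < t / 4 := by linarith
  filter_upwards [hs (t / 4) t4 (by linarith), hg κ k0 (t / 4), hr,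
    dichot h0 h1 t4 le_rfl e0 e1, rem h0 h1 t4 le_rfl κ, L1_top.eventually_ge_atTop 1,
    L2_top.eventually_ge_atTop 1, eventually_ge_atTop 1] with y a1 a2 a3 a4 a5 a6 a7 a8
  intro N P hN hP hcard
  rcases a4 N with hG | ⟨V, U, hH, hU⟩
  · apply Core_pair (Q := P1 y)
    have b1 := a3 N P hN (fun p hp => (hP p hp).1) hcard
    have b2 := sieve_low (okM t (t / 4) κ y N) y N (P := P1 y) fun p hp => (mem_PL.mp hp).1
    rw [Core_split] at b2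
    have b3 := (abs_le.mp (a5 N)).1
    have b4 := a2 N
    have hy : (0 : ℝ) < (y : ℝ) ^ 2 := by
      have : (0 : ℝ) < y := by exact_mod_cast a8
      positivity
    have hX : 0 < L2 y / L1 y ^ 2 := by positivity
    have b5 : 1 / L1 y ^ 3 ≤ L2 y / L1 y ^ 2 := by
      rw [div_le_div_iff₀ (by positivity) (by positivity)]
      have : L1 y ^ 2 ≤ L1 y ^ 3 := pow_le_pow_right₀ a6 (by norm_num)
      have h3 : 0 ≤ L1 y ^ 3 := by positivity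
      nlinarith
    have b6 : (D + 3) * (L2 y / L1 y ^ 2) ≤ VV (okM t (t / 4) κ y N) 0 (P1 y) := by
      refine le_trans (mul_le_mul_of_nonneg_right ?_ hX.le) b4
      have : c * κ * (η / 300) ≤ c * κ * GM t (t / 4) y N :=
        mul_le_mul_of_nonneg_left hG (by positivity)
      linarith
    have b7 : 2 * (y : ℝ) ^ 2 / L1 y ^ 3 ≤ 2 * ((y : ℝ) ^ 2 * (L2 y / L1 y ^ 2)) := by
      have := mul_le_mul_of_nonneg_left b5 hy.le
      calc 2 * (y : ℝ) ^ 2 / L1 y ^ 3 = 2 * ((y : ℝ) ^ 2 * (1 / L1 y ^ 3)) := by ring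
        _ ≤ _ := by linarith
    have b8 := mul_le_mul_of_nonneg_left b6 hy.le
    have b9 : 0 < (y : ℝ) ^ 2 * (L2 y / L1 y ^ 2) := mul_pos hy hX
    generalize L2 y / L1 y ^ 2 = X at *
    nlinarith
  · exact a1 N V U P hN hH.1 hH.2.1 hH.2.2.1 hH.2.2.2.1 hP hcard hU

end Vale.Agent.P013
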