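import Mathlib

/-! Definitions for the Jacobsthal project (P013). -/

namespace Vale.Agent.P013

open Finset Real

noncomputable section

open Classical

/-- primes `p` with `log p ≤ u` -/
def PL (u : ℝ) : Finset ℕ := (range (⌊exp u⌋₊ + 1)).filter Nat.Prime

/-- elements of `S` that are `≥ p` -/
def up (S : Finset ℕ) (p : ℕ) : Finset ℕ := S.filter (fun q => p ≤ q)

/-- elements of `S` that are `< p` -/
def lo (S : Finset ℕ) (p : ℕ) : Finset ℕ := S.filter (fun q => q < p)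

/-- product of the elements -/
def pr (S : Finset ℕ) : ℕ := ∏ p ∈ S, p

/-- the test `ok` holds at every position (counted from the top) of parity `σ` -/
def Alive (ok : Finset ℕ → ℕ → Prop) (σ : ℕ) (S : Finset ℕ) : Prop :=
  ∀ p ∈ S, (up S p).card % 2 = σ → ok (up S p) p

/-- `T` with least element `p` fails for the first time at `p` -/
def Disc (ok : Finset ℕ → ℕ → Prop) (σ : ℕ) (T : Finset ℕ) (p : ℕ) : Prop :=
  p ∈ T ∧ (∀ q ∈ T, p ≤ q) ∧ T.card % 2 = σ ∧ ¬ ok T p ∧ Alive ok σ (T.erase p)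

def AS (ok : Finset ℕ → ℕ → Prop) (σ : ℕ) (P : Finset ℕ) : Finset (Finset ℕ) :=
  P.powerset.filter (Alive ok σ)

def DS (ok : Finset ℕ → ℕ → Prop) (σ : ℕ) (P : Finset ℕ) (p : ℕ) : Finset (Finset ℕ) :=
  P.powerset.filter (fun T => Disc ok σ T p)

/-- sieve sum with density `g` -/
def SV (ok : Finset ℕ → ℕ → Prop) (σ : ℕ) (P : Finset ℕ) (g : ℕ → ℝ) : ℝ :=
  ∑ S ∈ AS ok σ P, (-1) ^ S.card * ∏ p ∈ S, g p

/-- sieve sum with density `1 / p` -/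
def VV (ok : Finset ℕ → ℕ → Prop) (σ : ℕ) (P : Finset ℕ) : ℝ :=
  ∑ S ∈ AS ok σ P, (-1) ^ S.card / (pr S : ℝ)

/-- test of the fundamental lemma -/
def okF (b : ℕ) (D : ℝ) (T : Finset ℕ) (p : ℕ) : Prop := (pr T : ℝ) * (p : ℝ) ^ b ≤ D

/-- box label -/
def lab (η : ℝ) (p : ℕ) : ℕ := ⌈log p / η⌉₊

/-- rounded logarithm -/
def rl (η : ℝ) (p : ℕ) : ℝ := η * lab η p

def lS (η : ℝ) (S : Finset ℕ) : ℝ := ∑ p ∈ S, rl η p

/-- Rosser test with rounded logarithms -/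
def okR (η β : ℝ) (T : Finset ℕ) (p : ℕ) : Prop := lS η T + 2 * rl η p ≤ β

/-- some top segment of `T` lies in `F` -/
def HasPre (F : Finset (Finset ℕ)) (T : Finset ℕ) : Prop := ∃ q ∈ T, up T q ∈ F

/-- Rosser test, level raised below members of `F` -/
def okS (η β β' : ℝ) (F : Finset (Finset ℕ)) (T : Finset ℕ) (p : ℕ) : Prop :=
  lS η T + 2 * rl η p ≤ if HasPre F T then β' else β

/-- reversed chains -/
def RevAl (γ : ℝ) (S : Finset ℕ) : Prop :=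
  ∀ p ∈ S, (lo S p).card % 2 = 1 → 2 * log p ≤ γ + log (pr (lo S p))

/-- Rosser test with true logarithms, waived at the least element -/
def Near (σ : ℕ) (β : ℝ) (S : Finset ℕ) : Prop :=
  log (pr S) ≤ β ∧ ∀ p ∈ S, (∃ q ∈ S, q < p) → (up S p).card % 2 = σ →
    log (pr (up S p)) + 2 * log p ≤ β

def gA (γ θ : ℝ) : ℝ := max (γ - θ) 0 ^ 2

def gB (γ θ : ℝ) : ℝ := γ * max (γ - 2 * θ) 0

/-- Liouville function -/
def lam (n : ℕ) : ℝ := (-1) ^ ArithmeticFunction.cardFactors n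

def ee (x : ℝ) : ℂ := Complex.exp (2 * π * x * Complex.I)

/-- number of `(i, j)` in the square with `d ∣ N + i + j` -/
def cnt (y N d : ℕ) : ℕ := ((range y ×ˢ range y).filter fun x => d ∣ N + x.1 + x.2).card

/-- sum of reciprocals -/
def rc (S : Finset ℕ) : ℝ := ∑ p ∈ S, 1 / (p : ℝ)

def L1 (y : ℕ) : ℝ := log y

def L2 (y : ℕ) : ℝ := log (log y)

/-- basic level -/
def be (y : ℕ) : ℝ := L1 y - 3 * L2 y

/-- raised level -/
def be' (κ y : ℕ) : ℝ := be y + κ * L2 y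

/-- rounding width -/
def et (κ y : ℕ) : ℝ := 1 / L1 y ^ (κ + 2)

/-- sifting primes -/
def P1 (y : ℕ) : Finset ℕ := PL (be y / 2)

/-- anchor primes -/
def bs (t : ℝ) (y : ℕ) : Finset ℕ := (PL (1.01 * (t * L1 y))).filter fun p => t * L1 y ≤ log p

/-- top primes -/
def tp (t : ℝ) (y : ℕ) : Finset ℕ := (P1 y).filter fun p => 1.3 * (t * L1 y) < log p

def ZZ (N V : ℕ) (U : ℤ) : ℤ := V * N + U

def Heavy (t θ : ℝ) (y N V : ℕ) (U : ℤ) : Prop :=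
  1 ≤ V ∧ (V : ℝ) ≤ (y : ℝ) ^ θ ∧ |(U : ℝ)| ≤ (y : ℝ) ^ (1 + θ) ∧ IsCoprime (V : ℤ) U ∧
    (y : ℝ) ^ (-θ) ≤ rc ((bs t y).filter fun p => (p : ℤ) ∣ ZZ N V U)

def Good (t θ : ℝ) (y N a b : ℕ) : Prop :=
  ¬ ∃ V U, Heavy t θ y N V U ∧ (a : ℤ) ∣ ZZ N V U ∧ (b : ℤ) ∣ ZZ N V U

/-- chains with top `a` and bottom `b` -/
def FamP (η β τ : ℝ) (P : Finset ℕ) (a b : ℕ) : Finset (Finset ℕ) :=
  P.powerset.filter fun F => a ∈ F ∧ b ∈ F ∧ (∀ q ∈ F, q ≤ a) ∧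
    (∀ q ∈ F, q ≠ b → 1.01 * τ < log q) ∧ F.card % 2 = 1 ∧ Alive (okR η β) 0 F ∧
    1.6 * τ ≤ β - lS η F ∧ β - lS η F ≤ 2.9 * τ

def Fam (t θ : ℝ) (κ y N : ℕ) : Finset (Finset ℕ) :=
  (P1 y).powerset.filter fun F => ∃ a ∈ tp t y, ∃ b ∈ bs t y, Good t θ y N a b ∧
    F ∈ FamP (et κ y) (be y) (t * L1 y) (P1 y) a b

/-- the test of the main sieve -/
def okM (t θ : ℝ) (κ y N : ℕ) : Finset ℕ → ℕ → Prop :=
  okS (et κ y) (be y) (be' κ y) (Fam t θ κ y N)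

/-- column range number `i` -/
def Rg (κ y i : ℕ) : Finset ℕ := (PL (L2 y ^ (8 * i + 4))).filter fun p =>
  L2 y ^ (8 * i + 2) < rl (et κ y) p ∧ rl (et κ y) p ≤ L2 y ^ (8 * i + 4)

/-- large moduli of the main sieve -/
def Big (t θ : ℝ) (κ y N : ℕ) : Finset (Finset ℕ) :=
  (AS (okM t θ κ y N) 0 (P1 y)).filter fun S => be y < lS (et κ y) S

/-- factorable large moduli -/
def GoodS (t θ : ℝ) (κ e y N : ℕ) : Finset (Finset ℕ) :=
  (Big t θ κ y N).filter fun S => Set.InjOn (lab (et κ y)) S ∧ ∀ i ≤ e, ∃ p ∈ S, p ∈ Rg κ y i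

/-- boxes -/
def Box {n : ℕ} (l : ℕ → ℕ) (B : Fin n → Finset ℕ) (k : Fin n → ℕ) (i : Fin n) : Finset ℕ :=
  (B i).filter fun p => l p = k i

/-- rows -/
def Rows {n : ℕ} (l : ℕ → ℕ) (B : Fin n → Finset ℕ) (P : Finset ℕ) (A : Finset (Finset ℕ))
    (k : Fin n → ℕ) : Finset (Finset ℕ) :=
  P.powerset.filter fun ρ => (∀ i, ∀ p ∈ ρ, p ∈ B i → l p < k i) ∧
    ∃ q ∈ Fintype.piFinset (Box l B k), ρ ∪ univ.image q ∈ A

/-- sum of reciprocals of the products along a tuple of grid points -/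
def rsum {e n : ℕ} (a : Fin n → Fin e → ℕ) : ℚ := ∑ l, 1 / ∏ i, (a l i : ℚ)

/-- `n`-tuples of grid points -/
def Gr {e : ℕ} (n : ℕ) (S : Fin e → Finset ℕ) : Finset (Fin n → Fin e → ℕ) :=
  Fintype.piFinset fun _ => Fintype.piFinset S

/-- product of all sample primes -/
def YY {e : ℕ} (S : Fin e → Finset ℕ) : ℕ := ∏ i, pr (S i)

/-- integer numerator attached to a tuple of grid points -/
def tt {e n : ℕ} (S : Fin e → Finset ℕ) (a : Fin n → Fin e → ℕ) : ℕ := ∑ l, YY S / ∏ i, a l i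

/-- integer numerator attached to `J` tuples -/
def TT {e n J : ℕ} (S : Fin e → Finset ℕ) (q : Fin J → ℕ) (ω : Fin J → Fin n → Fin e → ℕ) : ℕ :=
  ∑ j, tt S (ω j) * ((∏ j', q j') / q j)

/-- `J`-tuples of tuples -/
def Om {e : ℕ} (J n : ℕ) (S : Fin e → Finset ℕ) : Finset (Fin J → Fin n → Fin e → ℕ) :=
  Fintype.piFinset fun _ => Gr n S

/-- injective tuples -/
def Inj (J : ℕ) (Q : Finset ℕ) : Finset (Fin J → ℕ) :=
  (Fintype.piFinset fun _ => Q).filter Function.Injective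

/-- number of collisions -/
def col {α : Type} (Ω : Finset α) (T : α → ℕ) : ℕ :=
  ((Ω ×ˢ Ω).filter fun x => T x.1 = T x.2).card

end

end Vale.Agent.P013
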