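import Vale.Agent.P013.Defs

/-! More definitions for the Jacobsthal project (P013). -/

namespace Vale.Agent.P013

open Finset Real

noncomputable section

open Classical

/-- mass of good pairs -/
def GM (t θ : ℝ) (y N : ℕ) : ℝ :=
  ∑ a ∈ tp t y, ∑ b ∈ bs t y, if Good t θ y N a b then 1 / ((a : ℝ) * b) else 0

/-- the linear form of the structured case -/
def ell (s : ℤ) (V : ℕ) (U : ℤ) (n : ℕ) : ℤ := s * (V * n - U)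

/-- odd primes with `log p ≤ w` -/
def Od (w : ℝ) : Finset ℕ := (PL w).erase 2

def gs (N V : ℕ) (U : ℤ) (q : ℕ) : ℝ :=
  if (q : ℤ) ∣ ZZ N V U then 0 else if q ∣ V then 1 / (q : ℝ) else 1 / ((q : ℝ) - 1)

def GG (N V : ℕ) (U : ℤ) (w : ℝ) : ℝ := ∏ q ∈ Od w, (1 - gs N V U q)

/-- survivors of the small primes in the structured case -/
def Sur (s : ℤ) (N V : ℕ) (U : ℤ) (n0 m : ℕ) (w : ℝ) : Finset ℕ :=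
  (Ico n0 (n0 + m)).filter fun n => (ell s V U n).toNat.Prime ∧ ∀ q ∈ Od w, ¬ q ∣ N + n

/-- setting of the structured case -/
def StH (θ : ℝ) (y : ℕ) (s : ℤ) (V : ℕ) (U : ℤ) (n0 : ℕ) : Prop :=
  (s = 1 ∨ s = -1) ∧ 1 ≤ V ∧ (V : ℝ) ≤ (y : ℝ) ^ θ ∧ IsCoprime (V : ℤ) U ∧
    ∀ n, n0 ≤ n → n ≤ n0 + y / 2 →
      (y : ℝ) / 4 ≤ ell s V U n ∧ (ell s V U n : ℝ) ≤ 3 * (y : ℝ) ^ (1 + θ)

/-- row sum over a grid -/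
def RS {e : ℕ} (Q : Fin e → Finset ℕ) (δ : Fin e → ℕ → ℝ) (M : ℤ) (d : ℕ) : ℂ :=
  ∑ a ∈ Fintype.piFinset Q, ((∏ i, δ i (a i) : ℝ) : ℂ) * ee (M / ((d : ℝ) * ∏ i, (a i : ℝ)))

/-- hypotheses of the inverse theorem -/
def InvH (K K' e y : ℕ) (M : ℤ) (u R : ℝ) (Q0 : Finset ℕ) (Q : Fin e → Finset ℕ)
    (δ : Fin e → ℕ → ℝ) (G : Finset ℕ) : Prop :=
  L2 y ^ 2 - 1 ≤ u ∧ u ≤ L2 y ^ 4 ∧
  (∀ q ∈ Q0, q.Prime ∧ u ≤ log q ∧ log q ≤ u + 1 / L1 y) ∧ exp u / L1 y ^ K' ≤ Q0.card ∧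
  (∀ i : Fin e, L1 y ≤ (Q i).card ∧ ∀ q ∈ Q i, q.Prime ∧
    L2 y ^ (8 * (i.val + 1) + 2) - 1 ≤ log q ∧ log q ≤ L2 y ^ (8 * (i.val + 1) + 4)) ∧
  (∀ i q, |δ i q| ≤ 1) ∧ √(y : ℝ) ≤ R ∧ R ≤ (y : ℝ) ^ (1.1 : ℝ) ∧
  (∀ ρ ∈ G, 1 ≤ ρ ∧ (ρ : ℝ) ≤ R) ∧ R / L1 y ^ K ≤ G.card ∧
  ∀ ρ ∈ G, (Q0.card : ℝ) * (∏ i, ((Q i).card : ℝ)) / L1 y ^ K ≤ ∑ q ∈ Q0, ‖RS Q δ M (ρ * q)‖

/-- conclusion of the inverse theorem -/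
def InvC (M : ℤ) (R a b c : ℝ) (G : Finset ℕ) : Prop :=
  ∃ (V : ℕ) (U : ℤ) (C : Finset (ℕ × ℕ)), 1 ≤ V ∧ (V : ℝ) ≤ a ∧ |(U : ℝ)| ≤ b * R ∧
    C ⊆ G ×ˢ G ∧ R ^ 2 / c ≤ C.card ∧
    ∀ x ∈ C, ∀ p : ℕ, p.Prime → p ∣ x.1 → ¬ p ∣ x.2 → (p : ℤ) ∣ V * M - U

/-- exponential sum over factorable moduli -/
def BI (t θ : ℝ) (κ e y N : ℕ) (M : ℤ) : ℂ :=
  ∑ S ∈ GoodS t θ κ e y N, (-1) ^ S.card * (1 / (pr S : ℂ) * ee (M / (pr S : ℝ)))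

/-- the ranges as a tuple -/
def RgF (κ e y : ℕ) : Fin (e + 1) → Finset ℕ := fun i => Rg κ y i.val

/-- contribution of one tuple of boxes -/
def BK (t θ : ℝ) (κ e y N : ℕ) (M : ℤ) (k : Fin (e + 1) → ℕ) : ℝ :=
  ∑ ρ ∈ Rows (lab (et κ y)) (RgF κ e y) (P1 y) (GoodS t θ κ e y N) k, 1 / (pr ρ : ℝ) *
    ‖RS (Box (lab (et κ y)) (RgF κ e y) k) (fun _ q => 1 / (q : ℝ)) M (pr ρ)‖

/-- mass of one tuple of boxes -/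
def MK (κ e y : ℕ) (k : Fin (e + 1) → ℕ) : ℝ := ∏ i, rc (Box (lab (et κ y)) (RgF κ e y) k i)

end

end Vale.Agent.P013
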