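import Vale.Agent.P013.FL1
import Vale.Agent.P013.SI
import Vale.Agent.P013.Win
import Vale.Agent.P031.EulA

namespace Vale.Agent.P013

open Finset Real Filter

open Classical

theorem FL2_rc : ∃ C : ℝ, 0 < C ∧ ∀ (l w : ℝ) (S : Finset ℕ), 0 < l → l ≤ w →
    (∀ q ∈ S, q.Prime ∧ l ≤ log q ∧ log q ≤ w) → rc S ≤ log (w / l) + C := by
  obtain ⟨C1, hC1, h1⟩ := mert2
  obtain ⟨C2, hC2, h2⟩ := win
  refine ⟨C1 + 4 * C2, by positivity, fun l w S hl hw hS => ?_⟩
  have hu1 : 1 ≤ max l 1 := le_max_right _ _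
  have hul : l ≤ max l 1 := le_max_left _ _
  generalize hu : max l 1 = u at hu1 hul
  have a1 := (abs_le.1 (h1 u (max w u) hu1 (le_max_right _ _))).2
  have a2 := h2 (1 / 2) (u - 1) 1 (S.filter fun q => ¬ u < log q) (by norm_num) (by norm_num) (by
    intro q hq
    obtain ⟨hq1, hq2⟩ := mem_filter.1 hq
    obtain ⟨b1, b2, -⟩ := hS q hq1
    have b4 : log 2 ≤ log q := log_le_log (by norm_num) (by exact_mod_cast b1.two_le)
    have b5 := log_two_gt_d9
    refine ⟨b1, by linarith, ?_, by linarith⟩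
    rcases max_cases l 1 with h | h <;> linarith [h.1])
  have a3 : rc (S.filter fun q => u < log q) ≤ rc ((PL (max w u)).filter fun p => u < log p) := by
    refine sum_le_sum_of_subset_of_nonneg (fun q hq => ?_) fun _ _ _ => by positivity
    obtain ⟨hq1, hq2⟩ := mem_filter.1 hq
    exact mem_filter.2 ⟨mem_PL.2 ⟨(hS q hq1).1, (hS q hq1).2.2.trans (le_max_left _ _)⟩, hq2⟩
  have a4 : rc (S.filter fun q => u < log q) + rc (S.filter fun q => ¬ u < log q) = rc S :=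
    sum_filter_add_sum_filter_not _ _ _
  have a5 : log (max w u / u) ≤ log (w / l) := by
    refine log_le_log (div_pos (lt_of_lt_of_le (by linarith) (le_max_right _ _)) (by linarith)) ?_
    rcases max_cases w u with h | h <;> rw [h.1]
    · exact div_le_div_of_nonneg_left (by linarith) hl hul
    · rw [div_self (by linarith), le_div_iff₀ hl]
      linarith
  have a6 : C1 / u ≤ C1 := div_le_self hC1.le hu1
  have a7 : C2 * (1 + 1) / (1 / 2) = 4 * C2 := by ring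
  linarith

theorem FL2_exp {g : ℝ} (h0 : 0 ≤ g) (h1 : g ≤ 2 / 3) : 1 ≤ (1 - g) * exp (3 * g) := by
  have := add_one_le_exp (3 * g)
  nlinarith [mul_le_mul_of_nonneg_left this (show 0 ≤ 1 - g by linarith), mul_nonneg h0 (show 0 ≤ 2 - 3 * g by linarith)]

theorem FL2_lo {P H : Finset ℕ} {g : ℕ → ℝ} {p : ℕ} (hg : ∀ q ∈ P, 0 ≤ g q ∧ g q ≤ 2 / 3)
    (hHP : H ⊆ P) (hH : ∀ q ∈ P, p ≤ q → q ∈ H) :
    ∏ q ∈ lo P p, (1 - g q) ≤ (∏ q ∈ P, (1 - g q)) * exp (3 * ∑ q ∈ H, g q) := by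
  have h1 : (∏ q ∈ lo P p, (1 - g q)) * ∏ q ∈ P.filter (fun q => ¬ q < p), (1 - g q) =
      ∏ q ∈ P, (1 - g q) := prod_filter_mul_prod_filter_not _ _ _
  have h2 : 1 ≤ (∏ q ∈ P.filter (fun q => ¬ q < p), (1 - g q)) *
      exp (3 * ∑ q ∈ P.filter (fun q => ¬ q < p), g q) := by
    rw [mul_sum, exp_sum, ← prod_mul_distrib]
    calc (1 : ℝ) = ∏ _q ∈ P.filter (fun q => ¬ q < p), (1 : ℝ) := by simp
      _ ≤ _ := prod_le_prod (fun _ _ => zero_le_one) fun q hq =>
        FL2_exp (hg q (mem_filter.1 hq).1).1 (hg q (mem_filter.1 hq).1).2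
  have h3 : ∑ q ∈ P.filter (fun q => ¬ q < p), g q ≤ ∑ q ∈ H, g q :=
    sum_le_sum_of_subset_of_nonneg
      (fun q hq => hH q (mem_filter.1 hq).1 (not_lt.1 (mem_filter.1 hq).2))
      fun q hq _ => (hg q (hHP hq)).1
  have h4 : 0 ≤ ∏ q ∈ lo P p, (1 - g q) :=
    prod_nonneg fun q hq => by linarith [(hg q (mem_filter.1 hq).1).2]
  have h5 : 0 ≤ ∏ q ∈ P.filter (fun q => ¬ q < p), (1 - g q) :=
    prod_nonneg fun q hq => by linarith [(hg q (mem_filter.1 hq).1).2]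
  have h6 : exp (3 * ∑ q ∈ P.filter (fun q => ¬ q < p), g q) ≤ exp (3 * ∑ q ∈ H, g q) :=
    exp_le_exp.2 (by linarith)
  rw [← h1, mul_assoc]
  exact le_mul_of_one_le_right h4 (h2.trans (mul_le_mul_of_nonneg_left h6 h5))

theorem FL2_term {x : ℝ} (hx : 0 ≤ x) (m : ℕ) :
    x ^ m / m.factorial ≤ (1 / 16) ^ m * exp (16 * x) := by
  have h := pow_div_factorial_le_exp (16 * x) (by positivity) m
  have h2 : x ^ m / m.factorial = (1 / 16) ^ m * ((16 * x) ^ m / m.factorial) := by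
    rw [← mul_div_assoc, ← mul_pow]
    congr 2
    ring
  rw [h2]
  exact mul_le_mul_of_nonneg_left h (by positivity)

theorem FL2_main : ∃ n : ℕ, 1 ≤ n ∧ ∀ (z D : ℝ) (P : Finset ℕ) (g : ℕ → ℝ) (σ : ℕ), σ < 2 → 2 ≤ z →
    z ^ (100 + n) ≤ D → (∀ p ∈ P, p.Prime ∧ (p : ℝ) ≤ z ∧ 0 ≤ g p ∧ g p ≤ 2 / p ∧ g p ≤ 2 / 3) →
    ∑ p ∈ P, ∑ T ∈ DS (okF 100 D) σ P p, (∏ q ∈ T, g q) * ∏ q ∈ lo P p, (1 - g q) ≤
      1 / 2 * ∏ p ∈ P, (1 - g p) := by
  obtain ⟨C, hC, hrc⟩ := FL2_rc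
  obtain ⟨n, hn⟩ := exists_pow_lt_of_lt_one (show (0 : ℝ) < 1 / (4 * exp (38 * C)) by positivity)
    (show (1 / 2 : ℝ) < 1 by norm_num)
  refine ⟨n + 1, by omega, fun z D P g σ hσ hz hD hP => ?_⟩
  have hV : 0 ≤ ∏ p ∈ P, (1 - g p) := prod_nonneg fun q hq => by linarith [(hP q hq).2.2.2.2]
  generalize hVe : ∏ p ∈ P, (1 - g p) = V at hV
  have hlz : 0 < log z := log_pos (by linarith)
  have hP' : ∀ p ∈ P, p.Prime ∧ (p : ℝ) ≤ z := fun p hp => ⟨(hP p hp).1, (hP p hp).2.1⟩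
  have hg : ∀ q ∈ P, 0 ≤ g q ∧ g q ≤ 2 / 3 := fun q hq => ⟨(hP q hq).2.2.1, (hP q hq).2.2.2.2⟩
  obtain ⟨H, hH⟩ : ∃ H : ℕ → Finset ℕ, ∀ m, H m =
    P.filter fun q : ℕ => log z * (99 / 100 : ℝ) ^ m ≤ log q := ⟨_, fun _ => rfl⟩
  have hHP : ∀ m, H m ⊆ P := fun m => by rw [hH]; exact filter_subset _ _
  have hsum : ∀ m : ℕ, ∑ q ∈ H m, g q ≤ 2 * (C + m / 99) := by
    intro m
    have h1 := hrc (log z * (99 / 100 : ℝ) ^ m) (log z) (H m) (by positivity)
      (mul_le_of_le_one_right hlz.le (pow_le_one₀ (by norm_num) (by norm_num))) (by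
        intro q hq
        rw [hH] at hq
        obtain ⟨a, b⟩ := mem_filter.1 hq
        exact ⟨(hP q a).1, b, log_le_log (by exact_mod_cast (hP q a).1.pos) (hP q a).2.1⟩)
    have h2 : log z / (log z * (99 / 100 : ℝ) ^ m) = (100 / 99) ^ m := by
      rw [div_mul_cancel_left₀ hlz.ne', ← inv_pow]
      norm_num
    have h3 : log (100 / 99 : ℝ) ≤ 1 / 99 := by
      have := log_le_sub_one_of_pos (show (0 : ℝ) < 100 / 99 by norm_num)
      linarith
    rw [h2, log_pow] at h1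
    have h4 : ∑ q ∈ H m, g q ≤ 2 * rc (H m) := by
      unfold rc
      rw [mul_sum]
      exact sum_le_sum fun q hq => by
        rw [mul_one_div]
        exact (hP q (hHP m hq)).2.2.2.1
    nlinarith [mul_le_mul_of_nonneg_left h3 (Nat.cast_nonneg (α := ℝ) m)]
  obtain ⟨F, hF⟩ : ∃ F : Finset ℕ → ℝ, ∀ T, F T = if T ⊆ H T.card ∧ n < T.card then
    (∏ q ∈ T, g q) * (V * exp (6 * (C + T.card / 99))) else 0 := ⟨_, fun _ => rfl⟩
  have hF0 : ∀ T, 0 ≤ F T := by
    intro T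
    rw [hF]
    split_ifs with h
    · exact mul_nonneg (prod_nonneg fun q hq => (hg q (hHP _ (h.1 hq))).1) (by positivity)
    · exact le_rfl
  have s1 : ∀ p ∈ P, ∀ T ∈ DS (okF 100 D) σ P p,
      (∏ q ∈ T, g q) * ∏ q ∈ lo P p, (1 - g q) ≤ F T := by
    intro p hp T hT
    obtain ⟨d1, d2⟩ := fl_disc (b := 100) (s := 100 + (n + 1)) (by norm_num) (by omega) hσ hz hD hP' hT
    obtain ⟨e1, e2, e3, -⟩ := mem_filter.1 hT
    have e1' := mem_powerset.1 e1
    have hmem : ∀ q ∈ P, p ≤ q → q ∈ H T.card := by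
      intro q hq hpq
      rw [hH]
      refine mem_filter.2 ⟨hq, ?_⟩
      have f1 : log p ≤ log q :=
        log_le_log (by exact_mod_cast (hP p hp).1.pos) (by exact_mod_cast hpq)
      have f2 : (99 / 100 : ℝ) ^ T.card ≤ (1 - 1 / ((100 : ℕ) : ℝ)) ^ (T.card - 1) := by
        have : (1 - 1 / ((100 : ℕ) : ℝ)) = 99 / 100 := by norm_num
        rw [this]
        exact pow_le_pow_of_le_one (by norm_num) (by norm_num) (by omega)
      linarith [mul_le_mul_of_nonneg_left f2 hlz.le]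
    rw [hF, if_pos ⟨fun q hq => hmem q (e1' hq) (e3 q hq), by omega⟩]
    refine mul_le_mul_of_nonneg_left ?_ (prod_nonneg fun q hq => (hg q (e1' hq)).1)
    refine (FL2_lo hg (hHP _) hmem).trans ?_
    rw [hVe]
    exact mul_le_mul_of_nonneg_left (exp_le_exp.2 (by linarith [hsum T.card])) hV
  have s2 : ∑ p ∈ P, ∑ T ∈ DS (okF 100 D) σ P p, F T ≤ ∑ T ∈ P.powerset, F T := by
    unfold DS
    simp only [sum_filter]
    rw [sum_comm]
    refine sum_le_sum fun T _ => ?_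
    rw [← sum_filter, sum_const, nsmul_eq_mul]
    refine mul_le_of_le_one_left (hF0 T) ?_
    have : (P.filter fun p => Disc (okF 100 D) σ T p).card ≤ 1 := by
      refine card_le_one.2 fun a ha b hb => ?_
      have ha' := (mem_filter.1 ha).2
      have hb' := (mem_filter.1 hb).2
      exact le_antisymm (ha'.2.1 b hb'.1) (hb'.2.1 a ha'.1)
    exact_mod_cast this
  have s3 : ∀ m : ℕ, ∑ T ∈ powersetCard m P, F T ≤
      V * exp (38 * C) * (1 / 2) ^ n * (1 / 2) ^ m := by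
    intro m
    by_cases hm : n < m
    · have t1 : ∑ T ∈ powersetCard m P, F T ≤
          ∑ T ∈ powersetCard m (H m), (∏ q ∈ T, g q) * (V * exp (6 * (C + m / 99))) := by
        have : ∑ T ∈ powersetCard m P, F T = ∑ T ∈ (powersetCard m P).filter (fun T => T ⊆ H m),
            (∏ q ∈ T, g q) * (V * exp (6 * (C + m / 99))) := by
          rw [sum_filter]
          refine sum_congr rfl fun T hT => ?_
          rw [hF, (mem_powersetCard.1 hT).2]
          simp only [hm, and_true]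
        rw [this]
        refine sum_le_sum_of_subset_of_nonneg (fun T hT => ?_) fun T hT _ => ?_
        · obtain ⟨a, b⟩ := mem_filter.1 hT
          exact mem_powersetCard.2 ⟨b, (mem_powersetCard.1 a).2⟩
        · exact mul_nonneg (prod_nonneg fun q hq =>
            (hg q (hHP _ ((mem_powersetCard.1 hT).1 hq))).1) (by positivity)
      have t2 := P031.esymm_le (H m) g (fun q hq => (hg q (hHP _ hq)).1) m
      have t0 : 0 ≤ ∑ q ∈ H m, g q := sum_nonneg fun q hq => (hg q (hHP _ hq)).1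
      have t3 : ∑ T ∈ powersetCard m (H m), ∏ q ∈ T, g q ≤
          (1 / 16) ^ m * exp (32 * (C + m / 99)) := by
        have u1 : (0 : ℝ) < m.factorial := by exact_mod_cast m.factorial_pos
        have u2 : ∑ T ∈ powersetCard m (H m), ∏ q ∈ T, g q ≤
            (∑ q ∈ H m, g q) ^ m / m.factorial := by
          rw [le_div_iff₀ u1]
          linarith
        refine u2.trans ((FL2_term t0 m).trans ?_)
        exact mul_le_mul_of_nonneg_left (exp_le_exp.2 (by linarith [hsum m])) (by positivity)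
      have t4 : exp (32 * (C + m / 99)) * exp (6 * (C + m / 99)) ≤ exp (38 * C) * 4 ^ m := by
        have u1 : exp (m : ℝ) ≤ 4 ^ m := by
          rw [← exp_one_pow]
          exact pow_le_pow_left₀ (exp_pos 1).le (by linarith [exp_one_lt_d9]) m
        have u2 : (0 : ℝ) ≤ m := Nat.cast_nonneg m
        calc _ = exp (32 * (C + m / 99) + 6 * (C + m / 99)) := (exp_add _ _).symm
          _ ≤ exp (38 * C + m) := exp_le_exp.2 (by linarith)
          _ = exp (38 * C) * exp m := exp_add _ _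
          _ ≤ _ := mul_le_mul_of_nonneg_left u1 (exp_pos _).le
      have t5 : (1 / 16 : ℝ) ^ m * 4 ^ m ≤ (1 / 2) ^ n * (1 / 2) ^ m := by
        have u1 : (1 / 16 : ℝ) ^ m * 4 ^ m = (1 / 2) ^ m * (1 / 2) ^ m := by
          rw [← mul_pow, ← mul_pow]
          norm_num
        rw [u1]
        exact mul_le_mul_of_nonneg_right
          (pow_le_pow_of_le_one (by norm_num) (by norm_num) hm.le) (by positivity)
      rw [← sum_mul] at t1
      calc _ ≤ _ := t1
        _ ≤ (1 / 16) ^ m * exp (32 * (C + m / 99)) * (V * exp (6 * (C + m / 99))) :=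
          mul_le_mul_of_nonneg_right t3 (by positivity)
        _ = V * (1 / 16) ^ m * (exp (32 * (C + m / 99)) * exp (6 * (C + m / 99))) := by ring
        _ ≤ V * (1 / 16) ^ m * (exp (38 * C) * 4 ^ m) :=
          mul_le_mul_of_nonneg_left t4 (by positivity)
        _ = V * exp (38 * C) * ((1 / 16) ^ m * 4 ^ m) := by ring
        _ ≤ V * exp (38 * C) * ((1 / 2) ^ n * (1 / 2) ^ m) :=
          mul_le_mul_of_nonneg_left t5 (by positivity)
        _ = _ := by ring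
    · have : ∑ T ∈ powersetCard m P, F T = 0 := by
        refine sum_eq_zero fun T hT => ?_
        rw [hF, (mem_powersetCard.1 hT).2, if_neg fun h => hm h.2]
      rw [this]
      positivity
  have s4 : exp (38 * C) * (1 / 2) ^ n ≤ 1 / 4 := by
    rw [lt_div_iff₀ (by positivity)] at hn
    linarith
  calc _ ≤ ∑ p ∈ P, ∑ T ∈ DS (okF 100 D) σ P p, F T :=
        sum_le_sum fun p hp => sum_le_sum fun T hT => s1 p hp T hT
    _ ≤ _ := s2
    _ = _ := sum_powerset _ _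
    _ ≤ ∑ m ∈ range (P.card + 1), V * exp (38 * C) * (1 / 2) ^ n * (1 / 2) ^ m :=
        sum_le_sum fun m _ => s3 m
    _ = V * (exp (38 * C) * (1 / 2) ^ n) * ∑ m ∈ range (P.card + 1), (1 / 2) ^ m := by
        rw [← mul_sum]
        ring
    _ ≤ V * (1 / 4) * 2 :=
        mul_le_mul (mul_le_mul_of_nonneg_left s4 hV) (sum_geometric_two_le _)
          (sum_nonneg fun _ _ => by positivity) (by positivity)
    _ = _ := by ring
theorem fl : ∃ b s : ℕ, 2 ≤ b ∧ b + 1 ≤ s ∧ ∀ (z D : ℝ) (P : Finset ℕ) (g : ℕ → ℝ), 2 ≤ z →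
    z ^ s ≤ D → (∀ p ∈ P, p.Prime ∧ (p : ℝ) ≤ z ∧ 0 ≤ g p ∧ g p ≤ 2 / p ∧ g p ≤ 2 / 3) →
    1 / 2 * ∏ p ∈ P, (1 - g p) ≤ SV (okF b D) 0 P g ∧
      SV (okF b D) 1 P g ≤ 2 * ∏ p ∈ P, (1 - g p) := by
  obtain ⟨n, hn, h⟩ := FL2_main
  refine ⟨100, 100 + n, by norm_num, by omega, fun z D P g hz hD hP => ?_⟩
  have h0 := h z D P g 0 (by norm_num) hz hD hP
  have h1 := h z D P g 1 (by norm_num) hz hD hP
  have hV : 0 ≤ ∏ p ∈ P, (1 - g p) := prod_nonneg fun q hq => by linarith [(hP q hq).2.2.2.2]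
  rw [si _ (by norm_num), si _ (by norm_num)]
  constructor <;> linarith

end Vale.Agent.P013
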