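import Vale.Agent.P013.Bas

namespace Vale.Agent.P013

open Finset Real Filter

open Classical

theorem fact_box {n : ℕ} {l : ℕ → ℕ} {B : Fin n → Finset ℕ} {k : Fin n → ℕ} {q : Fin n → ℕ} :
    q ∈ Fintype.piFinset (Box l B k) ↔ ∀ i, q i ∈ B i ∧ l (q i) = k i := by
  simp [Fintype.mem_piFinset, Box]

theorem fact_inj {n : ℕ} {l : ℕ → ℕ} {B : Fin n → Finset ℕ} {k : Fin n → ℕ} {q : Fin n → ℕ}
    (hB : ∀ i j p, p ∈ B i → p ∈ B j → i = j) (hq : q ∈ Fintype.piFinset (Box l B k)) :
    Function.Injective q := by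
  intro i j h
  have hq' := fact_box.1 hq
  exact hB i j (q i) (hq' i).1 (h ▸ (hq' j).1)

theorem fact_disj {n : ℕ} {l : ℕ → ℕ} {B : Fin n → Finset ℕ} {k : Fin n → ℕ} {q : Fin n → ℕ}
    {ρ : Finset ℕ} (hρ : ∀ i, ∀ p ∈ ρ, p ∈ B i → l p < k i)
    (hq : q ∈ Fintype.piFinset (Box l B k)) : Disjoint ρ (univ.image q) := by
  rw [Finset.disjoint_left]
  intro p hp hp'
  obtain ⟨i, -, rfl⟩ := mem_image.1 hp'
  have hq' := fact_box.1 hq
  have := hρ i _ hp (hq' i).1
  rw [(hq' i).2] at this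
  exact lt_irrefl _ this

theorem fact_upd {n : ℕ} {l : ℕ → ℕ} {B : Fin n → Finset ℕ} {k : Fin n → ℕ} {g : Fin n → ℕ}
    (hB : ∀ i j p, p ∈ B i → p ∈ B j → i = j)
    {ρ : Finset ℕ} (hρ : ∀ i, ∀ p ∈ ρ, p ∈ B i → l p < k i)
    (hg : g ∈ Fintype.piFinset (Box l B k)) (j : Fin n) (x : ℕ) :
    ρ ∪ univ.image (Function.update g j x) = insert x ((ρ ∪ univ.image g).erase (g j)) := by
  have hd := fact_disj hρ hg
  have hi := fact_inj hB hg
  ext p
  simp only [mem_union, mem_image, mem_univ, true_and, mem_insert, mem_erase]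
  constructor
  · rintro (h | ⟨i, h⟩)
    · right
      refine ⟨?_, Or.inl h⟩
      rintro rfl
      exact Finset.disjoint_left.1 hd h (mem_image.2 ⟨j, mem_univ _, rfl⟩)
    · by_cases hij : i = j
      · subst hij
        left
        simpa using h.symm
      · right
        rw [Function.update_of_ne hij] at h
        subst h
        exact ⟨fun h => hij (hi h), Or.inr ⟨i, rfl⟩⟩
  · rintro (h | ⟨hne, h | ⟨i, h⟩⟩)
    · exact Or.inr ⟨j, by simp [h]⟩
    · exact Or.inl h
    · refine Or.inr ⟨i, ?_⟩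
      have hij : i ≠ j := by
        rintro rfl
        exact hne h.symm
      rw [Function.update_of_ne hij, h]

theorem fact_mem {n : ℕ} {l : ℕ → ℕ} {B : Fin n → Finset ℕ} {A : Finset (Finset ℕ)}
    (hB : ∀ i j p, p ∈ B i → p ∈ B j → i = j)
    (h3 : ∀ S ∈ A, ∀ i, ∀ q ∈ S, q ∈ B i → ∀ q' ∈ B i, l q' = l q → insert q' (S.erase q) ∈ A)
    {k : Fin n → ℕ} {ρ : Finset ℕ} (hρ : ∀ i, ∀ p ∈ ρ, p ∈ B i → l p < k i)
    {q0 q : Fin n → ℕ} (hq0 : q0 ∈ Fintype.piFinset (Box l B k))
    (hq : q ∈ Fintype.piFinset (Box l B k)) (h0 : ρ ∪ univ.image q0 ∈ A) :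
    ρ ∪ univ.image q ∈ A := by
  have key : ∀ I : Finset (Fin n), ρ ∪ univ.image (fun i => if i ∈ I then q i else q0 i) ∈ A := by
    intro I
    induction I using Finset.induction_on with
    | empty => simpa using h0
    | insert j I hj ih =>
      have hg : (fun i => if i ∈ I then q i else q0 i) ∈ Fintype.piFinset (Box l B k) := by
        rw [fact_box]
        intro i
        by_cases h : i ∈ I
        · simpa [h] using fact_box.1 hq i
        · simpa [h] using fact_box.1 hq0 i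
      have he : (fun i => if i ∈ insert j I then q i else q0 i) =
          Function.update (fun i => if i ∈ I then q i else q0 i) j (q j) := by
        funext i
        by_cases hij : i = j
        · subst hij
          simp
        · rw [Function.update_of_ne hij]
          simp [hij]
      rw [he, fact_upd hB hρ hg]
      refine h3 _ ih j _ (mem_union.2 (Or.inr (mem_image.2 ⟨j, mem_univ _, rfl⟩)))
        (fact_box.1 hg j).1 _ (fact_box.1 hq j).1 ?_
      rw [(fact_box.1 hg j).2, (fact_box.1 hq j).2]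
  simpa using key univ

theorem fact {n : ℕ} (l : ℕ → ℕ) (B : Fin n → Finset ℕ) (P : Finset ℕ) (A : Finset (Finset ℕ))
    (hB : ∀ i j p, p ∈ B i → p ∈ B j → i = j) (hP : ∀ S ∈ A, S ⊆ P)
    (h1 : ∀ S ∈ A, ∀ i, ∃ p ∈ S, p ∈ B i) (h2 : ∀ S ∈ A, Set.InjOn l S)
    (h3 : ∀ S ∈ A, ∀ i, ∀ q ∈ S, q ∈ B i → ∀ q' ∈ B i, l q' = l q → insert q' (S.erase q) ∈ A)
    (f : ℕ → ℂ) :
    ∑ S ∈ A, (-1) ^ S.card * f (pr S) =
      ∑ k ∈ Fintype.piFinset (fun i => (B i).image l), ∑ ρ ∈ Rows l B P A k,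
        (-1) ^ (ρ.card + n) * ∑ q ∈ Fintype.piFinset (Box l B k), f (pr ρ * ∏ i, q i) := by
  simp_rw [Finset.mul_sum]
  simp_rw [← Finset.sum_product']
  rw [Finset.sum_sigma']
  symm
  refine Finset.sum_bij (fun x _ => x.2.1 ∪ univ.image x.2.2) ?_ ?_ ?_ ?_
  · rintro ⟨k, ρ, q⟩ hx
    simp only [mem_sigma, mem_product, Rows, mem_filter] at hx
    obtain ⟨-, ⟨-, hρ, q0, hq0, h0⟩, hq⟩ := hx
    exact fact_mem hB h3 hρ hq0 hq h0
  · rintro ⟨k, ρ, q⟩ hx ⟨k', ρ', q'⟩ hx' h
    simp only [mem_sigma, mem_product, Rows, mem_filter] at hx hx'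
    obtain ⟨-, ⟨-, hρ, -⟩, hq⟩ := hx
    obtain ⟨-, ⟨-, hρ', -⟩, hq'⟩ := hx'
    simp only at h
    have hqq : q = q' := by
      funext i
      by_contra hne
      have a1 : q i ∈ ρ' ∪ univ.image q' := h ▸ mem_union.2 (Or.inr (mem_image.2 ⟨i, mem_univ _, rfl⟩))
      have a2 : q' i ∈ ρ ∪ univ.image q :=
        h.symm ▸ mem_union.2 (Or.inr (mem_image.2 ⟨i, mem_univ _, rfl⟩))
      have b1 : k i < k' i := by
        rcases mem_union.1 a1 with h' | h'
        · have := hρ' i _ h' (fact_box.1 hq i).1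
          rwa [(fact_box.1 hq i).2] at this
        · obtain ⟨j, -, hj⟩ := mem_image.1 h'
          have hji : j = i := hB j i _ (fact_box.1 hq' j).1 (hj ▸ (fact_box.1 hq i).1)
          subst hji
          exact absurd hj.symm hne
      have b2 : k' i < k i := by
        rcases mem_union.1 a2 with h' | h'
        · have := hρ i _ h' (fact_box.1 hq' i).1
          rwa [(fact_box.1 hq' i).2] at this
        · obtain ⟨j, -, hj⟩ := mem_image.1 h'
          have hji : j = i := hB j i _ (fact_box.1 hq j).1 (hj ▸ (fact_box.1 hq' i).1)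
          subst hji
          exact absurd hj hne
      omega
    subst hqq
    have hkk : k = k' := by
      funext i
      rw [← (fact_box.1 hq i).2, ← (fact_box.1 hq' i).2]
    subst hkk
    have hrr : ρ = ρ' := by
      have e1 := union_sdiff_cancel_right (fact_disj hρ hq)
      have e2 := union_sdiff_cancel_right (fact_disj hρ' hq')
      rw [← e1, ← e2, h]
    subst hrr
    rfl
  · intro S hS
    have hex : ∀ i, ∃ q ∈ S.filter (· ∈ B i), ∀ p ∈ S.filter (· ∈ B i), l p ≤ l q := by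
      intro i
      refine exists_max_image _ l ?_
      obtain ⟨p, hp, hp'⟩ := h1 S hS i
      exact ⟨p, mem_filter.2 ⟨hp, hp'⟩⟩
    choose q hq hmax using hex
    have hqb : q ∈ Fintype.piFinset (Box l B fun i => l (q i)) :=
      fact_box.2 fun i => ⟨(mem_filter.1 (hq i)).2, rfl⟩
    have hsub : univ.image q ⊆ S := by
      intro p hp
      obtain ⟨i, -, rfl⟩ := mem_image.1 hp
      exact (mem_filter.1 (hq i)).1
    have hun : S \ univ.image q ∪ univ.image q = S := sdiff_union_of_subset hsub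
    refine ⟨⟨fun i => l (q i), S \ univ.image q, q⟩, ?_, hun⟩
    simp only [mem_sigma, mem_product, Rows, mem_filter]
    refine ⟨?_, ⟨mem_powerset.2 (sdiff_subset.trans (hP S hS)), ?_, q, hqb, by rwa [hun]⟩, hqb⟩
    · rw [Fintype.mem_piFinset]
      intro i
      exact mem_image_of_mem _ (mem_filter.1 (hq i)).2
    · intro i p hp hpB
      have hp' := mem_sdiff.1 hp
      refine lt_of_le_of_ne (hmax i p (mem_filter.2 ⟨hp'.1, hpB⟩)) ?_
      intro he
      have := h2 S hS hp'.1 (mem_filter.1 (hq i)).1 he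
      exact hp'.2 (mem_image.2 ⟨i, mem_univ _, this.symm⟩)
  · rintro ⟨k, ρ, q⟩ hx
    simp only [mem_sigma, mem_product, Rows, mem_filter] at hx
    obtain ⟨-, ⟨-, hρ, -⟩, hq⟩ := hx
    have hd := fact_disj hρ hq
    have hi := fact_inj hB hq
    simp only
    rw [card_union_of_disjoint hd, card_image_of_injective _ hi, card_univ, Fintype.card_fin]
    unfold pr
    rw [prod_union hd, prod_image (fun a _ b _ h => hi h)]

end Vale.Agent.P013
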