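import Vale.Agent.P013.Bas

namespace Vale.Agent.P013

open Finset Real Filter

open Classical

theorem esym_ge (S : Finset ℕ) (f : ℕ → ℝ) {m μ : ℝ} (r : ℕ) (hm : 0 ≤ m) (hμ : 0 ≤ μ)
    (hf : ∀ q ∈ S, 0 ≤ f q ∧ f q ≤ m) (h : μ + r * m ≤ ∑ q ∈ S, f q) :
    μ ^ r ≤ r.factorial * ∑ U ∈ powersetCard r S, ∏ q ∈ U, f q := by

  induction S using Finset.induction_on generalizing r μ with
  | empty =>
    rcases r with _ | r
    · simp
    · have h1 : (0 : ℝ) ≤ ((r + 1 : ℕ) : ℝ) * m := by positivity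
      have h2 : μ = 0 := by simp only [sum_empty] at h; linarith
      rw [powersetCard_eq_empty.2 (by simp), h2]; simp
  | insert x S hx ih =>
    rcases r with _ | k
    · simp
    have hf' : ∀ q ∈ S, 0 ≤ f q ∧ f q ≤ m := fun q hq => hf q (mem_insert_of_mem hq)
    have fx := hf x (mem_insert_self _ _)
    have disj : Disjoint (powersetCard (k + 1) S) ((powersetCard k S).image (insert x)) := by
      refine disjoint_left.2 fun Q h1 h2 => ?_
      obtain ⟨Q', -, rfl⟩ := mem_image.1 h2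
      exact hx ((mem_powersetCard.1 h1).1 (mem_insert_self _ _))
    have nm : ∀ Q ∈ powersetCard k S, x ∉ Q := fun Q hQ h => hx ((mem_powersetCard.1 hQ).1 h)
    rw [powersetCard_succ_insert hx, sum_union disj, sum_image fun Q h1 Q' h2 e => by
      rw [← erase_insert (nm Q h1), e, erase_insert (nm Q' h2)],
      sum_congr rfl fun Q hQ => prod_insert (nm Q hQ), ← mul_sum]
    rw [sum_insert hx] at h
    push_cast at h
    have a2 := mul_le_mul_of_nonneg_left (ih k hμ hf' (by linarith [fx.2]))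
      (show 0 ≤ ((k + 1 : ℕ) : ℝ) * f x by have := fx.1; positivity)
    have e : (((k + 1).factorial : ℕ) : ℝ) = ((k + 1 : ℕ) : ℝ) * k.factorial := by
      rw [Nat.factorial_succ, Nat.cast_mul]
    rcases le_total (f x) μ with hx1 | hx1
    · have a1 := ih (μ := μ - f x) (k + 1) (by linarith) hf' (by push_cast; linarith)
      have a3 := pow_add_mul_le_add_pow hμ (show 0 ≤ 2 * μ + -f x by linarith) (k + 1)
      rw [Nat.add_sub_cancel, ← sub_eq_add_neg] at a3
      rw [mul_add]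
      rw [e] at a1 ⊢
      linarith
    · have a1 : 0 ≤ (((k + 1).factorial : ℕ) : ℝ) * ∑ U ∈ powersetCard (k + 1) S, ∏ q ∈ U, f q :=
        mul_nonneg (Nat.cast_nonneg _) (sum_nonneg fun U hU => prod_nonneg fun q hq =>
          (hf' q ((mem_powersetCard.1 hU).1 hq)).1)
      have a3 : μ ^ (k + 1) ≤ ((k + 1 : ℕ) : ℝ) * f x * μ ^ k := by
        rw [pow_succ']
        refine mul_le_mul_of_nonneg_right (hx1.trans ?_) (by positivity)
        exact le_mul_of_one_le_left fx.1 (by exact_mod_cast Nat.le_add_left 1 k)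
      rw [mul_add]
      rw [e] at a1 ⊢
      linarith

theorem fam_r {t τ W : ℝ} (h0 : 0 < t) (h1 : t ≤ 1 / 100) (hτ : 0 < τ) (h2 : τ / (3 * t) ≤ W)
    (h3 : W ≤ τ / t) : ∃ r : ℕ, r % 2 = 1 ∧ 10 ≤ r ∧ (r : ℝ) ≤ 1 / t ∧ 1.1 * τ ≤ W / r ∧
      W / r ≤ 1.2 * τ := by

  obtain ⟨ω, rfl⟩ : ∃ ω, W = ω * τ := ⟨W / τ, by field_simp⟩
  have a1 : 1 / (3 * t) ≤ ω := by
    refine le_of_mul_le_mul_right ?_ hτ
    rwa [one_div_mul_eq_div]
  have a2 : ω ≤ 1 / t := by
    refine le_of_mul_le_mul_right ?_ hτ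
    rwa [one_div_mul_eq_div]
  have a3 : 33 ≤ ω := le_trans (by rw [le_div_iff₀ (by positivity)]; linarith) a1
  have b1 := Nat.le_ceil ((ω / 1.2 - 1) / 2)
  have b2 := Nat.ceil_lt_add_one (show 0 ≤ (ω / 1.2 - 1) / 2 by
    have : 1 ≤ ω / 1.2 := by rw [le_div_iff₀ (by norm_num)]; linarith
    linarith)
  obtain ⟨k, hk⟩ : ∃ k, k = ⌈(ω / 1.2 - 1) / 2⌉₊ := ⟨_, rfl⟩
  rw [← hk] at b1 b2
  have e : ω / 1.2 = 5 / 6 * ω := by ring
  rw [e] at b1 b2
  have hr : (0 : ℝ) < ((2 * k + 1 : ℕ) : ℝ) := by positivity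
  refine ⟨2 * k + 1, by omega, ?_, ?_, ?_, ?_⟩
  · have : (10 : ℝ) ≤ ((2 * k + 1 : ℕ) : ℝ) := by push_cast; linarith
    exact_mod_cast this
  · push_cast; linarith
  · rw [le_div_iff₀ hr]; push_cast; nlinarith
  · rw [div_le_iff₀ hr]; push_cast; nlinarith

theorem Fam1_lt {p q : ℕ} (hq : q.Prime) (h : log q < log p) : q < p := by
  by_contra hn
  rcases Nat.eq_zero_or_pos p with rfl | hp
  · have := log_natCast_nonneg q
    simp at h
    linarith
  · have := log_le_log (by exact_mod_cast hp) (show (p : ℝ) ≤ q by exact_mod_cast not_lt.1 hn)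
    linarith

theorem fam_mem {η β τ u : ℝ} {P U : Finset ℕ} {a b r : ℕ} (hη : 0 < η) (hτ : 0 < τ)
    (hP : ∀ p ∈ P, p.Prime) (ha : a ∈ P) (hb : b ∈ P) (hU : U ⊆ P) (ha1 : 1.3 * τ < log a)
    (hb1 : τ ≤ log b) (hb2 : log b ≤ 1.01 * τ) (hr : r % 2 = 1) (hr1 : 10 ≤ r) (hc : U.card = r)
    (hu : u * r = β - rl η a - rl η b - 2.2 * τ) (hu1 : 1.1 * τ ≤ u) (hu2 : u ≤ 1.2 * τ)
    (he : η * r ≤ 0.05 * τ) (hU1 : ∀ q ∈ U, u < log q ∧ log q ≤ u + 0.5 * τ / r) :
    a ∉ insert b U ∧ b ∉ U ∧ insert a (insert b U) ∈ FamP η β τ P a b := by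

  have hr0 : (10 : ℝ) ≤ r := by exact_mod_cast hr1
  have h5 : 0.5 * τ / r ≤ 0.05 * τ := by rw [div_le_iff₀ (by linarith)]; nlinarith
  have hη1 : η ≤ 0.005 * τ := by nlinarith
  have qa : ∀ q ∈ U, q < a := fun q hq => Fam1_lt (hP q (hU hq)) (by linarith [(hU1 q hq).2])
  have bq : ∀ q ∈ U, b < q := fun q hq => Fam1_lt (hP b hb) (by linarith [(hU1 q hq).1])
  have ba : b < a := Fam1_lt (hP b hb) (by linarith)
  have n1 : a ∉ insert b U := by
    intro h
    rcases mem_insert.1 h with h | h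
    · omega
    · exact lt_irrefl _ (qa a h)
  have n2 : b ∉ U := fun h => lt_irrefl _ (bq b h)
  have hcard : (insert a (insert b U)).card = r + 2 := by
    rw [card_insert_of_notMem n1, card_insert_of_notMem n2, hc]
  have hl : lS η (insert a (insert b U)) = rl η a + (rl η b + lS η U) := by
    unfold lS; rw [sum_insert n1, sum_insert n2]
  have l1 : lS η U ≤ r * (u + 0.5 * τ / r + η) := by
    have := sum_le_card_nsmul U (rl η) (u + 0.5 * τ / r + η) fun q hq => by
      linarith [rl_le hη q, (hU1 q hq).2]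
    rwa [hc, nsmul_eq_mul] at this
  have l2 : r * u ≤ lS η U := by
    have := card_nsmul_le_sum U (rl η) u fun q hq => by linarith [le_rl hη q, (hU1 q hq).1]
    rwa [hc, nsmul_eq_mul] at this
  have l3 : (r : ℝ) * (u + 0.5 * τ / r + η) = u * r + 0.5 * τ + η * r := by field_simp
  refine ⟨n1, n2, mem_filter.2 ⟨mem_powerset.2 (insert_subset ha (insert_subset hb hU)),
    mem_insert_self _ _, mem_insert_of_mem (mem_insert_self _ _), fun q hq => ?_, fun q hq hqb => ?_,
    by omega, fun p hp hev => ?_, by linarith, by linarith⟩⟩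
  · rcases mem_insert.1 hq with rfl | hq
    · exact le_rfl
    rcases mem_insert.1 hq with rfl | hq
    · exact ba.le
    · exact (qa q hq).le
  · rcases mem_insert.1 hq with rfl | hq
    · linarith
    · linarith [(hU1 q ((mem_insert.1 hq).resolve_left hqb)).1]
  · rcases mem_insert.1 hp with rfl | hp
    · have : up (insert p (insert b U)) p = {p} := by
        ext q
        simp only [up, mem_filter, mem_insert, mem_singleton]
        constructor
        · rintro ⟨h | h | h, h'⟩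
          · exact h
          · omega
          · have := qa q h; omega
        · rintro rfl; exact ⟨Or.inl rfl, le_rfl⟩
      rw [this] at hev
      simp at hev
    rcases mem_insert.1 hp with rfl | hpU
    · have : up (insert a (insert p U)) p = insert a (insert p U) :=
        filter_true_of_mem fun q hq => by
          rcases mem_insert.1 hq with rfl | hq
          · exact ba.le
          rcases mem_insert.1 hq with rfl | hq
          · exact le_rfl
          · exact (bq q hq).le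
      rw [this] at hev
      omega
    · have hs : up (insert a (insert b U)) p ⊆ insert a U := by
        intro q hq
        obtain ⟨h1, h2⟩ := mem_filter.1 hq
        rcases mem_insert.1 h1 with rfl | h1
        · exact mem_insert_self _ _
        rcases mem_insert.1 h1 with rfl | h1
        · have := bq p hpU; omega
        · exact mem_insert_of_mem h1
      have l4 : lS η (up (insert a (insert b U)) p) ≤ rl η a + lS η U := by
        refine (sum_le_sum_of_subset_of_nonneg hs fun q _ _ => rl_nonneg hη q).trans (le_of_eq ?_)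
        rw [sum_insert fun h => lt_irrefl _ (qa a h)]
        rfl
      unfold okR
      linarith [rl_le hη p, (hU1 p hpU).2, le_rl hη b]

theorem fam_mn {t θ : ℝ} {κ y N : ℕ} (ht : 0 < t) (hy : 2 ≤ y) {T : Finset ℕ}
    (h : T ∈ Fam t θ κ y N) : 3 ≤ T.card ∧ (∀ q ∈ T, t * L1 y ≤ log q) ∧
    ∃ b ∈ bs t y, b ∈ T ∧ (∀ q ∈ T, b ≤ q) ∧ ∀ q ∈ T, up T q ∈ Fam t θ κ y N → q = b := by

  have hτ : 0 < t * L1 y := mul_pos ht (log_pos (by exact_mod_cast hy))
  obtain ⟨hT, a, ha, b, hb, -, hF⟩ := mem_filter.1 h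
  obtain ⟨-, f1, f2, -, f4, f5, -⟩ := mem_filter.1 hF
  have b1 := (mem_PL.1 (mem_filter.1 hb).1)
  have b2 := (mem_filter.1 hb).2
  have a1 := (mem_filter.1 ha).2
  have hab : a ≠ b := by rintro rfl; linarith [b1.2]
  have hle : ∀ q ∈ T, b ≤ q := fun q hq => by
    by_cases hqb : q = b
    · exact hqb.ge
    · exact (Fam1_lt b1.1 (by linarith [f4 q hq hqb, b1.2])).le
  refine ⟨?_, fun q hq => ?_, b, hb, f2, hle, fun q hq hup => ?_⟩
  · have := one_lt_card.2 ⟨a, f1, b, f2, hab⟩
    omega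
  · by_cases hqb : q = b
    · rwa [hqb]
    · linarith [f4 q hq hqb]
  · obtain ⟨-, a', -, b', hb', -, hF'⟩ := mem_filter.1 hup
    obtain ⟨-, -, g2, -⟩ := mem_filter.1 hF'
    obtain ⟨g3, g4⟩ := mem_filter.1 g2
    have : b' = b := by
      by_contra hn
      linarith [f4 b' g3 hn, (mem_PL.1 (mem_filter.1 hb').1).2]
    exact le_antisymm (this ▸ g4) (hle q hq)

end Vale.Agent.P013
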