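import Vale.Agent.P013.Core

namespace Vale.Agent.P013

open Finset Real Filter

open Classical

theorem fin_int (A : ℕ) : ∀ᶠ y : ℕ in atTop, ∀ n : ℕ, 1 ≤ n →
    (n.primeFactors.card : ℝ) ^ 2 ≤ y * L1 y ^ A → ∀ a : ℤ,
    ∃ i : ℕ, i < 4 * y + 2 ∧ IsCoprime (a + i) (n : ℤ) := by
  filter_upwards [core A] with y hy n hn hc a
  obtain ⟨j, hj, ho⟩ : ∃ j : ℕ, j ≤ 1 ∧ ¬ (2 : ℤ) ∣ a + j := by
    by_cases h : (2 : ℤ) ∣ a
    · exact ⟨1, le_rfl, by push_cast; omega⟩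
    · exact ⟨0, by omega, by simpa using h⟩
  set P := n.primeFactors.erase 2 with hP
  have hPp : ∀ p ∈ P, p.Prime ∧ p ≠ 2 := fun p hp =>
    ⟨Nat.prime_of_mem_primeFactors (mem_of_mem_erase hp), ne_of_mem_erase hp⟩
  have hpos : 0 < pr P := pr_pos fun p hp => (hPp p hp).1.ne_zero
  have hodd : ¬ 2 ∣ pr P := by
    intro h
    obtain ⟨p, hp, h2⟩ := (Nat.prime_two.prime.dvd_finset_prod_iff _).1 h
    exact (hPp p hp).2 ((Nat.prime_dvd_prime_iff_eq Nat.prime_two (hPp p hp).1).1 h2).symm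
  obtain ⟨w, hw⟩ : ∃ w : ℕ, pr P + 1 = 2 * w := ⟨(pr P + 1) / 2, by omega⟩
  have hz : (0 : ℤ) < pr P := by exact_mod_cast hpos
  have hm := Int.emod_nonneg ((a + j) * w) hz.ne'
  obtain ⟨N0, hN0⟩ := Int.eq_ofNat_of_zero_le hm
  have hcard : (P.card : ℝ) ^ 2 ≤ y * L1 y ^ A := by
    refine le_trans ?_ hc
    have : P.card ≤ n.primeFactors.card := card_erase_le
    gcongr
  obtain ⟨m, hm1, hm2⟩ := hy (N0 + pr P) P (by omega) hPp hcard
  refine ⟨j + 2 * m, by omega, ?_⟩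
  rw [Int.isCoprime_iff_gcd_eq_one]
  by_contra hg
  obtain ⟨p, hp, h1⟩ := Nat.exists_prime_and_dvd hg
  have ha : (p : ℤ) ∣ a + (j + 2 * m : ℕ) := (Int.natCast_dvd_natCast.2 h1).trans (Int.gcd_dvd_left ..)
  have hb : (p : ℤ) ∣ n := (Int.natCast_dvd_natCast.2 h1).trans (Int.gcd_dvd_right ..)
  by_cases h2 : p = 2
  · subst h2
    push_cast at ha
    omega
  have hpP : p ∈ P := mem_erase.2 ⟨h2, Nat.mem_primeFactors.2 ⟨hp, by exact_mod_cast hb, by omega⟩⟩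
  apply hm2 p hpP
  have hd : (p : ℤ) ∣ pr P := Int.natCast_dvd_natCast.2 (dvd_prod_of_mem _ hpP)
  have e1 := Int.emod_add_mul_ediv ((a + j) * w) (pr P)
  have hw' : (pr P : ℤ) + 1 = 2 * w := by exact_mod_cast hw
  rw [← Int.natCast_dvd_natCast]
  have e2 : ((N0 + pr P + m : ℕ) : ℤ) = (a + (j + 2 * m : ℕ)) * w +
      pr P * (1 - (a + j) * w / pr P - m) := by
    push_cast
    rw [hN0] at e1
    linear_combination e1 + m * hw'
  rw [e2]
  exact dvd_add (ha.mul_right _) (hd.mul_right _)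

theorem fin_log (A : ℕ) : ∃ B : ℝ, 1 ≤ B ∧ ∀ k : ℕ, 1 ≤ k → log ((k : ℝ) + 1) ^ A ≤ B * k := by
  refine ⟨2 * A.factorial, by have : (1 : ℝ) ≤ A.factorial := by exact_mod_cast A.factorial_pos
                              linarith, fun k hk => ?_⟩
  have h1 : (1 : ℝ) ≤ k := by exact_mod_cast hk
  have h := pow_div_factorial_le_exp (log ((k : ℝ) + 1)) (log_nonneg (by linarith)) A
  rw [exp_log (by linarith), div_le_iff₀ (by exact_mod_cast A.factorial_pos)] at h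
  have : (0 : ℝ) ≤ A.factorial := by positivity
  nlinarith

theorem fin_main (A : ℕ) : ∃ C : ℝ, 0 < C ∧ ∀ k n : ℕ, 1 ≤ k → 1 ≤ n → n.primeFactors.card ≤ k →
    ∃ m : ℕ, 0 < m ∧ (m : ℝ) ≤ C * (k : ℝ) ^ 2 / log ((k : ℝ) + 1) ^ A ∧
      ∀ a : ℤ, ∃ i : ℕ, i < m ∧ IsCoprime (a + i) (n : ℤ) := by
  obtain ⟨y0, hy0⟩ := eventually_atTop.1 (fin_int A)
  obtain ⟨B, hB, hl⟩ := fin_log A
  refine ⟨(4 * y0 + 14) * B, by positivity, fun k n hk hn hc => ?_⟩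
  have h1 : (1 : ℝ) ≤ k := by exact_mod_cast hk
  have hl0 : 0 < log ((k : ℝ) + 1) := log_pos (by linarith)
  have hp : 0 < log ((k : ℝ) + 1) ^ A := pow_pos hl0 _
  set x := B * (k : ℝ) ^ 2 / log ((k : ℝ) + 1) ^ A with hx
  have hxk : (k : ℝ) ≤ x := by
    rw [hx, le_div_iff₀ hp]
    nlinarith [hl k hk]
  set y := y0 + ⌈2 * x⌉₊ with hy
  have hy1 : 2 * x ≤ y := by
    rw [hy]; push_cast
    have := Nat.le_ceil (2 * x)
    have : (0 : ℝ) ≤ y0 := by positivity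
    linarith
  have hy2 : (y : ℝ) ≤ y0 + 2 * x + 1 := by
    rw [hy]; push_cast
    have := Nat.ceil_lt_add_one (show 0 ≤ 2 * x by linarith)
    linarith
  refine ⟨4 * y + 2, by omega, ?_, hy0 y (by omega) n hn ?_⟩
  · rw [mul_assoc, mul_div_assoc, ← hx]
    push_cast
    have : (0 : ℝ) ≤ y0 := by positivity
    nlinarith
  · have h3 : log ((k : ℝ) + 1) ≤ L1 y := log_le_log (by linarith) (by linarith)
    have h4 : log ((k : ℝ) + 1) ^ A ≤ L1 y ^ A := pow_le_pow_left₀ hl0.le h3 _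
    have h5 : x * log ((k : ℝ) + 1) ^ A = B * (k : ℝ) ^ 2 := by rw [hx]; field_simp
    have h6 : (n.primeFactors.card : ℝ) ≤ k := by exact_mod_cast hc
    calc (n.primeFactors.card : ℝ) ^ 2 ≤ (k : ℝ) ^ 2 := by gcongr
      _ ≤ x * log ((k : ℝ) + 1) ^ A := by rw [h5]; nlinarith [sq_nonneg (k : ℝ)]
      _ ≤ y * L1 y ^ A := by gcongr; linarith

end Vale.Agent.P013
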