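import Vale.Agent.P013.Bas

namespace Vale.Agent.P013

open Finset Real Filter

open Classical

theorem Hv0_ind {D B : Finset ℕ} (h : D ⊆ B) :
    rc D = ∑ p ∈ B, 1 / (p : ℝ) * if p ∈ D then 1 else 0 := by
  simp only [mul_ite, mul_one, mul_zero]
  rw [← sum_filter, filter_mem_eq_inter, inter_eq_right.2 h, rc]

/-- number of ordered pairs of different sets containing `p` -/
noncomputable def Hv0_T {ι : Type} (H : Finset ι) (D : ι → Finset ℕ) (p : ℕ) : ℝ :=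
  ∑ i ∈ H, ∑ j ∈ H, if i = j then 0 else if p ∈ D i ∩ D j then 1 else 0

theorem Hv0_T_nonneg {ι : Type} (H : Finset ι) (D : ι → Finset ℕ) (p : ℕ) : 0 ≤ Hv0_T H D p :=
  sum_nonneg fun _ _ => sum_nonneg fun _ _ => by split_ifs <;> norm_num

theorem Hv0_pair {ι : Type} (H : Finset ι) (B : Finset ℕ) (D : ι → Finset ℕ) {β : ℝ}
    (hβ : 0 ≤ β) (hD : ∀ i ∈ H, D i ⊆ B)
    (h2 : ∀ i ∈ H, ∀ j ∈ H, i ≠ j → rc (D i ∩ D j) ≤ β) :
    ∑ p ∈ B, 1 / (p : ℝ) * Hv0_T H D p ≤ (H.card : ℝ) ^ 2 * β := by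
  simp only [Hv0_T, mul_sum]
  rw [sum_comm]
  calc _ ≤ ∑ i ∈ H, ∑ j ∈ H, β := by
        refine sum_le_sum fun i hi => ?_
        rw [sum_comm]
        refine sum_le_sum fun j hj => ?_
        by_cases h : i = j
        · simpa [h] using hβ
        · simp only [if_neg h]
          rw [← Hv0_ind (inter_subset_left.trans (hD i hi))]
          exact h2 i hi j hj h
    _ = _ := by simp only [sum_const, nsmul_eq_mul]; ring

theorem Hv0_cnt {ι : Type} (H : Finset ι) (D : ι → Finset ℕ) (p : ℕ) :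
    ∑ i ∈ H, (if p ∈ D i then (1 : ℝ) else 0) ≤ 1 + Hv0_T H D p := by
  have e : Hv0_T H D p = (∑ i ∈ H, (if p ∈ D i then (1 : ℝ) else 0)) ^ 2 -
      ∑ i ∈ H, (if p ∈ D i then (1 : ℝ) else 0) := by
    rw [Hv0_T, sq, sum_mul_sum, ← sum_sub_distrib]
    refine sum_congr rfl fun i hi => ?_
    have h1 : (if p ∈ D i then (1 : ℝ) else 0) =
        ∑ j ∈ H, if i = j then (if p ∈ D i then (1 : ℝ) else 0) else 0 := by
      rw [sum_ite_eq, if_pos hi]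
    conv_rhs => enter [2]; rw [h1]
    rw [← sum_sub_distrib]
    refine sum_congr rfl fun j _ => ?_
    by_cases h : i = j
    · subst h
      by_cases h' : p ∈ D i <;> simp [h']
    · by_cases h' : p ∈ D i <;> by_cases h'' : p ∈ D j <;> simp [h, h', h'']
  rw [e]
  nlinarith [sq_nonneg (∑ i ∈ H, (if p ∈ D i then (1 : ℝ) else 0) - 1)]

theorem Hv0_bon {ι : Type} (H : Finset ι) (B : Finset ℕ) (D : ι → Finset ℕ) {α β : ℝ}
    (hβ : 0 ≤ β) (hD : ∀ i ∈ H, D i ⊆ B ∧ α ≤ rc (D i)) (hB : rc B ≤ 1)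
    (h2 : ∀ i ∈ H, ∀ j ∈ H, i ≠ j → rc (D i ∩ D j) ≤ β) :
    H.card * α ≤ 1 + (H.card : ℝ) ^ 2 * β := by
  have h1 := Hv0_pair H B D hβ (fun i hi => (hD i hi).1) h2
  calc H.card * α = ∑ i ∈ H, α := by simp
    _ ≤ ∑ i ∈ H, ∑ p ∈ B, 1 / (p : ℝ) * if p ∈ D i then 1 else 0 :=
        sum_le_sum fun i hi => (hD i hi).2.trans (Hv0_ind (hD i hi).1).le
    _ = ∑ p ∈ B, 1 / (p : ℝ) * ∑ i ∈ H, if p ∈ D i then 1 else 0 := by
        rw [sum_comm]; simp only [mul_sum]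
    _ ≤ ∑ p ∈ B, 1 / (p : ℝ) * (1 + Hv0_T H D p) :=
        sum_le_sum fun p _ => mul_le_mul_of_nonneg_left (Hv0_cnt H D p) (by positivity)
    _ = rc B + ∑ p ∈ B, 1 / (p : ℝ) * Hv0_T H D p := by
        simp only [mul_add, mul_one, sum_add_distrib, rc]
    _ ≤ _ := add_le_add hB h1

theorem few {ι : Type} (H : Finset ι) (B : Finset ℕ) (D : ι → Finset ℕ) {α β : ℝ} (hα : 0 < α)
    (hβ : 0 ≤ β) (hD : ∀ i ∈ H, D i ⊆ B ∧ α ≤ rc (D i)) (hB : rc B ≤ 1)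
    (h2 : ∀ i ∈ H, ∀ j ∈ H, i ≠ j → rc (D i ∩ D j) ≤ β) (h3 : (2 / α + 1) ^ 2 * β ≤ 1) :
    rc (B.filter fun p => ∃ i ∈ H, ∃ j ∈ H, i ≠ j ∧ p ∈ D i ∧ p ∈ D j) ≤
      (2 / α + 1) ^ 2 * β := by
  have h0 : 0 ≤ 2 / α := by positivity
  have hm : ((⌊2 / α⌋₊ + 1 : ℕ) : ℝ) ≤ 2 / α + 1 := by
    push_cast
    linarith [Nat.floor_le h0]
  have hc : H.card ≤ ⌊2 / α⌋₊ + 1 := by
    by_contra hlt
    obtain ⟨H', hs, hc⟩ := exists_subset_card_eq (not_le.1 hlt).le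
    have h4 := Hv0_bon H' B D hβ (fun i hi => hD i (hs hi)) hB
      fun i hi j hj => h2 i (hs hi) j (hs hj)
    rw [hc] at h4
    have h5 : 2 / α < ((⌊2 / α⌋₊ + 1 : ℕ) : ℝ) := by
      push_cast
      exact Nat.lt_floor_add_one _
    have h6 := (div_lt_iff₀ hα).1 h5
    have h7 := mul_le_mul_of_nonneg_right (pow_le_pow_left₀ (Nat.cast_nonneg _) hm 2) hβ
    linarith
  have hc' : (H.card : ℝ) ≤ 2 / α + 1 := le_trans (by exact_mod_cast hc) hm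
  refine le_trans ?_ ((Hv0_pair H B D hβ (fun i hi => (hD i hi).1) h2).trans
    (mul_le_mul_of_nonneg_right (pow_le_pow_left₀ (Nat.cast_nonneg _) hc' 2) hβ))
  rw [Hv0_ind (filter_subset _ _)]
  refine sum_le_sum fun p _ => mul_le_mul_of_nonneg_left ?_ (by positivity)
  split_ifs with h
  · obtain ⟨i, hi, j, hj, hij, h4, h5⟩ := (mem_filter.1 h).2
    refine le_trans ?_ (single_le_sum (f := fun i => ∑ j ∈ H,
      if i = j then (0 : ℝ) else if p ∈ D i ∩ D j then 1 else 0)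
      (fun _ _ => sum_nonneg fun _ _ => by split_ifs <;> norm_num) hi)
    refine le_trans ?_ (single_le_sum (f := fun j =>
      if i = j then (0 : ℝ) else if p ∈ D i ∩ D j then 1 else 0)
      (fun _ _ => by split_ifs <;> norm_num) hj)
    simp [hij, h4, h5]
  · exact Hv0_T_nonneg H D p

theorem Hv0_ne {V V' : ℕ} {U U' : ℤ} (h1 : 1 ≤ V) (hc : IsCoprime (V : ℤ) U)
    (hc' : IsCoprime (V' : ℤ) U') (h : (V, U) ≠ (V', U')) : (V' : ℤ) * U - V * U' ≠ 0 := by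
  intro h0
  have e : (V' : ℤ) * U = V * U' := sub_eq_zero.1 h0
  have d1 : (V : ℤ) ∣ V' := hc.dvd_of_dvd_mul_right ⟨U', e⟩
  have d2 : (V' : ℤ) ∣ V := hc'.dvd_of_dvd_mul_right ⟨U, e.symm⟩
  have e2 : V = V' := Nat.dvd_antisymm (Int.natCast_dvd_natCast.1 d1) (Int.natCast_dvd_natCast.1 d2)
  subst e2
  have h2 : (V : ℤ) ≠ 0 := by omega
  exact h (by rw [mul_left_cancel₀ h2 e])

/-- two different heavy points share few anchor primes -/
theorem heavy_inter {t θ : ℝ} (h0 : 0 < t) (h1 : t ≤ 1 / 100) (h2 : 0 < θ) (h3 : θ ≤ t / 4) :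
    ∀ᶠ y : ℕ in atTop, ∀ (N V V' : ℕ) (U U' : ℤ), Heavy t θ y N V U → Heavy t θ y N V' U' →
    (V, U) ≠ (V', U') →
    rc ((bs t y).filter fun p => (p : ℤ) ∣ ZZ N V U ∧ (p : ℤ) ∣ ZZ N V' U') ≤
      2 / t * (y : ℝ) ^ (-t) := by
  filter_upwards [eventually_ge_atTop 4] with y hy N V V' U U' hH hH' hne
  obtain ⟨a1, a2, a3, a4, -⟩ := hH
  obtain ⟨b1, b2, b3, b4, -⟩ := hH'
  have y4 : (4 : ℝ) ≤ y := by exact_mod_cast hy
  have y0 : (0 : ℝ) < y := by linarith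
  have hL : 0 < L1 y := Real.log_pos (by linarith)
  set S : Finset ℕ := (bs t y).filter fun p : ℕ => (p : ℤ) ∣ ZZ N V U ∧ (p : ℤ) ∣ ZZ N V' U' with hS
  have hW := Hv0_ne a1 a4 b4 hne
  set W : ℤ := (V' : ℤ) * U - V * U' with hWd
  have hp : ∀ p ∈ S, p.Prime ∧ t * L1 y ≤ log p ∧ p ∣ W.natAbs := by
    intro p hp
    obtain ⟨c1, c2, c3⟩ := mem_filter.1 hp
    obtain ⟨c4, c5⟩ := mem_filter.1 c1
    refine ⟨(mem_PL.1 c4).1, c5, Int.natCast_dvd.1 ?_⟩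
    have : W = V' * ZZ N V U - V * ZZ N V' U' := by rw [hWd, ZZ, ZZ]; ring
    rw [this]
    exact dvd_sub (c2.mul_left _) (c3.mul_left _)
  have e1 : (y : ℝ) ^ θ * (y : ℝ) ^ (1 + θ) ≤ (y : ℝ) ^ 2 / 2 := by
    rw [← Real.rpow_add y0]
    have g1 : (y : ℝ) ^ (θ + (1 + θ)) ≤ (y : ℝ) ^ (1 + 1 / 2 : ℝ) :=
      Real.rpow_le_rpow_of_exponent_le (by linarith) (by linarith)
    rw [Real.rpow_add y0 1, Real.rpow_one, ← Real.sqrt_eq_rpow] at g1
    have g2 : √(y : ℝ) ≤ y / 2 := Real.sqrt_le_iff.2 ⟨by linarith, by nlinarith⟩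
    nlinarith
  have e2 : (W.natAbs : ℝ) ≤ (y : ℝ) ^ 2 := by
    rw [Nat.cast_natAbs, hWd]
    push_cast
    have g1 := abs_sub ((V' : ℝ) * U) (V * U')
    rw [abs_mul, abs_mul, Nat.abs_cast, Nat.abs_cast] at g1
    have g2 := mul_le_mul b2 a3 (abs_nonneg _) (by positivity)
    have g3 := mul_le_mul a2 b3 (abs_nonneg _) (by positivity)
    linarith
  have e3 : pr S ≤ W.natAbs := Nat.le_of_dvd (Int.natAbs_pos.2 hW)
    ((pr_dvd_iff (fun p h => (hp p h).1) _).2 fun p h => (hp p h).2.2)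
  have hn : ∀ p ∈ S, p ≠ 0 := fun p h => (hp p h).1.ne_zero
  have e4 : S.card * (t * L1 y) ≤ 2 * L1 y := by
    have g1 : log (pr S) ≤ log ((y : ℝ) ^ 2) :=
      Real.log_le_log (by exact_mod_cast pr_pos hn) (le_trans (by exact_mod_cast e3) e2)
    rw [log_pr hn, Real.log_pow] at g1
    have g2 := card_nsmul_le_sum S (fun p : ℕ => log p) _ fun p h => (hp p h).2.1
    rw [nsmul_eq_mul] at g2
    exact g2.trans (by exact_mod_cast g1)
  have e5 : (S.card : ℝ) ≤ 2 / t := by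
    rw [le_div_iff₀ h0]
    nlinarith
  have e6 : rc S ≤ S.card • (y : ℝ) ^ (-t) := by
    refine sum_le_card_nsmul _ _ _ fun p h => ?_
    have p0 : (0 : ℝ) < p := by exact_mod_cast (hp p h).1.pos
    rw [Real.rpow_def_of_pos y0, one_div, ← Real.exp_log p0, ← Real.exp_neg]
    refine Real.exp_le_exp.2 ?_
    have := (hp p h).2.1
    unfold L1 at this
    linarith
  rw [nsmul_eq_mul] at e6
  exact e6.trans (mul_le_mul_of_nonneg_right e5 (by positivity))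

end Vale.Agent.P013
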