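import Vale.Agent.P013.Bas

namespace Vale.Agent.P013

open Finset Real Filter

open Classical

theorem hv2_cnt {G : Finset ℕ} {R : ℝ} (R0 : 0 ≤ R) (hG : ∀ ρ ∈ G, 1 ≤ ρ ∧ (ρ : ℝ) ≤ R) (b : ℕ) :
    ((G.filter fun ρ => b ∣ ρ).card : ℝ) ≤ R / b := by
  have h1 : (G.filter fun ρ => b ∣ ρ) ⊆ (Ioc 0 ⌊R⌋₊).filter fun ρ => b ∣ ρ := fun ρ h => by
    obtain ⟨a1, a2⟩ := mem_filter.1 h
    exact mem_filter.2 ⟨mem_Ioc.2 ⟨(hG ρ a1).1, Nat.le_floor (hG ρ a1).2⟩, a2⟩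
  have h2 := card_le_card h1
  rw [Nat.Ioc_filter_dvd_card_eq_div] at h2
  calc ((G.filter fun ρ => b ∣ ρ).card : ℝ) ≤ ((⌊R⌋₊ / b : ℕ) : ℝ) := by exact_mod_cast h2
    _ ≤ (⌊R⌋₊ : ℝ) / b := Nat.cast_div_le
    _ ≤ R / b := div_le_div_of_nonneg_right (Nat.floor_le R0) (Nat.cast_nonneg _)

theorem hv2_card {G : Finset ℕ} {R : ℝ} (R0 : 0 ≤ R) (hG : ∀ ρ ∈ G, 1 ≤ ρ ∧ (ρ : ℝ) ≤ R) :
    (G.card : ℝ) ≤ R := by
  simpa using hv2_cnt R0 hG 1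

theorem hv2_pair {G : Finset ℕ} {R w : ℝ} (R0 : 0 ≤ R) (w0 : 0 ≤ w)
    (hG : ∀ ρ ∈ G, 1 ≤ ρ ∧ (ρ : ℝ) ≤ R) (a : ℕ → ℕ) (ha : ∀ ρ ∈ G, 1 / (a ρ : ℝ) ≤ w) :
    (((G ×ˢ G).filter fun x => a x.1 ∣ x.2).card : ℝ) ≤ R ^ 2 * w := by
  have e : ((G ×ˢ G).filter fun x => a x.1 ∣ x.2).card =
      ∑ ρ ∈ G, (G.filter fun ρ' => a ρ ∣ ρ').card := by
    simp only [card_filter, sum_product]
  rw [e, Nat.cast_sum]
  calc _ ≤ ∑ ρ ∈ G, R * w := sum_le_sum fun ρ hρ => (hv2_cnt R0 hG _).trans (by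
        rw [div_eq_mul_one_div]
        exact mul_le_mul_of_nonneg_left (ha ρ hρ) R0)
    _ = G.card * (R * w) := by rw [sum_const, nsmul_eq_mul]
    _ ≤ R * (R * w) := mul_le_mul_of_nonneg_right (hv2_card R0 hG) (by positivity)
    _ = _ := by ring

theorem hv2_main {G W : Finset ℕ} {C : Finset (ℕ × ℕ)} {R w : ℝ} (R0 : 0 ≤ R) (w0 : 0 ≤ w)
    (hG : ∀ ρ ∈ G, 1 ≤ ρ ∧ (ρ : ℝ) ≤ R) (a b : ℕ → ℕ) (ha : ∀ ρ ∈ G, 1 / (a ρ : ℝ) ≤ w)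
    (hb : ∀ ρ ∈ G, 1 / (b ρ : ℝ) ≤ w) (hC : C ⊆ G ×ˢ G)
    (hW : ∀ x ∈ C, ¬ a x.1 ∣ x.2 → ¬ b x.1 ∣ x.2 → x.1 ∈ W) :
    (C.card : ℝ) ≤ W.card * R + 2 * R ^ 2 * w := by
  have h1 : C ⊆ W ×ˢ G ∪ ((G ×ˢ G).filter (fun x => a x.1 ∣ x.2) ∪
      (G ×ˢ G).filter fun x => b x.1 ∣ x.2) := fun x hx => by
    by_cases c1 : a x.1 ∣ x.2
    · exact mem_union_right _ (mem_union_left _ (mem_filter.2 ⟨hC hx, c1⟩))
    by_cases c2 : b x.1 ∣ x.2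
    · exact mem_union_right _ (mem_union_right _ (mem_filter.2 ⟨hC hx, c2⟩))
    exact mem_union_left _ (mem_product.2 ⟨hW x hx c1 c2, (mem_product.1 (hC hx)).2⟩)
  have h2 := (card_le_card h1).trans ((card_union_le _ _).trans
    (Nat.add_le_add_left (card_union_le _ _) _))
  rw [card_product] at h2
  have h3 : (C.card : ℝ) ≤ W.card * G.card + ((((G ×ˢ G).filter fun x => a x.1 ∣ x.2).card : ℝ) +
    ((G ×ˢ G).filter fun x => b x.1 ∣ x.2).card) := by exact_mod_cast h2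
  have h4 := mul_le_mul_of_nonneg_left (hv2_card R0 hG) (Nat.cast_nonneg W.card)
  linarith [hv2_pair R0 w0 hG a ha, hv2_pair R0 w0 hG b hb]

theorem hv2_rows {W D : Finset ℕ} {R : ℝ} (R0 : 0 ≤ R) (hG : ∀ ρ ∈ W, 1 ≤ ρ ∧ (ρ : ℝ) ≤ R)
    (h : ∀ ρ ∈ W, ∃ b ∈ D, b ∣ ρ) : (W.card : ℝ) ≤ R * rc D := by
  have h1 : W ⊆ D.biUnion fun b => W.filter fun ρ => b ∣ ρ := fun ρ hρ => by
    obtain ⟨b, b1, b2⟩ := h ρ hρ
    exact mem_biUnion.2 ⟨b, b1, mem_filter.2 ⟨hρ, b2⟩⟩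
  have h2 := (card_le_card h1).trans card_biUnion_le
  calc (W.card : ℝ) ≤ ∑ b ∈ D, ((W.filter fun ρ => b ∣ ρ).card : ℝ) := by exact_mod_cast h2
    _ ≤ ∑ b ∈ D, R * (1 / (b : ℝ)) := sum_le_sum fun b _ => by
        rw [← div_eq_mul_one_div]
        exact hv2_cnt R0 hG b
    _ = _ := by rw [rc, mul_sum]

theorem hv2_red (N : ℕ) {A : ℤ} (B : ℤ) (hA : A ≠ 0) : ∃ (V : ℕ) (U : ℤ), 1 ≤ V ∧
    (V : ℤ) ≤ |A| ∧ |U| ≤ |B| ∧ IsCoprime (V : ℤ) U ∧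
    ∀ p : ℕ, p.Prime → |A| < p → (p : ℤ) ∣ A * N + B → (p : ℤ) ∣ ZZ N V U := by
  have g0 : 0 < Int.gcd A B := Int.gcd_pos_of_ne_zero_left B hA
  obtain ⟨m, n, c, e1, e2⟩ := Int.exists_gcd_one g0
  generalize Int.gcd A B = g at g0 e1 e2
  have g1 : (1 : ℤ) ≤ g := by exact_mod_cast g0
  have m0 : m ≠ 0 := by
    rintro rfl
    exact hA (by rw [e1, zero_mul])
  have c' : IsCoprime m n := Int.isCoprime_iff_gcd_eq_one.2 c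
  have a1 : |A| = |m| * g := by rw [e1, abs_mul, Nat.abs_cast]
  have a2 : |B| = |n| * g := by rw [e2, abs_mul, Nat.abs_cast]
  have m1 : 1 ≤ |m| := Int.one_le_abs m0
  have n0 : 0 ≤ |n| := abs_nonneg n
  have key : ∀ p : ℕ, p.Prime → |A| < p → (p : ℤ) ∣ A * N + B → (p : ℤ) ∣ m * N + n := by
    intro p pp h1 h2
    have h3 : (p : ℤ) ∣ (m * N + n) * g := by
      rw [show (m * N + n) * g = A * N + B by rw [e1, e2]; ring]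
      exact h2
    rcases (Nat.prime_iff_prime_int.1 pp).dvd_or_dvd h3 with h4 | h4
    · exact h4
    · have := Int.le_of_dvd (by omega) h4
      nlinarith
  rcases lt_or_gt_of_ne m0 with h | h
  · have e : (m.natAbs : ℤ) = -m := by omega
    refine ⟨m.natAbs, -n, by omega, by rw [Int.natCast_natAbs]; nlinarith,
      by rw [abs_neg]; nlinarith, by rw [e]; exact c'.neg_neg, fun p pp h1 h2 => ?_⟩
    rw [ZZ, e, show -m * N + -n = -(m * N + n) by ring]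
    exact (key p pp h1 h2).neg_right
  · have e : (m.natAbs : ℤ) = m := by omega
    refine ⟨m.natAbs, n, by omega, by rw [Int.natCast_natAbs]; nlinarith,
      by nlinarith, by rw [e]; exact c', fun p pp h1 h2 => ?_⟩
    rw [ZZ, e]
    exact key p pp h1 h2

theorem hv2 {t θ : ℝ} (h0 : 0 < t) (h1 : t ≤ 1 / 100) (h2 : 0 < θ) (h3 : θ ≤ t / 4) (κ : ℕ) :
    ∀ᶠ y : ℕ in atTop, ∀ (N n : ℕ) (h : ℤ) (R : ℝ) (G : Finset ℕ), h ≠ 0 →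
    |(h : ℝ)| ≤ 2 * L1 y ^ (2 * κ) → n < 2 * y → 1 ≤ R → R ≤ y * L1 y ^ κ →
    (∀ ρ ∈ G, 1 ≤ ρ ∧ (ρ : ℝ) ≤ R ∧
      ∃ a ∈ tp t y, ∃ b ∈ bs t y, Good t θ y N a b ∧ a ∣ ρ ∧ b ∣ ρ) →
    ¬ InvC (h * (N + n)) R ((y : ℝ) ^ (θ / 2)) ((y : ℝ) ^ (θ / 2)) ((y : ℝ) ^ (θ / 2)) G := by
  filter_upwards [ev_L1 5 (2 * κ) (half_pos h2), L1_top.eventually_ge_atTop 1,
    eventually_gt_atTop 1] with y hy L0 y1 N n h R G hh hL hn R1 R2 hG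
  rintro ⟨V0, U0, C, v1, v2, u1, hC, c1, c2⟩
  have y1' : (1 : ℝ) < y := by exact_mod_cast y1
  have y0 : (0 : ℝ) < y := by linarith
  have R0 : 0 < R := by linarith
  have k1 : L1 y ^ κ ≤ L1 y ^ (2 * κ) := pow_le_pow_right₀ L0 (by omega)
  have k2 : 1 ≤ L1 y ^ (2 * κ) := one_le_pow₀ L0
  have t1 : (y : ℝ) ^ θ = (y : ℝ) ^ (θ / 2) * (y : ℝ) ^ (θ / 2) := by
    rw [← rpow_add y0, add_halves]
  have t2 : (y : ℝ) ^ (1 + θ) = y * (y : ℝ) ^ θ := by rw [rpow_add y0, rpow_one]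
  have t3 : (y : ℝ) ^ θ < (y : ℝ) ^ t := rpow_lt_rpow_of_exponent_lt y1' (by linarith)
  have t4 : (y : ℝ) ^ (-θ) = 1 / (y : ℝ) ^ θ := by rw [rpow_neg y0.le, one_div]
  have t5 : ∀ p : ℕ, p.Prime → t * L1 y ≤ log p → (y : ℝ) ^ θ < p := fun p pp hp => by
    refine t3.trans_le ?_
    rw [rpow_def_of_pos y0, ← exp_log (show (0 : ℝ) < p by exact_mod_cast pp.pos), mul_comm]
    exact exp_le_exp.2 hp
  set Y := (y : ℝ) ^ (θ / 2)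
  set M := L1 y ^ (2 * κ)
  have Y5 : 5 ≤ Y := by linarith
  choose! a ha b hb gd ab using fun ρ hρ => (hG ρ hρ).2.2
  have pa : ∀ ρ ∈ G, (a ρ).Prime ∧ (y : ℝ) ^ θ < a ρ := fun ρ hρ => by
    obtain ⟨p1, p2⟩ := mem_filter.1 (ha ρ hρ)
    have p3 := (mem_PL.1 p1).1
    exact ⟨p3, t5 _ p3 (by nlinarith)⟩
  have pb : ∀ ρ ∈ G, (b ρ).Prime ∧ (y : ℝ) ^ θ < b ρ := fun ρ hρ => by
    obtain ⟨p1, p2⟩ := mem_filter.1 (hb ρ hρ)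
    have p3 := (mem_PL.1 p1).1
    exact ⟨p3, t5 _ p3 p2⟩
  have A0 : (V0 : ℤ) * h ≠ 0 := mul_ne_zero (by exact_mod_cast (by omega : V0 ≠ 0)) hh
  obtain ⟨V, U, w1, w2, w3, w4, w5⟩ := hv2_red N (V0 * h * n - U0) A0
  have A1 : |(V0 : ℝ) * h| ≤ Y * (2 * M) := by
    rw [abs_mul, Nat.abs_cast]
    exact mul_le_mul v2 hL (abs_nonneg _) (by linarith)
  have A2 : |(V0 : ℝ) * h| ≤ (y : ℝ) ^ θ := by nlinarith
  have A3 : |(V0 : ℝ) * h * n - U0| ≤ (y : ℝ) ^ (1 + θ) := by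
    have n1 : (n : ℝ) ≤ 2 * y := by exact_mod_cast hn.le
    have b1 : |(V0 : ℝ) * h * n| ≤ Y * (2 * M) * (2 * y) := by
      rw [abs_mul, Nat.abs_cast]
      exact mul_le_mul A1 n1 (Nat.cast_nonneg _) (by positivity)
    have b2 : Y * R ≤ Y * (y * M) :=
      mul_le_mul_of_nonneg_left (R2.trans (mul_le_mul_of_nonneg_left k1 y0.le)) (by linarith)
    have b3 : Y * y * (5 * M) ≤ Y * y * Y := mul_le_mul_of_nonneg_left hy (by positivity)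
    refine (abs_sub _ _).trans ?_
    rw [t2, t1]
    linarith
  have dv : ∀ x ∈ C, ∀ p : ℕ, p.Prime → (y : ℝ) ^ θ < p → p ∣ x.1 → ¬ p ∣ x.2 →
      (p : ℤ) ∣ ZZ N V U := fun x hx p pp p1 p2 p3 => by
    refine w5 p pp ?_ ?_
    · have : |(V0 : ℝ) * h| < p := A2.trans_lt p1
      exact_mod_cast this
    · rw [show (V0 : ℤ) * h * N + (V0 * h * n - U0) = V0 * (h * (N + n)) - U0 by ring]
      exact c2 x hx p pp p2 p3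
  set W := G.filter fun ρ => (a ρ : ℤ) ∣ ZZ N V U ∧ (b ρ : ℤ) ∣ ZZ N V U with hW
  have hG' : ∀ ρ ∈ G, 1 ≤ ρ ∧ (ρ : ℝ) ≤ R := fun ρ hρ => ⟨(hG ρ hρ).1, (hG ρ hρ).2.1⟩
  have T0 : 0 < (y : ℝ) ^ θ := rpow_pos_of_pos y0 _
  have K1 := hv2_main (W := W) (w := 1 / (y : ℝ) ^ θ) R0.le (by positivity) hG' a b
    (fun ρ hρ => one_div_le_one_div_of_le T0 (pa ρ hρ).2.le)
    (fun ρ hρ => one_div_le_one_div_of_le T0 (pb ρ hρ).2.le) hC (fun x hx x1 x2 => by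
      have g1 := (mem_product.1 (hC hx)).1
      exact mem_filter.2 ⟨g1, dv x hx _ (pa _ g1).1 (pa _ g1).2 (ab _ g1).1 x1,
        dv x hx _ (pb _ g1).1 (pb _ g1).2 (ab _ g1).2 x2⟩)
  have K2 : (W.card : ℝ) ≤ R * (1 / (y : ℝ) ^ θ) := by
    by_cases hv : Heavy t θ y N V U
    · have : W = ∅ := filter_false_of_mem fun ρ hρ x => gd ρ hρ ⟨V, U, hv, x⟩
      rw [this, card_empty, Nat.cast_zero]
      positivity
    · refine (hv2_rows (D := (bs t y).filter fun p => (p : ℤ) ∣ ZZ N V U) R0.le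
        (fun ρ hρ => hG' ρ (mem_filter.1 hρ).1) fun ρ hρ => ?_).trans
        (mul_le_mul_of_nonneg_left ?_ R0.le)
      · obtain ⟨g1, -, g2⟩ := mem_filter.1 hρ
        exact ⟨b ρ, mem_filter.2 ⟨hb ρ g1, g2⟩, (ab ρ g1).2⟩
      · rw [← t4]
        refine le_of_not_ge fun x => hv ⟨w1, le_trans ?_ A2, le_trans ?_ A3, w4, x⟩
        · exact_mod_cast w2
        · exact_mod_cast w3
  have K3 := mul_le_mul_of_nonneg_right K2 R0.le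
  have K4 : R ^ 2 / Y ≤ 3 * R ^ 2 / (Y * Y) := by
    rw [← t1]
    calc _ ≤ _ := c1.trans K1
      _ ≤ R * (1 / (y : ℝ) ^ θ) * R + 2 * R ^ 2 * (1 / (y : ℝ) ^ θ) := by linarith
      _ = _ := by ring
  rw [div_le_div_iff₀ (by linarith) (by positivity)] at K4
  have K5 : 0 < R ^ 2 * Y := by positivity
  nlinarith

end Vale.Agent.P013
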