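import Vale.Agent.P013.Bas

namespace Vale.Agent.P013

open Finset Real Filter

open Classical

theorem I1_one {J : ℕ} (hJ0 : 0 < J) (g : ℕ → ℝ) (m : ℕ) : ∀ Q : Finset ℕ, Q.card = J + m →
    ∃ U ⊆ Q, U.card = J ∧ (∑ x ∈ Q, g x) / (Q.card : ℝ) ≤ (∑ x ∈ U, g x) / J := by
  induction m with
  | zero => intro Q h; exact ⟨Q, Subset.refl _, h, by rw [h, add_zero]⟩
  | succ m ih =>
    intro Q h
    obtain ⟨x, hx, hmin⟩ := exists_min_image Q g (card_pos.1 (by omega))
    have hc : (Q.erase x).card = J + m := by rw [card_erase_of_mem hx]; omega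
    obtain ⟨U, hU, h1, h2⟩ := ih _ hc
    refine ⟨U, hU.trans (erase_subset _ _), h1, le_trans ?_ h2⟩
    have h3 : ((Q.erase x).card : ℝ) * g x ≤ ∑ z ∈ Q.erase x, g z := by
      simpa using card_nsmul_le_sum (Q.erase x) g (g x) fun z hz => hmin z (mem_of_mem_erase hz)
    have h4 : (0 : ℝ) < (Q.erase x).card := by rw [hc]; positivity
    have h5 : (Q.card : ℝ) = (Q.erase x).card + 1 := by rw [h, hc]; push_cast; ring
    rw [h5, ← add_sum_erase Q g hx, div_le_div_iff₀ (by positivity) h4]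
    nlinarith

theorem I1_pi {e : ℕ} (S : Fin e → Finset ℕ) (c : Fin e) {U : Finset ℕ} (hU : U ⊆ S c) :
    (Fintype.piFinset S).filter (fun a => a c ∈ U) = Fintype.piFinset (Function.update S c U) := by
  ext a
  simp only [mem_filter, Fintype.mem_piFinset]
  constructor
  · rintro ⟨ha, hb⟩ i
    by_cases h : i = c
    · subst h; rwa [Function.update_self]
    · rw [Function.update_of_ne h]; exact ha i
  · intro ha
    have hb := ha c
    rw [Function.update_self] at hb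
    refine ⟨fun i => ?_, hb⟩
    by_cases h : i = c
    · subst h; exact hU hb
    · have := ha i
      rwa [Function.update_of_ne h] at this

theorem I1_step {e J : ℕ} (S : Fin e → Finset ℕ) (F : (Fin e → ℕ) → ℝ) (c : Fin e) {U : Finset ℕ}
    (hU : U ⊆ S c) (u1 : U.card = J)
    (u2 : (∑ x ∈ S c, ∑ a ∈ Fintype.piFinset S with a c = x, F a) / ((S c).card : ℝ) ≤
      (∑ x ∈ U, ∑ a ∈ Fintype.piFinset S with a c = x, F a) / J) :
    (∑ a ∈ Fintype.piFinset S, F a) / ∏ i, ((S i).card : ℝ) ≤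
      (∑ a ∈ Fintype.piFinset (Function.update S c U), F a) /
        ∏ i, ((Function.update S c U i).card : ℝ) := by
  rw [sum_fiberwise_eq_sum_filter, sum_fiberwise_eq_sum_filter, I1_pi S c hU,
    I1_pi S c (Subset.refl _), Function.update_eq_self] at u2
  have p1 : ∏ i, ((S i).card : ℝ) = (S c).card * ∏ i ∈ univ.erase c, ((S i).card : ℝ) :=
    (mul_prod_erase univ (fun i => ((S i).card : ℝ)) (mem_univ c)).symm
  have p2 : ∏ i, ((Function.update S c U i).card : ℝ) =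
      J * ∏ i ∈ univ.erase c, ((S i).card : ℝ) := by
    rw [← mul_prod_erase univ _ (mem_univ c), Function.update_self, u1]
    congr 1
    exact prod_congr rfl fun i hi => by rw [Function.update_of_ne (ne_of_mem_erase hi)]
  rw [p1, p2, ← div_div, ← div_div]
  exact div_le_div_of_nonneg_right u2 (prod_nonneg fun _ _ => Nat.cast_nonneg _)

theorem topj {e : ℕ} (Q : Fin e → Finset ℕ) {J : ℕ} (hJ0 : 0 < J) (hJ : ∀ i, J ≤ (Q i).card)
    (F : (Fin e → ℕ) → ℝ) : ∃ S : Fin e → Finset ℕ, (∀ i, S i ⊆ Q i ∧ (S i).card = J) ∧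
    (∑ a ∈ Fintype.piFinset Q, F a) / ∏ i, ((Q i).card : ℝ) ≤
      (∑ a ∈ Fintype.piFinset S, F a) / (J : ℝ) ^ e := by

  have key : ∀ T : Finset (Fin e), ∃ S : Fin e → Finset ℕ, (∀ i ∈ T, S i ⊆ Q i ∧ (S i).card = J) ∧
      (∀ i, i ∉ T → S i = Q i) ∧ (∑ a ∈ Fintype.piFinset Q, F a) / ∏ i, ((Q i).card : ℝ) ≤
        (∑ a ∈ Fintype.piFinset S, F a) / ∏ i, ((S i).card : ℝ) := by
    intro T
    induction T using Finset.induction_on with
    | empty => exact ⟨Q, by simp, fun _ _ => rfl, le_rfl⟩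
    | insert c T hc ih =>
      obtain ⟨S, h1, h2, h3⟩ := ih
      have hS : S c = Q c := h2 c hc
      obtain ⟨m, hm⟩ := Nat.exists_eq_add_of_le (hJ c)
      obtain ⟨U, hU, u1, u2⟩ := I1_one hJ0
        (fun x => ∑ a ∈ Fintype.piFinset S with a c = x, F a) m (Q c) hm
      refine ⟨Function.update S c U, fun i hi => ?_, fun i hi => ?_, h3.trans ?_⟩
      · by_cases h : i = c
        · subst h; rw [Function.update_self]; exact ⟨hU, u1⟩
        · rw [Function.update_of_ne h]; exact h1 i ((mem_insert.1 hi).resolve_left h)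
      · have h : i ≠ c := fun h => hi (h ▸ mem_insert_self _ _)
        rw [Function.update_of_ne h]; exact h2 i fun h => hi (mem_insert_of_mem h)
      rw [← hS] at hU u2
      exact I1_step S F c hU u1 u2
  obtain ⟨S, h1, -, h3⟩ := key univ
  refine ⟨S, fun i => h1 i (mem_univ i), h3.trans (le_of_eq ?_)⟩
  rw [prod_congr rfl fun i _ => by rw [(h1 i (mem_univ i)).2]]
  simp

theorem topj' {e : ℕ} (Q : Fin e → Finset ℕ) {J : ℕ} (hJ0 : 0 < J) (hJ : ∀ i, J ≤ (Q i).card)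
    {ι : Type} (I : Finset ι) (f : ι → (Fin e → ℕ) → ℂ) :
    ∃ S : Fin e → Finset ℕ, (∀ i, S i ⊆ Q i ∧ (S i).card = J) ∧
    (∑ x ∈ I, ‖∑ a ∈ Fintype.piFinset Q, f x a‖) / ∏ i, ((Q i).card : ℝ) ≤
      (∑ x ∈ I, ‖∑ a ∈ Fintype.piFinset S, f x a‖) / (J : ℝ) ^ e := by

  have hc : ∀ z : ℂ, ∃ c : ℂ, ‖c‖ ≤ 1 ∧ (c * z).re = ‖z‖ := by
    intro z
    obtain ⟨c, h1, h2⟩ := Complex.exists_norm_eq_mul_self z
    exact ⟨c, h1.le, by rw [← h2, Complex.ofReal_re]⟩
  choose c hc1 hc2 using hc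
  obtain ⟨S, h1, h2⟩ := topj Q hJ0 hJ
    fun a => ∑ x ∈ I, (c (∑ b ∈ Fintype.piFinset Q, f x b) * f x a).re
  refine ⟨S, h1, le_trans (le_of_eq ?_) (h2.trans ?_)⟩
  · congr 1
    rw [sum_comm]
    refine sum_congr rfl fun x _ => ?_
    rw [← Complex.re_sum, ← mul_sum, hc2]
  · refine div_le_div_of_nonneg_right ?_ (by positivity)
    rw [sum_comm]
    refine sum_le_sum fun x _ => ?_
    rw [← Complex.re_sum, ← mul_sum]
    refine (Complex.re_le_norm _).trans ?_
    rw [norm_mul]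
    exact mul_le_of_le_one_left (norm_nonneg _) (hc1 _)

end Vale.Agent.P013
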