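import Vale.Agent.P013.Bas

namespace Vale.Agent.P013

open Finset Real Filter

open Classical

theorem i2_step {ι : Type} (A : Finset ι) (m t : ι → ℕ) (ε : ι → ℤ) {q : ℕ} (hq : q.Prime)
    (hε : ∀ i, |ε i| ≤ 1) (hm : ∀ i ∈ A, 0 < m i) (ht : ∀ i ∈ A, t i ≠ q → ¬ q ∣ t i)
    (hlt : A.card * ∏ i ∈ A, m i < q) (h0 : ∑ i ∈ A, (ε i : ℚ) / (m i * t i) = 0) :
    ∑ i ∈ A.filter (fun i => t i = q), (ε i : ℚ) / m i = 0 := by
  haveI := Fact.mk hq
  have hD : 0 < ∏ i ∈ A, m i := prod_pos hm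
  have hnd : ∀ i ∈ A, ¬ q ∣ m i := fun i hi h => by
    have h1 := Nat.le_of_dvd (hm i hi) h
    have h2 := Nat.le_of_dvd hD (dvd_prod_of_mem m hi)
    have h3 : 0 < A.card := card_pos.2 ⟨i, hi⟩
    nlinarith
  set N : ℤ := ∑ i ∈ A.filter (fun i => t i = q), ε i * ((∏ j ∈ A.erase i, m j : ℕ) : ℤ) with hN
  set R : ℚ := ∑ i ∈ A.filter (fun i => ¬ t i = q), (ε i : ℚ) / (m i * t i) with hR
  have hq0 : (q : ℚ) ≠ 0 := by exact_mod_cast hq.ne_zero
  have e1 : (N : ℚ) = (∑ i ∈ A.filter (fun i => t i = q), (ε i : ℚ) / m i) *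
      ((∏ i ∈ A, m i : ℕ) : ℚ) := by
    rw [hN, sum_mul, Int.cast_sum]
    refine sum_congr rfl fun i hi => ?_
    have hi' := (mem_filter.1 hi).1
    have : (m i : ℚ) ≠ 0 := by exact_mod_cast (hm i hi').ne'
    rw [← mul_prod_erase A m hi']
    push_cast
    field_simp
  have e2 : ∑ i ∈ A.filter (fun i => t i = q), (ε i : ℚ) / m i = -(q * R) := by
    rw [← sum_filter_add_sum_filter_not A (fun i => t i = q), ← hR] at h0
    have : ∑ i ∈ A.filter (fun i => t i = q), (ε i : ℚ) / m i =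
        q * ∑ i ∈ A.filter (fun i => t i = q), (ε i : ℚ) / (m i * t i) := by
      rw [mul_sum]
      refine sum_congr rfl fun i hi => ?_
      rw [(mem_filter.1 hi).2]
      field_simp
    rw [this, eq_neg_of_add_eq_zero_left h0, mul_neg]
  have e3 : padicNorm q R ≤ 1 := by
    refine padicNorm.sum_le' (fun i hi => ?_) zero_le_one
    obtain ⟨h1, h2⟩ := mem_filter.1 hi
    rw [padicNorm.div, padicNorm.mul, (padicNorm.nat_eq_one_iff _).2 (hnd i h1),
      (padicNorm.nat_eq_one_iff _).2 (ht i h1 h2), mul_one, div_one]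
    exact padicNorm.of_int _
  have e4 : (q : ℤ) ∣ N := by
    rw [← padicNorm.int_lt_one_iff, e1, e2, padicNorm.mul, padicNorm.neg, padicNorm.mul]
    have a1 : padicNorm q (q : ℚ) < 1 := padicNorm.padicNorm_p_lt_one_of_prime
    have a2 := padicNorm.of_nat (p := q) (∏ i ∈ A, m i)
    have a3 := padicNorm.nonneg (p := q) (q : ℚ)
    have a4 := padicNorm.nonneg (p := q) R
    have a5 := padicNorm.nonneg (p := q) ((∏ i ∈ A, m i : ℕ) : ℚ)
    calc _ ≤ padicNorm q (q : ℚ) * 1 * 1 := by gcongr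
      _ < 1 := by linarith
  have e5 : |N| < q := by
    refine (abs_sum_le_sum_abs _ _).trans_lt ?_
    have : ∑ i ∈ A.filter (fun i => t i = q), |ε i * ((∏ j ∈ A.erase i, m j : ℕ) : ℤ)| ≤
        (A.filter (fun i => t i = q)).card • ((∏ i ∈ A, m i : ℕ) : ℤ) := by
      refine sum_le_card_nsmul _ _ _ fun i hi => ?_
      have hi' := (mem_filter.1 hi).1
      have b1 : ∏ j ∈ A.erase i, m j ≤ ∏ i ∈ A, m i :=
        Nat.le_of_dvd hD (prod_dvd_prod_of_subset _ _ _ (erase_subset _ _))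
      rw [abs_mul, Nat.abs_cast]
      calc _ ≤ 1 * ((∏ i ∈ A, m i : ℕ) : ℤ) := by
            gcongr
            exact hε i
        _ = _ := one_mul _
    refine this.trans_lt ?_
    rw [nsmul_eq_mul]
    have b2 : (A.filter (fun i => t i = q)).card ≤ A.card := card_filter_le _ _
    exact_mod_cast (Nat.mul_le_mul_right _ b2).trans_lt hlt
  have e6 := Int.eq_zero_of_abs_lt_dvd e4 e5
  rw [e6, Int.cast_zero] at e1
  exact (mul_eq_zero.1 e1.symm).resolve_right (by exact_mod_cast hD.ne')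

theorem i2_all {e n : ℕ} (S : Fin e → Finset ℕ) (l h : Fin e → ℝ)
    (hS : ∀ i, ∀ q ∈ S i, q.Prime ∧ l i ≤ log q ∧ log q ≤ h i)
    (hsep : ∀ i, log (2 * n) + 2 * n * ∑ j ∈ Iio i, h j < l i)
    {ι : Type} [Fintype ι] (hι : Fintype.card ι = 2 * n) (x : ι → Fin e → ℕ)
    (hx : ∀ i j, x i j ∈ S j) (ε : ι → ℤ) (hε : ∀ i, |ε i| ≤ 1)
    (h0 : ∑ i, (ε i : ℚ) / ((∏ j, x i j : ℕ) : ℚ) = 0) (d : ℕ) :
    ∀ k, k + d = e → ∀ z : Fin e → ℕ,
      ∑ i ∈ univ.filter (fun i => ∀ j : Fin e, k ≤ j.val → x i j = z j),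
        (ε i : ℚ) / ((∏ j ∈ univ.filter (fun j : Fin e => j.val < k), x i j : ℕ) : ℚ) = 0 := by
  induction d with
  | zero =>
    intro k hk z
    rw [add_zero] at hk
    subst hk
    rw [filter_true_of_mem fun i _ j hj => absurd j.2 (not_lt.2 hj),
      filter_true_of_mem fun (j : Fin k) _ => j.2]
    exact h0
  | succ d ih =>
    intro k hk z
    have hke : k < e := by omega
    set κ : Fin e := ⟨k, hke⟩ with hκ
    have h1 := ih (k + 1) (by omega) z
    set A := univ.filter (fun i => ∀ j : Fin e, k + 1 ≤ j.val → x i j = z j) with hA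
    have e1 : univ.filter (fun i => ∀ j : Fin e, k ≤ j.val → x i j = z j) =
        A.filter fun i => x i κ = z κ := by
      ext i
      simp only [hA, mem_filter, mem_univ, true_and]
      refine ⟨fun h => ⟨fun j hj => h j (by omega), h κ le_rfl⟩, fun h j hj => ?_⟩
      rcases hj.eq_or_lt with hj | hj
      · rw [show j = κ from Fin.ext hj.symm]
        exact h.2
      · exact h.1 j hj
    have e2 : univ.filter (fun j : Fin e => j.val < k) = Iio κ := by
      ext j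
      simp [hκ, Fin.lt_def]
    have e3 : univ.filter (fun j : Fin e => j.val < k + 1) = insert κ (Iio κ) := by
      ext j
      simp only [mem_filter, mem_univ, true_and, mem_insert, mem_Iio, hκ, Fin.lt_def, Fin.ext_iff]
      omega
    rw [e1, e2]
    rcases (A.filter fun i => x i κ = z κ).eq_empty_or_nonempty with h2 | ⟨i0, hi0⟩
    · rw [h2, sum_empty]
    have hz : z κ ∈ S κ := (mem_filter.1 hi0).2 ▸ hx i0 κ
    obtain ⟨hq, hq1, -⟩ := hS κ _ hz
    have hn : 0 < 2 * n := hι ▸ Fintype.card_pos_iff.2 ⟨i0⟩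
    refine i2_step A (fun i => ∏ j ∈ Iio κ, x i j) (fun i => x i κ) ε hq hε
      (fun i _ => prod_pos fun j _ => (hS j _ (hx i j)).1.pos)
      (fun i _ hi hd => hi ((Nat.prime_dvd_prime_iff_eq hq (hS κ _ (hx i κ)).1).1 hd).symm) ?_ ?_
    · have hH : 0 ≤ ∑ j ∈ Iio κ, h j :=
        sum_nonneg fun j _ => (log_natCast_nonneg _).trans (hS j _ (hx i0 j)).2.2
      have hc : A.card ≤ 2 * n := hι ▸ card_le_univ A
      have b1 : ∀ i ∈ A, ((∏ j ∈ Iio κ, x i j : ℕ) : ℝ) ≤ exp (∑ j ∈ Iio κ, h j) := by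
        intro i _
        rw [exp_sum, Nat.cast_prod]
        refine prod_le_prod (fun j _ => Nat.cast_nonneg _) fun j _ => ?_
        obtain ⟨c1, -, c2⟩ := hS j _ (hx i j)
        exact (log_le_iff_le_exp (by exact_mod_cast c1.pos)).1 c2
      have b2 : ((∏ i ∈ A, ∏ j ∈ Iio κ, x i j : ℕ) : ℝ) ≤ exp (2 * n * ∑ j ∈ Iio κ, h j) := by
        rw [Nat.cast_prod]
        refine (prod_le_prod (fun i _ => Nat.cast_nonneg _) b1).trans ?_
        rw [prod_const, ← exp_nat_mul, exp_le_exp]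
        refine mul_le_mul_of_nonneg_right ?_ hH
        exact_mod_cast hc
      have b3 : (0 : ℝ) < 2 * n := by exact_mod_cast hn
      have b4 : 2 * n * exp (2 * n * ∑ j ∈ Iio κ, h j) < z κ := by
        rw [← exp_log b3, exp_log b3, ← exp_log (show (0 : ℝ) < z κ by exact_mod_cast hq.pos)]
        calc _ = exp (log (2 * n) + 2 * n * ∑ j ∈ Iio κ, h j) := by rw [exp_add, exp_log b3]
          _ < _ := exp_lt_exp.2 ((hsep κ).trans_le hq1)
      have b5 : (A.card : ℝ) ≤ 2 * n := by exact_mod_cast hc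
      have b6 : (A.card : ℝ) * ((∏ i ∈ A, ∏ j ∈ Iio κ, x i j : ℕ) : ℝ) < z κ :=
        (mul_le_mul b5 b2 (Nat.cast_nonneg _) b3.le).trans_lt b4
      exact_mod_cast b6
    · rw [← h1, e3]
      refine sum_congr rfl fun i _ => ?_
      rw [prod_insert notMem_Iio_self, Nat.cast_mul, mul_comm]

theorem norel {e n : ℕ} (S : Fin e → Finset ℕ) (l h : Fin e → ℝ)
    (hS : ∀ i, ∀ q ∈ S i, q.Prime ∧ l i ≤ log q ∧ log q ≤ h i)
    (hsep : ∀ i, log (2 * n) + 2 * n * ∑ j ∈ Iio i, h j < l i)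
    {a a' : Fin n → Fin e → ℕ} (ha : a ∈ Gr n S) (ha' : a' ∈ Gr n S) (h0 : rsum a = rsum a') :
    Multiset.map a univ.val = Multiset.map a' univ.val := by
  simp only [Gr, Fintype.mem_piFinset] at ha ha'
  have key := i2_all S l h hS hsep (ι := Fin n ⊕ Fin n) (by simp [two_mul]) (Sum.elim a a')
    (by rintro (i | i) j; exacts [ha i j, ha' i j]) (Sum.elim (fun _ => 1) fun _ => -1)
    (by rintro (i | i) <;> simp)
    (by
      rw [Fintype.sum_sum_type]
      simp only [Sum.elim_inl, Sum.elim_inr, Int.cast_one, Int.cast_neg, neg_div, Nat.cast_prod,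
        sum_neg_distrib]
      exact add_neg_eq_zero.2 h0) e 0 (zero_add e)
  ext z
  have h1 := key z
  have h2 : ∀ w : Fin e → ℕ, (∀ j : Fin e, 0 ≤ j.val → w j = z j) ↔ w = z := fun w =>
    ⟨fun h => funext fun j => h j (Nat.zero_le _), fun h j _ => congrFun h j⟩
  simp only [h2] at h1
  rw [sum_filter, Fintype.sum_sum_type] at h1
  simp only [Sum.elim_inl, Sum.elim_inr, Nat.not_lt_zero,
    filter_false, prod_empty, Nat.cast_one, div_one, Int.cast_one, Int.cast_neg] at h1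
  rw [← sum_filter, ← sum_filter, sum_const, sum_const, nsmul_eq_mul, nsmul_eq_mul, mul_one,
    mul_neg, mul_one, add_neg_eq_zero, Nat.cast_inj] at h1
  rw [Multiset.count_map, Multiset.count_map]
  simp only [eq_comm (a := z)]
  exact h1

end Vale.Agent.P013
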