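import Vale.Agent.P013.I2

namespace Vale.Agent.P013

open Finset Real Filter

open Classical

theorem tt_eq {e n : ℕ} {S : Fin e → Finset ℕ} (hS : ∀ i, ∀ q ∈ S i, q ≠ 0)
    {a : Fin n → Fin e → ℕ} (ha : a ∈ Gr n S) : (tt S a : ℚ) = YY S * rsum a := by

  unfold tt rsum
  push_cast
  rw [mul_sum]
  refine sum_congr rfl fun l _ => ?_
  have hl := Fintype.mem_piFinset.1 (Fintype.mem_piFinset.1 ha l)
  have hd : ∏ i, a l i ∣ YY S :=
    prod_dvd_prod_of_dvd _ _ fun i _ => dvd_prod_of_mem (fun p => p) (hl i)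
  have h0 : ((∏ i, a l i : ℕ) : ℚ) ≠ 0 := by
    exact_mod_cast prod_ne_zero_iff.2 fun i _ => hS i _ (hl i)
  rw [Nat.cast_div hd h0, mul_one_div]
  push_cast
  rfl

theorem tt_le {e n : ℕ} (S : Fin e → Finset ℕ) (a : Fin n → Fin e → ℕ) :
    tt S a ≤ n * YY S := by

  simpa [tt] using sum_le_card_nsmul univ (fun l => YY S / ∏ i, a l i) (YY S)
    fun l _ => Nat.div_le_self _ _

theorem I2b_perm {α : Type} {n : ℕ} {a a' : Fin n → α}
    (h : Multiset.map a univ.val = Multiset.map a' univ.val) :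
    ∃ σ : Equiv.Perm (Fin n), a' = a ∘ σ := by
  have hc : ∀ x, Fintype.card {i // a' i = x} = Fintype.card {i // a i = x} := by
    intro x
    have := congrArg (Multiset.count x) h
    rw [Multiset.count_map, Multiset.count_map] at this
    rw [Fintype.card_subtype, Fintype.card_subtype]
    simp only [eq_comm (b := x)]
    exact this.symm
  refine ⟨Equiv.ofFiberEquiv fun x => Fintype.equivOfCardEq (hc x), funext fun i => ?_⟩
  exact (Equiv.ofFiberEquiv_map _ i).symm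

theorem diag {e n : ℕ} (S : Fin e → Finset ℕ) (l h : Fin e → ℝ)
    (hS : ∀ i, ∀ q ∈ S i, q.Prime ∧ l i ≤ log q ∧ log q ≤ h i)
    (hsep : ∀ i, log (2 * n) + 2 * n * ∑ j ∈ Iio i, h j < l i) :
    col (Gr n S) (tt S) ≤ n.factorial * (Gr n S).card := by

  have h0 : ∀ i, ∀ q ∈ S i, q ≠ 0 := fun i q hq => (hS i q hq).1.ne_zero
  have hY : (YY S : ℚ) ≠ 0 := by
    exact_mod_cast prod_ne_zero_iff.2 fun i _ => (pr_pos (h0 i)).ne'
  have hsub : ((Gr n S ×ˢ Gr n S).filter fun x => tt S x.1 = tt S x.2) ⊆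
      ((univ : Finset (Equiv.Perm (Fin n))) ×ˢ Gr n S).image fun z => (z.2, z.2 ∘ z.1) := by
    intro x hx
    obtain ⟨hx1, hx2⟩ := mem_filter.1 hx
    obtain ⟨ha, hb⟩ := mem_product.1 hx1
    have h1 : rsum x.1 = rsum x.2 := by
      refine mul_left_cancel₀ hY ?_
      rw [← tt_eq h0 ha, ← tt_eq h0 hb, hx2]
    obtain ⟨σ, hσ⟩ := I2b_perm (norel S l h hS hsep ha hb h1)
    exact mem_image.2 ⟨(σ, x.1), mem_product.2 ⟨mem_univ _, ha⟩, Prod.ext rfl hσ.symm⟩
  refine (card_le_card hsub).trans (card_image_le.trans (le_of_eq ?_))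
  rw [card_product, card_univ, Fintype.card_perm, Fintype.card_fin]

end Vale.Agent.P013
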