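import Vale.Agent.P013.I2b

namespace Vale.Agent.P013

open Finset Real Filter

open Classical

theorem i3_div {J : ℕ} {q : Fin J → ℕ} (j : Fin J) (hq : q j ≠ 0) :
    (∏ j', q j') / q j = ∏ j' ∈ univ.erase j, q j' := by
  rw [← Finset.mul_prod_erase univ q (mem_univ j)]
  exact Nat.mul_div_cancel_left _ (Nat.pos_of_ne_zero hq)

theorem i3_mod1 {e n J : ℕ} (S : Fin e → Finset ℕ) {q : Fin J → ℕ} (hq : ∀ j, (q j).Prime)
    (ω : Fin J → Fin n → Fin e → ℕ) (j : Fin J) :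
    TT S q ω ≡ tt S (ω j) * ∏ j' ∈ univ.erase j, q j' [MOD q j] := by
  unfold TT
  rw [← Finset.add_sum_erase univ _ (mem_univ j), i3_div j (hq j).ne_zero]
  have h : q j ∣ ∑ x ∈ univ.erase j, tt S (ω x) * ((∏ j', q j') / q x) := by
    refine Finset.dvd_sum fun x hx => ?_
    rw [i3_div x (hq x).ne_zero]
    refine Dvd.dvd.mul_left ?_ _
    exact Finset.dvd_prod_of_mem q (mem_erase.2 ⟨(ne_of_mem_erase hx).symm, mem_univ _⟩)
  have h2 := (Nat.modEq_zero_iff_dvd.2 h)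
  simpa using Nat.ModEq.add_left (tt S (ω j) * ∏ j' ∈ univ.erase j, q j') h2

theorem i3_mod {e n J : ℕ} (S : Fin e → Finset ℕ) {q : Fin J → ℕ} (hq : ∀ j, (q j).Prime)
    (hi : Function.Injective q) {ω ω' : Fin J → Fin n → Fin e → ℕ}
    (h : TT S q ω = TT S q ω') (j : Fin J) : tt S (ω j) ≡ tt S (ω' j) [MOD q j] := by
  have h1 := i3_mod1 S hq ω j
  have h2 := i3_mod1 S hq ω' j
  rw [h] at h1
  have h3 := h1.symm.trans h2
  refine Nat.ModEq.cancel_right_of_coprime ?_ h3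
  refine Nat.Coprime.prod_right fun x hx => ?_
  exact (Nat.coprime_primes (hq j) (hq x)).2 fun hh => (ne_of_mem_erase hx) (hi hh).symm

/-- pairs congruent modulo `p` -/
noncomputable def i3F {e : ℕ} (n : ℕ) (S : Fin e → Finset ℕ) (p : ℕ) :
    Finset ((Fin n → Fin e → ℕ) × (Fin n → Fin e → ℕ)) :=
  (Gr n S ×ˢ Gr n S).filter fun x => tt S x.1 ≡ tt S x.2 [MOD p]

theorem i3_col {e n J : ℕ} (S : Fin e → Finset ℕ) {q : Fin J → ℕ} (hq : ∀ j, (q j).Prime)
    (hi : Function.Injective q) :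
    col (Om J n S) (TT S q) ≤ ∏ j, (i3F n S (q j)).card := by
  rw [← Fintype.card_piFinset]
  unfold col
  refine Finset.card_le_card_of_injOn (fun x j => (x.1 j, x.2 j)) ?_ ?_
  · intro x hx
    simp only [coe_filter, mem_product, Set.mem_ofPred_eq] at hx
    obtain ⟨⟨h1, h2⟩, h3⟩ := hx
    simp only [mem_coe, Fintype.mem_piFinset]
    intro j
    refine mem_filter.2 ⟨mem_product.2 ⟨?_, ?_⟩, i3_mod S hq hi h3 j⟩
    · exact Fintype.mem_piFinset.1 h1 j
    · exact Fintype.mem_piFinset.1 h2 j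
  · intro x _ y _ h
    refine Prod.ext ?_ ?_
    · funext j; exact congrArg Prod.fst (congrFun h j)
    · funext j; exact congrArg Prod.snd (congrFun h j)

theorem i3_sum {e n : ℕ} (S : Fin e → Finset ℕ) (Q : Finset ℕ) {w : ℝ} (hw0 : 0 ≤ w)
    (hw : ∀ m : ℕ, 0 < m → m ≤ n * YY S → ((Q.filter fun q => q ∣ m).card : ℝ) ≤ w) :
    ∑ p ∈ Q, ((i3F n S p).card : ℝ) ≤
      (col (Gr n S) (tt S) : ℝ) * Q.card + w * ((Gr n S).card : ℝ) ^ 2 := by
  have h1 : ∑ p ∈ Q, ((i3F n S p).card : ℝ) = ∑ x ∈ Gr n S ×ˢ Gr n S,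
      ((Q.filter fun p => tt S x.1 ≡ tt S x.2 [MOD p]).card : ℝ) := by
    simp only [i3F, card_filter, Nat.cast_sum]
    rw [Finset.sum_comm]
  have h2 : ∀ x ∈ Gr n S ×ˢ Gr n S,
      ((Q.filter fun p => tt S x.1 ≡ tt S x.2 [MOD p]).card : ℝ) ≤
        (if tt S x.1 = tt S x.2 then (Q.card : ℝ) else 0) + w := by
    intro x _
    split_ifs with h
    · have : ((Q.filter fun p => tt S x.1 ≡ tt S x.2 [MOD p]).card : ℝ) ≤ Q.card := by
        exact_mod_cast card_filter_le _ _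
      linarith
    · rw [zero_add]
      have a1 := tt_le S x.1
      have a2 := tt_le S x.2
      rcases lt_or_gt_of_ne h with h' | h'
      · refine le_trans ?_ (hw (tt S x.2 - tt S x.1) (by omega) (by omega))
        refine Nat.cast_le.2 (card_le_card fun p hp => ?_)
        rw [mem_filter] at hp ⊢
        exact ⟨hp.1, (Nat.modEq_iff_dvd' h'.le).1 hp.2⟩
      · refine le_trans ?_ (hw (tt S x.1 - tt S x.2) (by omega) (by omega))
        refine Nat.cast_le.2 (card_le_card fun p hp => ?_)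
        rw [mem_filter] at hp ⊢
        exact ⟨hp.1, (Nat.modEq_iff_dvd' h'.le).1 hp.2.symm⟩
  rw [h1]
  refine (Finset.sum_le_sum h2).trans (le_of_eq ?_)
  rw [Finset.sum_add_distrib, ← Finset.sum_filter, Finset.sum_const, Finset.sum_const,
    card_product]
  simp only [nsmul_eq_mul, col, Nat.cast_mul]
  ring

theorem coll {e n J : ℕ} (S : Fin e → Finset ℕ) (Q : Finset ℕ) (hQ : ∀ q ∈ Q, q.Prime) {w : ℝ}
    (hw0 : 0 ≤ w)
    (hw : ∀ m : ℕ, 0 < m → m ≤ n * YY S → ((Q.filter fun q => q ∣ m).card : ℝ) ≤ w) :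
    ∑ q ∈ Inj J Q, (col (Om J n S) (TT S q) : ℝ) ≤
      ((col (Gr n S) (tt S) : ℝ) * Q.card + w * ((Gr n S).card : ℝ) ^ 2) ^ J := by
  have h1 : ∑ q ∈ Inj J Q, (col (Om J n S) (TT S q) : ℝ) ≤
      ∑ q ∈ Inj J Q, ∏ j, ((i3F n S (q j)).card : ℝ) := by
    refine Finset.sum_le_sum fun q hq => ?_
    obtain ⟨h1, h2⟩ := mem_filter.1 hq
    have := i3_col (n := n) S (fun j => hQ _ (Fintype.mem_piFinset.1 h1 j)) h2
    exact_mod_cast this
  have h2 : ∑ q ∈ Inj J Q, ∏ j, ((i3F n S (q j)).card : ℝ) ≤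
      ∑ q ∈ Fintype.piFinset (fun _ : Fin J => Q), ∏ j, ((i3F n S (q j)).card : ℝ) :=
    Finset.sum_le_sum_of_subset_of_nonneg (filter_subset _ _)
      fun q _ _ => Finset.prod_nonneg fun j _ => Nat.cast_nonneg _
  have h3 : ∑ q ∈ Fintype.piFinset (fun _ : Fin J => Q), ∏ j, ((i3F n S (q j)).card : ℝ)
      = (∑ p ∈ Q, ((i3F n S p).card : ℝ)) ^ J := by
    rw [← Finset.prod_univ_sum (fun _ : Fin J => Q) (fun _ p => ((i3F n S p).card : ℝ))]
    simp
  refine h1.trans (h2.trans (h3.le.trans ?_))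
  exact pow_le_pow_left₀ (Finset.sum_nonneg fun p _ => Nat.cast_nonneg _) (i3_sum S Q hw0 hw) J

end Vale.Agent.P013
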