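import Vale.Agent.P013.Bas

namespace Vale.Agent.P013

open Finset Real Filter

open Classical

theorem ee_pow_I4 (x : ℝ) (T : ℕ) : ee (T * x) = ee x ^ T := by
  unfold ee
  rw [← Complex.exp_nat_mul]
  congr 1
  push_cast
  ring

theorem ee_conj_I4 (x : ℝ) : (starRingEnd ℂ) (ee x) = ee (-x) := by
  unfold ee
  rw [← Complex.exp_conj]
  congr 1
  simp [map_ofNat]

theorem geo (W : ℕ) {x Δ : ℝ} (hΔ : 0 < Δ) (h : ¬ ∃ v : ℤ, |x - v| ≤ Δ) :
    ‖∑ T ∈ range W, ee (T * x)‖ ≤ 1 / (2 * Δ) := by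
  have h1 : Δ < |x - round x| := by
    by_contra h1
    exact h ⟨round x, not_lt.1 h1⟩
  have h2 := abs_sub_round x
  set y := x - round x with hy
  have h3 : ee x = ee y := by
    have : x = y + ((round x : ℤ) : ℝ) := by rw [hy]; ring
    conv_lhs => rw [this]
    rw [ee_add, ee_int, mul_one]
  have h4 : 4 * Δ ≤ ‖ee y - 1‖ := by
    have e : ee y = Complex.exp (Complex.I * ((2 * π * y : ℝ) : ℂ)) := by
      unfold ee
      congr 1
      push_cast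
      ring
    rw [e, Complex.norm_exp_I_mul_ofReal_sub_one]
    have e2 : 2 * π * y / 2 = π * y := by ring
    have h5 : |π * y| ≤ π / 2 := by
      rw [abs_mul, abs_of_pos pi_pos]
      nlinarith [pi_pos]
    have h6 := Real.mul_abs_le_abs_sin h5
    rw [abs_mul, abs_of_pos pi_pos] at h6
    have e3 : 2 / π * (π * |y|) = 2 * |y| := by field_simp
    rw [e2, Real.norm_eq_abs, abs_mul, abs_two]
    linarith
  simp only [ee_pow_I4, h3]
  have h7 := geom_sum_mul (ee y) W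
  have h8 : ‖ee y ^ W - 1‖ ≤ 2 := by
    refine (norm_sub_le _ _).trans ?_
    rw [norm_pow, norm_ee, one_pow, norm_one]
    norm_num
  rw [← h7, norm_mul] at h8
  rw [le_div_iff₀ (by positivity)]
  have := mul_le_mul_of_nonneg_left h4 (norm_nonneg (∑ i ∈ range W, ee y ^ i))
  linarith

theorem col_I4 {α : Type} (Ω : Finset α) (T : α → ℕ) (W : ℕ) (hT : ∀ ω ∈ Ω, T ω ≤ W) :
    ∑ t ∈ range (W + 1), ((Ω.filter fun ω => T ω = t).card : ℝ) ^ 2 = col Ω T := by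
  have h : col Ω T = ∑ t ∈ range (W + 1), (Ω.filter fun ω => T ω = t).card ^ 2 := by
    unfold col
    rw [card_eq_sum_card_fiberwise (f := fun x => T x.1) (t := range (W + 1))]
    · refine sum_congr rfl fun t _ => ?_
      rw [sq, ← card_product]
      congr 1
      ext z
      simp only [mem_filter, mem_product]
      constructor
      · rintro ⟨⟨⟨h1, h2⟩, h3⟩, h4⟩
        exact ⟨⟨h1, h4⟩, h2, h3 ▸ h4⟩
      · rintro ⟨⟨h1, h4⟩, h2, h3⟩
        exact ⟨⟨⟨h1, h2⟩, h4.trans h3.symm⟩, h4⟩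
    · intro z hz
      have h1 := mem_product.1 (mem_filter.1 (mem_coe.1 hz)).1
      exact mem_coe.2 (mem_range.2 (Nat.lt_succ_of_le (hT _ h1.1)))
  rw [h]
  push_cast
  rfl

theorem cs {α : Type} (Ω : Finset α) (T : α → ℕ) (c : α → ℂ) (W : ℕ) (G : Finset ℕ) (ζ : ℕ → ℂ)
    (x : ℕ → ℝ) {Δ : ℝ} (hΔ : 0 < Δ) (hT : ∀ ω ∈ Ω, T ω ≤ W) (hc : ∀ ω, ‖c ω‖ ≤ 1)
    (hζ : ∀ ρ, ‖ζ ρ‖ ≤ 1) :
    ‖∑ ρ ∈ G, ζ ρ * ∑ ω ∈ Ω, c ω * ee (T ω * x ρ)‖ ^ 2 ≤ (col Ω T : ℝ) *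
      (((W : ℝ) + 1) * (((G ×ˢ G).filter fun z => ∃ v : ℤ, |x z.1 - x z.2 - v| ≤ Δ).card : ℝ) +
        (G.card : ℝ) ^ 2 / (2 * Δ)) := by
  set ν : ℕ → ℂ := fun t => ∑ ω ∈ Ω.filter (fun ω => T ω = t), c ω with hν
  set b : ℕ → ℂ := fun t => ∑ ρ ∈ G, ζ ρ * ee (t * x ρ) with hb
  have e1 : ∑ ρ ∈ G, ζ ρ * ∑ ω ∈ Ω, c ω * ee (T ω * x ρ) = ∑ t ∈ range (W + 1), ν t * b t := by
    have e2 : ∑ ρ ∈ G, ζ ρ * ∑ ω ∈ Ω, c ω * ee (T ω * x ρ) = ∑ ω ∈ Ω, c ω * b (T ω) := by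
      simp only [hb, mul_sum]
      rw [sum_comm]
      refine sum_congr rfl fun ω _ => sum_congr rfl fun ρ _ => by ring
    rw [e2, ← sum_fiberwise_of_maps_to (s := Ω) (t := range (W + 1)) (g := T)
      (fun ω hω => mem_range.2 (Nat.lt_succ_of_le (hT ω hω)))]
    refine sum_congr rfl fun t _ => ?_
    simp only [hν]
    rw [sum_mul]
    refine sum_congr rfl fun ω hω => ?_
    rw [(mem_filter.1 hω).2]
  have h1 : ‖∑ t ∈ range (W + 1), ν t * b t‖ ≤ ∑ t ∈ range (W + 1), ‖ν t‖ * ‖b t‖ :=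
    (norm_sum_le _ _).trans (le_of_eq (sum_congr rfl fun t _ => norm_mul _ _))
  have h2 := sum_mul_sq_le_sq_mul_sq (range (W + 1)) (fun t => ‖ν t‖) (fun t => ‖b t‖)
  have h3 : ∑ t ∈ range (W + 1), ‖ν t‖ ^ 2 ≤ col Ω T := by
    rw [← col_I4 Ω T W hT]
    refine sum_le_sum fun t _ => pow_le_pow_left₀ (norm_nonneg _) ?_ 2
    refine (norm_sum_le _ _).trans ?_
    simpa using sum_le_card_nsmul _ (fun ω => ‖c ω‖) 1 fun ω _ => hc ω
  have h4 : ∑ t ∈ range (W + 1), ‖b t‖ ^ 2 ≤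
      ((W : ℝ) + 1) * (((G ×ˢ G).filter fun z => ∃ v : ℤ, |x z.1 - x z.2 - v| ≤ Δ).card : ℝ) +
        (G.card : ℝ) ^ 2 / (2 * Δ) := by
    have e3 : ((∑ t ∈ range (W + 1), ‖b t‖ ^ 2 : ℝ) : ℂ) = ∑ z ∈ G ×ˢ G,
        ζ z.1 * (starRingEnd ℂ) (ζ z.2) * ∑ t ∈ range (W + 1), ee (t * (x z.1 - x z.2)) := by
      push_cast
      simp only [mul_sum]
      rw [sum_comm]
      refine sum_congr rfl fun t _ => ?_
      rw [← Complex.mul_conj', sum_product]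
      simp only [hb, map_sum, sum_mul_sum]
      refine sum_congr rfl fun ρ _ => sum_congr rfl fun ρ' _ => ?_
      have : (t : ℝ) * (x ρ - x ρ') = t * x ρ + -(t * x ρ') := by ring
      rw [map_mul, ee_conj_I4, this, ee_add]
      ring
    have h5 : ∑ t ∈ range (W + 1), ‖b t‖ ^ 2 ≤
        ∑ z ∈ G ×ˢ G, ‖∑ t ∈ range (W + 1), ee (t * (x z.1 - x z.2))‖ := by
      have h6 : ∑ t ∈ range (W + 1), ‖b t‖ ^ 2 ≤ ‖((∑ t ∈ range (W + 1), ‖b t‖ ^ 2 : ℝ) : ℂ)‖ := by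
        rw [Complex.norm_real]
        exact le_abs_self _
      rw [e3] at h6
      refine h6.trans ((norm_sum_le _ _).trans (sum_le_sum fun z _ => ?_))
      rw [norm_mul, norm_mul, Complex.norm_conj]
      refine mul_le_of_le_one_left (norm_nonneg _) ?_
      exact mul_le_one₀ (hζ _) (norm_nonneg _) (hζ _)
    refine h5.trans ?_
    have h7 : ∀ z ∈ G ×ˢ G, ‖∑ t ∈ range (W + 1), ee (t * (x z.1 - x z.2))‖ ≤
        (if ∃ v : ℤ, |x z.1 - x z.2 - v| ≤ Δ then (W : ℝ) + 1 else 0) + 1 / (2 * Δ) := by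
      intro z _
      split_ifs with hz
      · have : ‖∑ t ∈ range (W + 1), ee (t * (x z.1 - x z.2))‖ ≤ (W : ℝ) + 1 := by
          refine (norm_sum_le _ _).trans ?_
          simp [norm_ee]
        have : 0 < 1 / (2 * Δ) := by positivity
        linarith
      · rw [zero_add]
        exact geo _ hΔ hz
    refine (sum_le_sum h7).trans (le_of_eq ?_)
    rw [sum_add_distrib, ← sum_filter, sum_const, sum_const, card_product]
    simp only [nsmul_eq_mul]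
    push_cast
    ring
  rw [e1]
  refine (pow_le_pow_left₀ (norm_nonneg _) h1 2).trans (h2.trans ?_)
  exact mul_le_mul h3 h4 (sum_nonneg fun _ _ => sq_nonneg _) (Nat.cast_nonneg _)

end Vale.Agent.P013
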