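import Vale.Agent.P013.Bas

namespace Vale.Agent.P013

open Finset Real Filter

open Classical

theorem i5_G {R : ℝ} {G : Finset ℕ} (hR : 0 ≤ R) (hG : ∀ ρ ∈ G, 1 ≤ ρ ∧ (ρ : ℝ) ≤ R) :
    (G.card : ℝ) ≤ R := by
  have h : G ⊆ Icc 1 ⌊R⌋₊ := fun ρ h => mem_Icc.2 ⟨(hG ρ h).1, Nat.le_floor (hG ρ h).2⟩
  have h2 := card_le_card h
  rw [Nat.card_Icc] at h2
  have h3 : (G.card : ℝ) ≤ (⌊R⌋₊ : ℝ) := by exact_mod_cast (by omega : G.card ≤ ⌊R⌋₊)
  exact h3.trans (Nat.floor_le hR)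

theorem i5_near (G : Finset ℕ) {t : ℝ} (ht : 0 ≤ t) :
    (((G ×ˢ G).filter fun z : ℕ × ℕ => |(z.2 : ℝ) - z.1| ≤ t).card : ℝ) ≤
      (2 * t + 1) * G.card := by
  have h := Finset.card_le_mul_card_image_of_maps_to (f := Prod.fst)
    (s := (G ×ˢ G).filter fun z : ℕ × ℕ => |(z.2 : ℝ) - z.1| ≤ t) (t := G)
    (fun z hz => (mem_product.1 (mem_filter.1 hz).1).1) (2 * ⌊t⌋₊ + 1) (by
      intro a _
      have h1 : (Icc (a - ⌊t⌋₊) (a + ⌊t⌋₊)).card ≤ 2 * ⌊t⌋₊ + 1 := by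
        rw [Nat.card_Icc]; omega
      refine le_trans (Finset.card_le_card_of_injOn Prod.snd ?_ ?_) h1
      · intro z hz
        simp only [coe_filter, mem_filter, Set.mem_ofPred_eq] at hz
        obtain ⟨⟨_, h2⟩, h3⟩ := hz
        rw [h3, abs_le] at h2
        simp only [coe_Icc, Set.mem_Icc]
        constructor
        · rcases le_total a z.2 with h4 | h4
          · omega
          · have : a - z.2 ≤ ⌊t⌋₊ := Nat.le_floor (by rw [Nat.cast_sub h4]; linarith [h2.1])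
            omega
        · rcases le_total a z.2 with h4 | h4
          · have : z.2 - a ≤ ⌊t⌋₊ := Nat.le_floor (by rw [Nat.cast_sub h4]; linarith [h2.2])
            omega
          · omega
      · intro z hz z' hz' h
        simp only [coe_filter, mem_filter, Set.mem_ofPred_eq] at hz hz'
        exact Prod.ext (hz.2.trans hz'.2.symm) h)
  have h2 : (⌊t⌋₊ : ℝ) ≤ t := Nat.floor_le ht
  calc _ ≤ (((2 * ⌊t⌋₊ + 1) * G.card : ℕ) : ℝ) := by exact_mod_cast h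
    _ ≤ _ := by
      push_cast
      exact mul_le_mul_of_nonneg_right (by linarith) (Nat.cast_nonneg _)

theorem i5_cls {R : ℝ} {G : Finset ℕ} (hR : 0 ≤ R) (hG : ∀ ρ ∈ G, 1 ≤ ρ ∧ (ρ : ℝ) ≤ R)
    {V : ℕ} (_hV : 0 < V) :
    (((G ×ˢ G).filter fun z : ℕ × ℕ => z.1 ≠ z.2 ∧ (V : ℤ) ∣ (z.2 : ℤ) - z.1).card : ℝ) ≤
      R / V * G.card := by
  have h := Finset.card_le_mul_card_image_of_maps_to (f := Prod.fst)
    (s := (G ×ˢ G).filter fun z : ℕ × ℕ => z.1 ≠ z.2 ∧ (V : ℤ) ∣ (z.2 : ℤ) - z.1) (t := G)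
    (fun z hz => (mem_product.1 (mem_filter.1 hz).1).1) (⌊R⌋₊ / V) (by
      intro a ha
      have ha' : a / V ∈ range (⌊R⌋₊ / V + 1) :=
        mem_range.2 (Nat.lt_succ_of_le (Nat.div_le_div_right (Nat.le_floor (hG a ha).2)))
      have h1 : ((range (⌊R⌋₊ / V + 1)).erase (a / V)).card ≤ ⌊R⌋₊ / V := by
        rw [card_erase_of_mem ha', card_range]; exact (Nat.add_sub_cancel _ _).le
      have key : ∀ x y : ℕ, x ≡ y [MOD V] → x / V = y / V → x = y := by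
        intro x y h1 h2
        rw [← Nat.div_add_mod x V, ← Nat.div_add_mod y V, h2, h1]
      refine le_trans (Finset.card_le_card_of_injOn (fun z => z.2 / V) ?_ ?_) h1
      · intro z hz
        simp only [coe_filter, mem_filter, mem_product, Set.mem_ofPred_eq] at hz
        obtain ⟨⟨⟨_, h2⟩, h3, h4⟩, h5⟩ := hz
        simp only [mem_coe, mem_erase, mem_range]
        refine ⟨fun h6 => h3 ?_, Nat.lt_succ_of_le
          (Nat.div_le_div_right (Nat.le_floor (hG _ h2).2))⟩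
        exact key _ _ ((Nat.modEq_iff_dvd).2 h4) (by rw [h5]; exact h6.symm)
      · intro z hz z' hz' h
        simp only [coe_filter, mem_filter, mem_product, Set.mem_ofPred_eq] at hz hz'
        refine Prod.ext (hz.2.trans hz'.2.symm) (key _ _ ?_ h)
        have a1 := (Nat.modEq_iff_dvd).2 hz.1.2.2
        have a2 := (Nat.modEq_iff_dvd).2 hz'.1.2.2
        rw [hz.2] at a1
        rw [hz'.2] at a2
        exact a1.symm.trans a2)
  have h2 : ((⌊R⌋₊ / V : ℕ) : ℝ) ≤ R / V :=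
    Nat.cast_div_le.trans (div_le_div_of_nonneg_right (Nat.floor_le hR) (Nat.cast_nonneg _))
  calc _ ≤ (((⌊R⌋₊ / V) * G.card : ℕ) : ℝ) := by exact_mod_cast h
    _ ≤ _ := by
      rw [Nat.cast_mul]
      exact mul_le_mul_of_nonneg_right h2 (Nat.cast_nonneg _)

theorem i5_u (M : ℤ) {W r r' : ℕ} {R Ξ : ℝ} (hW : 0 < W) (hr : 1 ≤ r ∧ (r : ℝ) ≤ R)
    (hr' : 1 ≤ r' ∧ (r' : ℝ) ≤ R) (h1 : 0 ≤ Ξ) {v : ℤ}
    (h : |(M : ℝ) / (r * W) - M / (r' * W) - v| ≤ Ξ / W) :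
    |((M * ((r' : ℤ) - r) - v * r * r' * W : ℤ) : ℝ)| ≤ Ξ * R ^ 2 := by
  have a1 : (0 : ℝ) < W := by exact_mod_cast hW
  have a2 : (0 : ℝ) < r := by exact_mod_cast hr.1
  have a3 : (0 : ℝ) < r' := by exact_mod_cast hr'.1
  have e : ((M * ((r' : ℤ) - r) - v * r * r' * W : ℤ) : ℝ) =
      ((M : ℝ) / (r * W) - M / (r' * W) - v) * (r * r' * W) := by
    push_cast; field_simp
  rw [e, abs_mul, abs_of_pos (by positivity : (0 : ℝ) < r * r' * W)]
  calc _ ≤ Ξ / W * (r * r' * W) := mul_le_mul_of_nonneg_right h (by positivity)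
    _ = Ξ * (r * r') := by field_simp
    _ ≤ Ξ * R ^ 2 := by
      refine mul_le_mul_of_nonneg_left ?_ h1
      rw [sq]; exact mul_le_mul hr.2 hr'.2 a3.le (a2.le.trans hr.2)

theorem rat (M : ℤ) {B W : ℕ} {R Ξ : ℝ} {G : Finset ℕ} {C : Finset (ℕ × ℕ)} (hW : 0 < W)
    (hB : B ∣ W) (h1 : 1 ≤ Ξ) (h2 : 4 * Ξ ≤ R) (h3 : 2 * Ξ * R ^ 3 < B)
    (hG : ∀ ρ ∈ G, 1 ≤ ρ ∧ (ρ : ℝ) ≤ R) (hC : C ⊆ G ×ˢ G) (h4 : R ^ 2 / Ξ ≤ C.card)
    (h5 : ∀ z ∈ C, ∃ v : ℤ, |(M : ℝ) / (z.1 * W) - M / (z.2 * W) - v| ≤ Ξ / W) :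
    InvC M R (2 * Ξ) (16 * Ξ ^ 3) (2 * Ξ) G := by
  have hΞ : 0 < Ξ := by linarith
  have hR : 0 < R := by linarith
  choose! v hv using h5
  set d : ℕ × ℕ → ℤ := fun z => (z.2 : ℤ) - z.1 with hd
  set u : ℕ × ℕ → ℤ := fun z => M * d z - v z * z.1 * z.2 * W with hu
  have hg : ∀ z ∈ C, (1 ≤ z.1 ∧ (z.1 : ℝ) ≤ R) ∧ (1 ≤ z.2 ∧ (z.2 : ℝ) ≤ R) := fun z hz =>
    ⟨hG _ (mem_product.1 (hC hz)).1, hG _ (mem_product.1 (hC hz)).2⟩
  have hub : ∀ z ∈ C, |(u z : ℝ)| ≤ Ξ * R ^ 2 := fun z hz =>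
    i5_u M hW (hg z hz).1 (hg z hz).2 hΞ.le (hv z hz)
  have hdb : ∀ z ∈ C, |(d z : ℝ)| ≤ R := by
    intro z hz
    have a1 : (1 : ℝ) ≤ z.1 := by exact_mod_cast (hg z hz).1.1
    have a2 : (1 : ℝ) ≤ z.2 := by exact_mod_cast (hg z hz).2.1
    simp only [hd]; push_cast
    rw [abs_le]
    constructor <;> linarith [(hg z hz).1.2, (hg z hz).2.2]
  have hx : ∀ z ∈ C, ∀ z' ∈ C, u z * d z' = u z' * d z := by
    intro z hz z' hz'
    have a1 : (B : ℤ) ∣ u z * d z' - u z' * d z := by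
      have : u z * d z' - u z' * d z =
          W * (v z' * z'.1 * z'.2 * d z - v z * z.1 * z.2 * d z') := by
        simp only [hu]; ring
      rw [this]
      exact Dvd.dvd.mul_right (Int.natCast_dvd_natCast.2 hB) _
    have a2 : |((u z * d z' - u z' * d z : ℤ) : ℝ)| < B := by
      push_cast
      have b1 : |(u z : ℝ) * d z'| ≤ Ξ * R ^ 2 * R := by
        rw [abs_mul]
        exact mul_le_mul (hub z hz) (hdb z' hz') (abs_nonneg _) (by positivity)
      have b2 : |(u z' : ℝ) * d z| ≤ Ξ * R ^ 2 * R := by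
        rw [abs_mul]
        exact mul_le_mul (hub z' hz') (hdb z hz) (abs_nonneg _) (by positivity)
      have b3 := abs_sub ((u z : ℝ) * d z') ((u z' : ℝ) * d z)
      nlinarith
    have a3 : |u z * d z' - u z' * d z| < B := by exact_mod_cast a2
    exact sub_eq_zero.1 (Int.eq_zero_of_abs_lt_dvd a1 a3)
  set C' := C.filter fun z : ℕ × ℕ => ¬ |(z.2 : ℝ) - z.1| ≤ R / (8 * Ξ) with hC'
  have hGc := i5_G hR.le hG
  have hc : R ^ 2 / (2 * Ξ) ≤ C'.card := by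
    have a1 := i5_near G (t := R / (8 * Ξ)) (by positivity)
    have a2 : (C.filter fun z : ℕ × ℕ => |(z.2 : ℝ) - z.1| ≤ R / (8 * Ξ)).card ≤
        ((G ×ˢ G).filter fun z : ℕ × ℕ => |(z.2 : ℝ) - z.1| ≤ R / (8 * Ξ)).card :=
      card_le_card (filter_subset_filter _ hC)
    have a3 := Finset.card_filter_add_card_filter_not (s := C)
      (fun z : ℕ × ℕ => |(z.2 : ℝ) - z.1| ≤ R / (8 * Ξ))
    have a2' := (Nat.cast_le (α := ℝ)).2 a2
    have a3' := congrArg (fun n : ℕ => (n : ℝ)) a3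
    simp only [Nat.cast_add] at a3'
    have a4 : 1 ≤ R / (4 * Ξ) := by rw [le_div_iff₀ (by positivity)]; linarith
    have a5 : 2 * (R / (8 * Ξ)) + 1 ≤ R / (2 * Ξ) := by
      have e1 : 2 * (R / (8 * Ξ)) = R / (4 * Ξ) := by field_simp; ring
      have e2 : R / (2 * Ξ) = 2 * (R / (4 * Ξ)) := by field_simp; ring
      rw [e1, e2]; linarith
    have a6 : (2 * (R / (8 * Ξ)) + 1) * G.card ≤ R / (2 * Ξ) * R :=
      mul_le_mul a5 hGc (Nat.cast_nonneg _) (by positivity)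
    have e3 : R / (2 * Ξ) * R = R ^ 2 / (2 * Ξ) := by field_simp
    have e4 : R ^ 2 / Ξ = 2 * (R ^ 2 / (2 * Ξ)) := by field_simp
    linarith
  have hne : C'.Nonempty := by
    rw [← card_pos, ← Nat.cast_pos (α := ℝ)]
    exact lt_of_lt_of_le (by positivity) hc
  have hdl : ∀ z ∈ C', R / (8 * Ξ) < |(d z : ℝ)| := by
    intro z hz
    have := not_le.1 (mem_filter.1 hz).2
    simp only [hd]; push_cast; exact this
  have hd0 : ∀ z ∈ C', d z ≠ 0 := by
    intro z hz h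
    have := hdl z hz
    rw [h] at this
    simp only [Int.cast_zero, abs_zero] at this
    exact absurd this (not_lt.2 (by positivity))
  obtain ⟨z0, hz0⟩ := hne
  have hz0C := (mem_filter.1 hz0).1
  set x : ℚ := (u z0 : ℚ) / (d z0 : ℚ) with hxdef
  have e0 : x.num * d z0 = x.den * u z0 := by
    have b1 : (d z0 : ℚ) ≠ 0 := by exact_mod_cast hd0 z0 hz0
    have b2 : (x.num : ℚ) = x * x.den := (Rat.mul_den_eq_num x).symm
    have b3 : (x.num : ℚ) * d z0 = x.den * u z0 := by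
      rw [b2, hxdef]; field_simp
    exact_mod_cast b3
  have e1 : ∀ z ∈ C', x.num * d z = x.den * u z := by
    intro z hz
    have b1 := hx z (mem_filter.1 hz).1 z0 hz0C
    refine mul_left_cancel₀ (hd0 z0 hz0) ?_
    calc d z0 * (x.num * d z) = (x.num * d z0) * d z := by ring
      _ = x.den * (u z0 * d z) := by rw [e0]; ring
      _ = d z0 * (x.den * u z) := by rw [← b1]; ring
  have hco : IsCoprime (x.den : ℤ) x.num := by
    rw [Int.isCoprime_iff_gcd_eq_one]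
    have := x.reduced
    simpa [Int.gcd, Nat.Coprime, Nat.gcd_comm] using this
  have hVd : ∀ z ∈ C', (x.den : ℤ) ∣ d z := fun z hz =>
    hco.dvd_of_dvd_mul_left ⟨u z, e1 z hz⟩
  have hV0 : (0 : ℝ) < x.den := by exact_mod_cast x.den_pos
  have hV : (x.den : ℝ) ≤ 2 * Ξ := by
    have a1 := i5_cls hR.le hG x.den_pos
    have a2 : C' ⊆ (G ×ˢ G).filter
        fun z : ℕ × ℕ => z.1 ≠ z.2 ∧ (x.den : ℤ) ∣ (z.2 : ℤ) - z.1 := by
      intro z hz
      refine mem_filter.2 ⟨hC (mem_filter.1 hz).1, fun h => hd0 z hz ?_, hVd z hz⟩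
      simp only [hd, h, sub_self]
    have a3 := (Nat.cast_le (α := ℝ)).2 (card_le_card a2)
    have a4 : R / x.den * G.card ≤ R / x.den * R :=
      mul_le_mul_of_nonneg_left hGc (by positivity)
    have a5 : R ^ 2 / (2 * Ξ) ≤ R ^ 2 / x.den := by
      have : R / x.den * R = R ^ 2 / x.den := by field_simp
      linarith
    by_contra hcon
    have := div_lt_div_of_pos_left (by positivity : 0 < R ^ 2) (by positivity : 0 < 2 * Ξ)
      (not_le.1 hcon)
    linarith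
  refine ⟨x.den, x.num, C', x.den_pos, hV, ?_, (filter_subset _ _).trans hC, hc, ?_⟩
  · have a1 : |(x.num : ℝ)| * |(d z0 : ℝ)| = x.den * |(u z0 : ℝ)| := by
      have : (x.num : ℝ) * d z0 = x.den * u z0 := by exact_mod_cast e0
      rw [← abs_mul, this, abs_mul, abs_of_pos hV0]
    have a2 : |(x.num : ℝ)| * (R / (8 * Ξ)) ≤ 2 * Ξ * (Ξ * R ^ 2) := by
      calc _ ≤ |(x.num : ℝ)| * |(d z0 : ℝ)| :=
            mul_le_mul_of_nonneg_left (hdl z0 hz0).le (abs_nonneg _)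
        _ = _ := a1
        _ ≤ _ := mul_le_mul hV (hub z0 hz0C) (abs_nonneg _) (by positivity)
    rw [← le_div_iff₀ (by positivity)] at a2
    refine a2.trans (le_of_eq ?_)
    field_simp; ring
  · intro z hz p hp hp1 hp2
    have hpZ : Prime (p : ℤ) := Nat.prime_iff_prime_int.1 hp
    have a1 : (x.den * M - x.num) * d z = x.den * (v z * z.2 * W) * z.1 := by
      have := e1 z hz
      simp only [hu] at this
      linear_combination -this
    have a2 : (p : ℤ) ∣ (x.den * M - x.num) * d z := by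
      rw [a1]; exact Dvd.dvd.mul_left (Int.natCast_dvd_natCast.2 hp1) _
    rcases hpZ.dvd_or_dvd a2 with h | h
    · exact h
    · exfalso
      apply hp2
      have := dvd_add h (Int.natCast_dvd_natCast.2 hp1)
      simp only [hd, sub_add_cancel] at this
      exact Int.natCast_dvd_natCast.1 this

end Vale.Agent.P013
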