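import Vale.Agent.P013.I2b

namespace Vale.Agent.P013

open Finset Real Filter

open Classical

theorem i6_ee_sum {ι : Type} (s : Finset ι) (f : ι → ℝ) :
    ∏ i ∈ s, ee (f i) = ee (∑ i ∈ s, f i) := by
  induction s using Finset.induction_on with
  | empty => simp [ee]
  | insert a s ha ih => rw [prod_insert ha, sum_insert ha, ih, ee_add]

theorem i6_YY {e : ℕ} {S : Fin e → Finset ℕ} (hS : ∀ i, ∀ p ∈ S i, p ≠ 0) : YY S ≠ 0 :=
  Finset.prod_ne_zero_iff.2 fun i _ => (pr_pos (hS i)).ne'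

theorem i6_div {J : ℕ} {q : Fin J → ℕ} (hq : ∀ j, q j ≠ 0) (j : Fin J) :
    (((∏ j', q j') / q j : ℕ) : ℝ) = (∏ j', (q j' : ℝ)) / q j := by
  rw [Nat.cast_div (Finset.dvd_prod_of_mem q (mem_univ j)) (by exact_mod_cast hq j)]
  simp

theorem i6_tt {e n : ℕ} {S : Fin e → Finset ℕ} (hS : ∀ i, ∀ p ∈ S i, p ≠ 0)
    {a : Fin n → Fin e → ℕ} (ha : a ∈ Gr n S) :
    (tt S a : ℝ) = YY S * ∑ l, 1 / ∏ i, (a l i : ℝ) := by
  have h := congrArg (fun x : ℚ => (x : ℝ)) (tt_eq hS ha)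
  simpa [rsum] using h

theorem amp {e n J : ℕ} {S : Fin e → Finset ℕ} (hS : ∀ i, ∀ p ∈ S i, p ≠ 0)
    (δ : Fin e → ℕ → ℝ) (M : ℤ) {ρ : ℕ} (hρ : ρ ≠ 0) {q : Fin J → ℕ} (hq : ∀ j, q j ≠ 0) :
    ∏ j, RS S δ M (ρ * q j) ^ n = ∑ ω ∈ Om J n S,
      ((∏ j, ∏ l, ∏ i, δ i (ω j l i) : ℝ) : ℂ) *
        ee (TT S q ω * ((M : ℝ) / (ρ * (YY S * ∏ j, q j : ℕ)))) := by
  have h1 : ∀ j, RS S δ M (ρ * q j) ^ n = ∑ a ∈ Gr n S, ∏ l,
      (((∏ i, δ i (a l i) : ℝ) : ℂ) * ee (M / (((ρ * q j : ℕ) : ℝ) * ∏ i, (a l i : ℝ)))) := by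
    intro j
    unfold RS Gr
    rw [← Finset.prod_univ_sum (fun _ : Fin n => Fintype.piFinset S)
      (fun _ a => ((∏ i, δ i (a i) : ℝ) : ℂ) * ee (M / (((ρ * q j : ℕ) : ℝ) * ∏ i, (a i : ℝ))))]
    simp
  simp only [h1]
  unfold Om
  rw [Finset.prod_univ_sum (fun _ : Fin J => Gr n S) (fun j a => ∏ l,
      (((∏ i, δ i (a l i) : ℝ) : ℂ) * ee (M / (((ρ * q j : ℕ) : ℝ) * ∏ i, (a l i : ℝ)))))]
  refine Finset.sum_congr rfl fun ω hω => ?_
  simp only [Finset.prod_mul_distrib, i6_ee_sum]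
  congr 1
  · push_cast; rfl
  · congr 1
    have hY : (YY S : ℝ) ≠ 0 := by exact_mod_cast i6_YY hS
    have hρ' : (ρ : ℝ) ≠ 0 := by exact_mod_cast hρ
    have hP : (∏ j', (q j' : ℝ)) ≠ 0 :=
      Finset.prod_ne_zero_iff.2 fun j _ => by exact_mod_cast hq j
    unfold TT
    rw [Nat.cast_sum, Finset.sum_mul]
    refine Finset.sum_congr rfl fun j _ => ?_
    have hqj : (q j : ℝ) ≠ 0 := by exact_mod_cast hq j
    rw [Nat.cast_mul (tt S (ω j)), i6_div hq j, i6_tt hS (Fintype.mem_piFinset.1 hω j),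
      Finset.mul_sum, Finset.sum_mul, Finset.sum_mul]
    refine Finset.sum_congr rfl fun l _ => ?_
    push_cast
    by_cases h0 : (∏ i, (ω j l i : ℝ)) = 0
    · simp [h0]
    · field_simp

theorem i6_inj (J : ℕ) (H : Finset ℕ) : (Inj J H).card = H.card.descFactorial J := by
  have h1 : Fintype.card (Fin J ↪ H) = H.card.descFactorial J := by
    rw [Fintype.card_embedding_eq]; simp
  rw [← h1, ← Finset.card_univ]
  symm
  refine Finset.card_bij (fun f _ j => (f j : ℕ)) ?_ ?_ ?_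
  · intro f _
    refine mem_filter.2 ⟨Fintype.mem_piFinset.2 fun j => (f j).2, ?_⟩
    exact Subtype.val_injective.comp f.injective
  · intro f _ g _ h
    ext j
    exact congrFun h j
  · intro g hg
    obtain ⟨h1, h2⟩ := mem_filter.1 hg
    refine ⟨⟨fun j => ⟨g j, Fintype.mem_piFinset.1 h1 j⟩, fun a b h => h2 ?_⟩, mem_univ _, rfl⟩
    exact congrArg Subtype.val h

theorem amp2 {Q : Finset ℕ} {f : ℕ → ℝ} {ε : ℝ} {J : ℕ} (n : ℕ) (hε : 0 < ε)
    (hf : ∀ q, 0 ≤ f q ∧ f q ≤ 1) (h1 : ε * Q.card / 2 ≤ ∑ q ∈ Q, f q) (h2 : 8 * J ≤ ε * Q.card) :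
    (ε * Q.card / 8) ^ J * (ε / 4) ^ (n * J) ≤ ∑ q ∈ Inj J Q, ∏ j, f (q j) ^ n := by
  set H := Q.filter fun q => ε / 4 ≤ f q with hH
  have hc : ε * Q.card / 4 ≤ H.card := by
    have a1 : ∑ q ∈ Q, f q ≤ ∑ q ∈ Q, ((if ε / 4 ≤ f q then (1 : ℝ) else 0) + ε / 4) := by
      refine Finset.sum_le_sum fun q _ => ?_
      split_ifs with h
      · linarith [(hf q).2]
      · linarith [not_le.1 h]
    rw [Finset.sum_add_distrib, Finset.sum_boole, Finset.sum_const, nsmul_eq_mul] at a1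
    linarith
  have hJ : (J : ℝ) ≤ H.card := by linarith [Nat.cast_nonneg (α := ℝ) J]
  have hJ' : J ≤ H.card := by exact_mod_cast hJ
  have hd : (ε * Q.card / 8) ^ J ≤ ((Inj J H).card : ℝ) := by
    rw [i6_inj]
    have b1 : ((H.card + 1 - J : ℕ) : ℝ) ^ J ≤ (H.card.descFactorial J : ℝ) := by
      exact_mod_cast Nat.pow_sub_le_descFactorial H.card J
    refine le_trans (pow_le_pow_left₀ (by positivity) ?_ J) b1
    rw [Nat.cast_sub (by omega)]
    push_cast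
    linarith
  have hs : Inj J H ⊆ Inj J Q := by
    intro q hq
    obtain ⟨a1, a2⟩ := mem_filter.1 hq
    exact mem_filter.2 ⟨Fintype.mem_piFinset.2 fun j =>
      (mem_filter.1 (Fintype.mem_piFinset.1 a1 j)).1, a2⟩
  calc (ε * Q.card / 8) ^ J * (ε / 4) ^ (n * J)
      ≤ ((Inj J H).card : ℝ) * (ε / 4) ^ (n * J) :=
        mul_le_mul_of_nonneg_right hd (by positivity)
    _ = ∑ q ∈ Inj J H, (ε / 4) ^ (n * J) := by rw [Finset.sum_const, nsmul_eq_mul]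
    _ ≤ ∑ q ∈ Inj J H, ∏ j, f (q j) ^ n := by
        refine Finset.sum_le_sum fun q hq => ?_
        have a1 := (mem_filter.1 hq).1
        have : (ε / 4) ^ (n * J) = ∏ _j : Fin J, (ε / 4) ^ n := by
          rw [Finset.prod_const, card_univ, Fintype.card_fin, pow_mul]
        rw [this]
        refine Finset.prod_le_prod (fun j _ => by positivity) fun j _ => ?_
        exact pow_le_pow_left₀ (by positivity)
          (mem_filter.1 (Fintype.mem_piFinset.1 a1 j)).2 n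
    _ ≤ ∑ q ∈ Inj J Q, ∏ j, f (q j) ^ n :=
        Finset.sum_le_sum_of_subset_of_nonneg hs fun q _ _ =>
          Finset.prod_nonneg fun j _ => pow_nonneg (hf _).1 n

theorem TT_le {e n J : ℕ} (S : Fin e → Finset ℕ) {q : Fin J → ℕ} (hq : ∀ j, J * n ≤ q j)
    (ω : Fin J → Fin n → Fin e → ℕ) : TT S q ω ≤ YY S * ∏ j, q j := by
  rcases Nat.eq_zero_or_pos J with h0 | h0
  · subst h0; simp [TT]
  refine Nat.le_of_mul_le_mul_left ?_ h0
  unfold TT
  rw [Finset.mul_sum]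
  have h : ∀ j ∈ (univ : Finset (Fin J)),
      J * (tt S (ω j) * ((∏ j', q j') / q j)) ≤ YY S * ∏ j, q j := by
    intro j _
    calc J * (tt S (ω j) * ((∏ j', q j') / q j))
        ≤ J * (n * YY S * ((∏ j', q j') / q j)) :=
          Nat.mul_le_mul_left _ (Nat.mul_le_mul_right _ (tt_le S _))
      _ = YY S * (J * n * ((∏ j', q j') / q j)) := by ring
      _ ≤ YY S * (q j * ((∏ j', q j') / q j)) :=
          Nat.mul_le_mul_left _ (Nat.mul_le_mul_right _ (hq j))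
      _ ≤ YY S * ∏ j, q j := Nat.mul_le_mul_left _ (Nat.mul_div_le _ _)
  refine (Finset.sum_le_sum h).trans (le_of_eq ?_)
  simp

end Vale.Agent.P013
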