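import Vale.Agent.P013.I3
import Vale.Agent.P013.I4
import Vale.Agent.P013.I6

namespace Vale.Agent.P013

open Finset Real Filter

open Classical

theorem i7_RS_le {e J : ℕ} {S : Fin e → Finset ℕ} {δ : Fin e → ℕ → ℝ}
    (hS : ∀ i, (S i).card = J) (hδ : ∀ i q, |δ i q| ≤ 1) (M : ℤ) (d : ℕ) :
    ‖RS S δ M d‖ ≤ (J : ℝ) ^ e := by
  refine (norm_sum_le _ _).trans ?_
  refine (sum_le_card_nsmul _ _ 1 fun a _ => ?_).trans ?_
  · rw [norm_mul, norm_ee, mul_one, Complex.norm_real, Real.norm_eq_abs, abs_prod]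
    exact prod_le_one (fun i _ => abs_nonneg _) fun i _ => hδ i _
  · rw [Fintype.card_piFinset]
    simp [hS]

theorem i7_card_Gr {e J : ℕ} (n : ℕ) {S : Fin e → Finset ℕ} (hS : ∀ i, (S i).card = J) :
    (Gr n S).card = (J ^ e) ^ n := by
  rw [Gr, Fintype.card_piFinset]
  simp [Fintype.card_piFinset, hS]

theorem i7_col_pos {α : Type} {Ω : Finset α} (h : Ω.Nonempty) (T : α → ℕ) : 0 < col Ω T := by
  obtain ⟨x, hx⟩ := h
  exact card_pos.2 ⟨(x, x), mem_filter.2 ⟨mem_product.2 ⟨hx, hx⟩, rfl⟩⟩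

theorem i7_phase (z : ℂ) : ∃ ζ : ℂ, ‖ζ‖ ≤ 1 ∧ ζ * z = (‖z‖ : ℂ) := by
  by_cases h : z = 0
  · exact ⟨0, by simp, by simp [h]⟩
  · have h1 : (‖z‖ : ℂ) ≠ 0 := by simpa using h
    refine ⟨‖z‖ / z, ?_, by field_simp⟩
    rw [norm_div, Complex.norm_real, norm_norm, div_self (norm_ne_zero_iff.2 h)]

theorem i7_card_Inj (J : ℕ) (Q : Finset ℕ) : (Inj J Q).card ≤ Q.card ^ J := by
  refine (card_filter_le _ _).trans ?_
  rw [Fintype.card_piFinset]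
  simp

/-- from a biased sample to many close pairs -/
theorem inv_core {e n J J1 : ℕ} {S : Fin e → Finset ℕ} {Q G : Finset ℕ} {δ : Fin e → ℕ → ℝ}
    {M : ℤ} {u w ε lam0 : ℝ} (hJ : 0 < J) (hS : ∀ i, (S i).card = J ∧ ∀ p ∈ S i, p ≠ 0)
    (hδ : ∀ i q, |δ i q| ≤ 1) (hQ : ∀ q ∈ Q, q.Prime ∧ J1 * n ≤ q) (hQ0 : Q.Nonempty)
    (hG : ∀ ρ ∈ G, ρ ≠ 0) (hε : 0 < ε) (hε1 : ε ≤ 1) (hw0 : 0 ≤ w)
    (hw : ∀ m : ℕ, 0 < m → m ≤ n * YY S → ((Q.filter fun q => q ∣ m).card : ℝ) ≤ w)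
    (hd : (col (Gr n S) (tt S) : ℝ) ≤ exp (-u) * ((Gr n S).card : ℝ) ^ 2)
    (h8 : 8 * J1 ≤ ε * Q.card)
    (hl : lam0 = (ε / 8) ^ (2 * J1) * (ε / 4) ^ (2 * (n * J1)) / (exp (-u) + w / Q.card) ^ J1)
    (hb : ∀ ρ ∈ G, ε * Q.card / 2 * (J : ℝ) ^ e ≤ ∑ q ∈ Q, ‖RS S δ M (ρ * q)‖) :
    ∃ q ∈ Inj J1 Q, lam0 * (G.card : ℝ) ^ 2 / (4 * (YY S * ∏ j, q j : ℕ)) ≤
      (((G ×ˢ G).filter fun z => ∃ v : ℤ, |(M : ℝ) / (z.1 * (YY S * ∏ j, q j : ℕ)) -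
        M / (z.2 * (YY S * ∏ j, q j : ℕ)) - v| ≤ 1 / lam0).card : ℝ) := by
  have hJ' : (0 : ℝ) < (J : ℝ) ^ e := by positivity
  have hQc : (0 : ℝ) < Q.card := by exact_mod_cast hQ0.card_pos
  have hE : 0 < exp (-u) + w / Q.card := by positivity
  have hl0 : 0 < lam0 := by rw [hl]; positivity
  set c0 : ℝ := (ε * Q.card / 8) ^ J1 * (ε / 4) ^ (n * J1) with hc0
  have hc0p : 0 < c0 := by positivity
  have hne : (Inj J1 Q).Nonempty := by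
    have h := amp2 (Q := Q) (f := fun _ => 1) (J := J1) n hε (fun _ => ⟨zero_le_one, le_rfl⟩)
      (by rw [sum_const, nsmul_eq_mul, mul_one]; nlinarith) h8
    by_contra hc
    rw [not_nonempty_iff_eq_empty.1 hc, sum_empty] at h
    linarith
  have hIc : (0 : ℝ) < (Inj J1 Q).card := by exact_mod_cast hne.card_pos
  set A : ℝ := ((J : ℝ) ^ e) ^ n with hA
  have hAp : 0 < A := by positivity
  have hGr : ((Gr n S).card : ℝ) = A := by
    rw [i7_card_Gr n fun i => (hS i).1]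
    push_cast
    rfl
  set b : (Fin J1 → ℕ) → ℝ := fun q => ∑ ρ ∈ G, ∏ j, ‖RS S δ M (ρ * q j)‖ ^ n with hbd
  have hlow : (G.card : ℝ) * (A ^ J1 * c0) ≤ ∑ q ∈ Inj J1 Q, b q := by
    rw [hbd, sum_comm, ← nsmul_eq_mul]
    refine card_nsmul_le_sum _ _ _ fun ρ hρ => ?_
    have h := amp2 (Q := Q) (f := fun q => ‖RS S δ M (ρ * q)‖ / (J : ℝ) ^ e) (J := J1) n hε
      (fun q => ⟨by positivity, (div_le_one hJ').2 (i7_RS_le (fun i => (hS i).1) hδ M _)⟩)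
      (by rw [← sum_div, le_div_iff₀ hJ']; exact hb ρ hρ) h8
    calc A ^ J1 * c0
        ≤ A ^ J1 * ∑ q ∈ Inj J1 Q, ∏ j, (‖RS S δ M (ρ * q j)‖ / (J : ℝ) ^ e) ^ n :=
          mul_le_mul_of_nonneg_left h (by positivity)
      _ = _ := by
        rw [mul_sum]
        refine sum_congr rfl fun q _ => ?_
        simp only [div_pow]
        rw [prod_div_distrib, prod_const, card_univ, Fintype.card_fin, ← hA]
        field_simp
  have hcol : ∑ q ∈ Inj J1 Q, (col (Om J1 n S) (TT S q) : ℝ) ≤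
      (A ^ 2 * Q.card * (exp (-u) + w / Q.card)) ^ J1 := by
    refine (coll S Q (fun q hq => (hQ q hq).1) hw0 hw).trans ?_
    refine pow_le_pow_left₀ (by positivity) ?_ _
    rw [hGr] at hd ⊢
    have h1 : A ^ 2 * Q.card * (exp (-u) + w / Q.card) =
        exp (-u) * A ^ 2 * Q.card + w * A ^ 2 := by
      field_simp
    rw [h1]
    have := mul_le_mul_of_nonneg_right hd hQc.le
    linarith
  have hsum : ∑ q ∈ Inj J1 Q, lam0 * (G.card : ℝ) ^ 2 * (col (Om J1 n S) (TT S q) : ℝ) ≤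
      ∑ q ∈ Inj J1 Q, b q ^ 2 := by
    refine le_of_mul_le_mul_left ?_ hIc
    have h1 : (∑ q ∈ Inj J1 Q, b q) ^ 2 ≤ (Inj J1 Q).card * ∑ q ∈ Inj J1 Q, b q ^ 2 :=
      sq_sum_le_card_mul_sum_sq
    have h2 : ((Inj J1 Q).card : ℝ) ≤ (Q.card : ℝ) ^ J1 := by exact_mod_cast i7_card_Inj J1 Q
    have h3 : (Q.card : ℝ) ^ J1 * (lam0 * (G.card : ℝ) ^ 2 *
        (A ^ 2 * Q.card * (exp (-u) + w / Q.card)) ^ J1) = (G.card * (A ^ J1 * c0)) ^ 2 := by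
      have hE' : (exp (-u) + w / Q.card) ^ J1 ≠ 0 := by positivity
      have e1 : (ε * Q.card / 8) ^ J1 = (ε / 8) ^ J1 * (Q.card : ℝ) ^ J1 := by
        rw [← mul_pow]; congr 1; ring
      rw [hl, hc0, e1, mul_pow (A ^ 2 * Q.card), mul_pow (A ^ 2), pow_mul' (ε / 8) 2 J1,
        pow_mul' (ε / 4) 2 (n * J1), ← pow_mul A 2 J1, pow_mul' A 2 J1]
      generalize (exp (-u) + w / Q.card) ^ J1 = X at hE'
      field_simp
    calc ((Inj J1 Q).card : ℝ) *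
          ∑ q ∈ Inj J1 Q, lam0 * (G.card : ℝ) ^ 2 * (col (Om J1 n S) (TT S q) : ℝ)
        ≤ (Q.card : ℝ) ^ J1 * (lam0 * (G.card : ℝ) ^ 2 *
          (A ^ 2 * Q.card * (exp (-u) + w / Q.card)) ^ J1) := by
          rw [← mul_sum]
          refine mul_le_mul h2 (mul_le_mul_of_nonneg_left hcol (by positivity))
            (mul_nonneg (by positivity) (sum_nonneg fun _ _ => Nat.cast_nonneg _)) (by positivity)
      _ = (G.card * (A ^ J1 * c0)) ^ 2 := h3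
      _ ≤ (∑ q ∈ Inj J1 Q, b q) ^ 2 := pow_le_pow_left₀ (by positivity) hlow 2
      _ ≤ _ := h1
  obtain ⟨q, hq, hqb⟩ := exists_le_of_sum_le hne hsum
  refine ⟨q, hq, ?_⟩
  have hqQ : ∀ j, q j ∈ Q := fun j => Fintype.mem_piFinset.1 (mem_filter.1 hq).1 j
  have hq0 : ∀ j, q j ≠ 0 := fun j => (hQ _ (hqQ j)).1.ne_zero
  have hW : 0 < YY S * ∏ j, q j :=
    Nat.mul_pos (prod_pos fun i _ => pr_pos (hS i).2)
      (prod_pos fun j _ => Nat.pos_of_ne_zero (hq0 j))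
  choose ζ hζ1 hζ2 using fun ρ : ℕ => i7_phase (∏ j, RS S δ M (ρ * q j) ^ n)
  have hcs := cs (Om J1 n S) (TT S q) (fun ω => ((∏ j, ∏ l, ∏ i, δ i (ω j l i) : ℝ) : ℂ))
    (YY S * ∏ j, q j) G ζ (fun ρ => (M : ℝ) / (ρ * (YY S * ∏ j, q j : ℕ))) (Δ := 1 / lam0)
    (by positivity) (fun ω _ => TT_le S (fun j => (hQ _ (hqQ j)).2) ω)
    (fun ω => by
      rw [Complex.norm_real, Real.norm_eq_abs, abs_prod]
      refine prod_le_one (fun _ _ => abs_nonneg _) fun j _ => ?_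
      rw [abs_prod]
      refine prod_le_one (fun _ _ => abs_nonneg _) fun l _ => ?_
      rw [abs_prod]
      exact prod_le_one (fun _ _ => abs_nonneg _) fun i _ => hδ i _) hζ1
  have hbq : ∑ ρ ∈ G, ζ ρ * ∑ ω ∈ Om J1 n S, ((∏ j, ∏ l, ∏ i, δ i (ω j l i) : ℝ) : ℂ) *
      ee (TT S q ω * ((M : ℝ) / (ρ * (YY S * ∏ j, q j : ℕ)))) = (b q : ℂ) := by
    rw [hbd]
    push_cast [Complex.ofReal_sum]
    refine sum_congr rfl fun ρ hρ => ?_
    have h := amp (n := n) (fun i => (hS i).2) δ M (hG ρ hρ) hq0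
    push_cast at h
    rw [← h, hζ2, norm_prod]
    simp only [norm_pow]
    push_cast
    rfl
  rw [hbq, Complex.norm_real, Real.norm_eq_abs, sq_abs] at hcs
  have hOm : (Om J1 n S).Nonempty := by
    refine Fintype.piFinset_nonempty.2 fun _ => card_pos.1 ?_
    rw [i7_card_Gr n fun i => (hS i).1]
    positivity
  have hcp : (0 : ℝ) < col (Om J1 n S) (TT S q) := by exact_mod_cast i7_col_pos hOm _
  have hW1 : (1 : ℝ) ≤ (YY S * ∏ j, q j : ℕ) := by exact_mod_cast hW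
  have h5 := le_of_mul_le_mul_left ((mul_comm _ _).trans_le (hqb.trans hcs)) hcp
  have h6 : (G.card : ℝ) ^ 2 / (2 * (1 / lam0)) = lam0 * (G.card : ℝ) ^ 2 / 2 := by
    field_simp
  rw [h6] at h5
  rw [div_le_iff₀ (by positivity)]
  generalize (YY S * ∏ j, q j : ℕ) = W at h5 hW1 ⊢
  set Nn : ℝ := (((G ×ˢ G).filter fun z => ∃ v : ℤ, |(M : ℝ) / (z.1 * (W : ℕ)) -
        M / (z.2 * (W : ℕ)) - v| ≤ 1 / lam0).card : ℝ)
  have hN : 0 ≤ Nn := Nat.cast_nonneg _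
  nlinarith

end Vale.Agent.P013
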