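import Vale.Agent.P013.I1
import Vale.Agent.P013.I2b
import Vale.Agent.P013.Bas
import Vale.Agent.P013.Defs2
import Vale.Agent.P013.I5
import Vale.Agent.P013.I7

namespace Vale.Agent.P013

open Finset Real Filter

open Classical

theorem ar1_I8 {ε R g g' W Ξ lam : ℝ} (hε : 0 < ε) (hR : 0 < R) (hΞ : 1 ≤ Ξ) (hW : 0 < W)
    (hl : 0 < lam) (h5 : ε * R ≤ g) (t2 : ε * g / 2 ≤ g') (k1 : 16 * W ≤ Ξ * ε ^ 4 * lam) :
    R ^ 2 / Ξ ≤ lam * g' ^ 2 / (4 * W) := by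
  have c1 : ε ^ 2 * R / 2 ≤ g' := by nlinarith
  have c2 : (ε ^ 2 * R / 2) ^ 2 ≤ g' ^ 2 := pow_le_pow_left₀ (by positivity) c1 2
  rw [div_le_div_iff₀ (by linarith) (by positivity)]
  calc R ^ 2 * (4 * W) = R ^ 2 / 4 * (16 * W) := by ring
    _ ≤ R ^ 2 / 4 * (Ξ * ε ^ 4 * lam) := mul_le_mul_of_nonneg_left k1 (by positivity)
    _ = lam * (ε ^ 2 * R / 2) ^ 2 * Ξ := by ring
    _ ≤ _ := mul_le_mul_of_nonneg_right (mul_le_mul_of_nonneg_left c2 hl.le) (by linarith)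

theorem ar2_I8 {ε W Ξ lam : ℝ} (hε : 0 < ε) (hε1 : ε ≤ 1) (hΞ : 1 ≤ Ξ) (hW : 0 < W)
    (hl : 0 < lam) (k1 : 16 * W ≤ Ξ * ε ^ 4 * lam) : 1 / lam ≤ Ξ / W := by
  have hε4 : ε ^ 4 ≤ 1 := pow_le_one₀ hε.le hε1
  rw [div_le_div_iff₀ hl hW]
  have : Ξ * ε ^ 4 * lam ≤ Ξ * lam := by
    have : Ξ * ε ^ 4 ≤ Ξ := by nlinarith
    exact mul_le_mul_of_nonneg_right this hl.le
  linarith

theorem ar3_I8 {a u w : ℝ} (hu : 0 < u) (h : a * u ≤ u * w) : a ≤ w := by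
  rw [mul_comm] at h
  exact le_of_mul_le_mul_left h hu

theorem RS_le_I8 {e J : ℕ} {S : Fin e → Finset ℕ} (hS : ∀ i, (S i).card = J)
    {δ : Fin e → ℕ → ℝ} (hδ : ∀ i q, |δ i q| ≤ 1) (M : ℤ) (d : ℕ) :
    ‖RS S δ M d‖ ≤ (J : ℝ) ^ e := by
  unfold RS
  refine (norm_sum_le _ _).trans ?_
  have h : ∀ a ∈ Fintype.piFinset S, ‖((∏ i, δ i (a i) : ℝ) : ℂ) *
      ee (M / ((d : ℝ) * ∏ i, (a i : ℝ)))‖ ≤ 1 := by
    intro a _
    rw [norm_mul, norm_ee, mul_one, Complex.norm_real, Real.norm_eq_abs, abs_prod]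
    exact prod_le_one (fun _ _ => abs_nonneg _) (fun i _ => hδ i _)
  refine (sum_le_sum h).trans ?_
  simp [Fintype.card_piFinset, hS]

/-- finite form of the inverse theorem -/
theorem inv_fin {e n J J1 : ℕ} {Q : Fin e → Finset ℕ} {Q0 G : Finset ℕ} {δ : Fin e → ℕ → ℝ}
    {M : ℤ} {u η w ε R Ξ : ℝ} {l h : Fin e → ℝ} (hJ : 0 < J) (hn : 0 < n) (hu : 0 < u)
    (hQ : ∀ i, J ≤ (Q i).card ∧ ∀ q ∈ Q i, q.Prime ∧ l i ≤ log q ∧ log q ≤ h i)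
    (hsep : ∀ i, log (2 * n) + 2 * n * ∑ j ∈ Iio i, h j < l i)
    (hδ : ∀ i q, |δ i q| ≤ 1)
    (hQ0 : ∀ q ∈ Q0, q.Prime ∧ u ≤ log q ∧ log q ≤ u + η) (hne : Q0.Nonempty) (hη : η * J1 ≤ 1)
    (h1 : (J1 : ℝ) * n ≤ exp u) (h2 : (n.factorial : ℝ) * exp u ≤ (J : ℝ) ^ (e * n))
    (h3 : log n + J * ∑ i, h i ≤ u * w) (hε : 0 < ε) (hε1 : ε ≤ 1) (h4 : 8 * J1 ≤ ε * Q0.card)
    (hG : ∀ ρ ∈ G, 1 ≤ ρ ∧ (ρ : ℝ) ≤ R) (h5 : ε * R ≤ G.card) (h6 : 1 ≤ Ξ) (h7 : 4 * Ξ ≤ R)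
    (h8 : 2 * Ξ * R ^ 3 < exp (u * J1))
    (h9 : 16 * exp (J * ∑ i, h i + u * J1 + 1) * (exp (-u) + w / Q0.card) ^ J1 ≤
      Ξ * ε ^ 4 * ((ε / 8) ^ (2 * J1) * (ε / 4) ^ (2 * (n * J1))))
    (hb : ∀ ρ ∈ G, (Q0.card : ℝ) * (∏ i, ((Q i).card : ℝ)) * ε ≤ ∑ q ∈ Q0, ‖RS Q δ M (ρ * q)‖) :
    InvC M R (2 * Ξ) (16 * Ξ ^ 3) (2 * Ξ) G := by
  obtain ⟨S, hS, hT⟩ := topj' Q hJ (fun i => (hQ i).1) (G ×ˢ Q0) (fun x a =>
    ((∏ i, δ i (a i) : ℝ) : ℂ) * ee (M / (((x.1 * x.2 : ℕ) : ℝ) * ∏ i, (a i : ℝ))))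
  have hSp : ∀ i, ∀ q ∈ S i, q.Prime ∧ l i ≤ log q ∧ log q ≤ h i :=
    fun i q hq => (hQ i).2 q ((hS i).1 hq)
  have hJe : (0 : ℝ) < (J : ℝ) ^ e := by positivity
  have hQc : (0 : ℝ) < Q0.card := by exact_mod_cast hne.card_pos
  have hP : (0 : ℝ) < ∏ i, ((Q i).card : ℝ) := prod_pos (fun i _ => by
    exact_mod_cast lt_of_lt_of_le hJ (hQ i).1)
  rw [sum_product, sum_product] at hT
  change (∑ ρ ∈ G, ∑ q ∈ Q0, ‖RS Q δ M (ρ * q)‖) / _ ≤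
    (∑ ρ ∈ G, ∑ q ∈ Q0, ‖RS S δ M (ρ * q)‖) / _ at hT
  have t1 : (G.card : ℝ) * (Q0.card * ε) * (J : ℝ) ^ e ≤
      ∑ ρ ∈ G, ∑ q ∈ Q0, ‖RS S δ M (ρ * q)‖ := by
    rw [← le_div_iff₀ hJe]
    refine le_trans ?_ hT
    rw [le_div_iff₀ hP]
    have := sum_le_sum hb
    rw [sum_const, nsmul_eq_mul] at this
    linarith
  set G' := G.filter (fun ρ => ε * Q0.card / 2 * (J : ℝ) ^ e ≤ ∑ q ∈ Q0, ‖RS S δ M (ρ * q)‖)
    with hG'
  have t2 : ε * G.card / 2 ≤ G'.card := by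
    have a1 : ∀ ρ ∈ G, ∑ q ∈ Q0, ‖RS S δ M (ρ * q)‖ ≤
        (if ρ ∈ G' then (Q0.card : ℝ) * (J : ℝ) ^ e else 0) + ε * Q0.card / 2 * (J : ℝ) ^ e := by
      intro ρ hρ
      split_ifs with hm
      · have := sum_le_sum (s := Q0) (fun q _ => RS_le_I8 (fun i => (hS i).2) hδ M (ρ * q))
        rw [sum_const, nsmul_eq_mul] at this
        have : 0 ≤ ε * Q0.card / 2 * (J : ℝ) ^ e := by positivity
        linarith
      · rw [zero_add]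
        by_contra hc
        exact hm (mem_filter.2 ⟨hρ, (not_le.1 hc).le⟩)
    have a2 := sum_le_sum a1
    rw [sum_add_distrib, sum_ite_mem, inter_eq_right.2 (filter_subset _ _), sum_const, sum_const,
      nsmul_eq_mul, nsmul_eq_mul] at a2
    have a3 : (0 : ℝ) < Q0.card * (J : ℝ) ^ e := by positivity
    have a4 : ε * G.card / 2 * (Q0.card * (J : ℝ) ^ e) ≤ G'.card * (Q0.card * (J : ℝ) ^ e) := by
      linarith
    exact le_of_mul_le_mul_right a4 a3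
  have hY0 : 0 < YY S := prod_pos (fun i _ => pr_pos (fun p hp => (hSp i p hp).1.ne_zero))
  have hY0' : (0 : ℝ) < YY S := by exact_mod_cast hY0
  have hYl : log (YY S) ≤ J * ∑ i, h i := by
    unfold YY
    rw [Nat.cast_prod, log_prod (fun i _ => by
      exact_mod_cast (pr_pos (fun p hp => (hSp i p hp).1.ne_zero)).ne'), mul_sum]
    refine sum_le_sum (fun i _ => ?_)
    rw [log_pr (fun p hp => (hSp i p hp).1.ne_zero)]
    have := sum_le_sum (s := S i) (fun p hp => (hSp i p hp).2.2)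
    rwa [sum_const, nsmul_eq_mul, (hS i).2] at this
  have hn' : (1 : ℝ) ≤ n := by exact_mod_cast hn
  have hw0 : 0 ≤ w := by
    have b1 : 0 ≤ log (n : ℝ) := log_nonneg hn'
    have b2 : 0 ≤ log (YY S : ℝ) := log_nonneg (by exact_mod_cast hY0)
    exact ar3_I8 hu (by linarith)
  have hqe : ∀ q ∈ Q0, exp u ≤ q := fun q hq =>
    (le_log_iff_exp_le (by exact_mod_cast (hQ0 q hq).1.pos)).1 (hQ0 q hq).2.1
  have hw : ∀ m : ℕ, 0 < m → m ≤ n * YY S → ((Q0.filter fun q => q ∣ m).card : ℝ) ≤ w := by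
    intro m hm hm'
    have hpr : ∀ p ∈ Q0.filter (fun q => q ∣ m), p.Prime := fun p hp => (hQ0 p (mem_filter.1 hp).1).1
    have b1 : pr (Q0.filter fun q => q ∣ m) ≤ m :=
      Nat.le_of_dvd hm ((pr_dvd_iff hpr m).2 (fun p hp => (mem_filter.1 hp).2))
    have b2 : log (pr (Q0.filter fun q => q ∣ m)) ≤ log n + log (YY S) := by
      rw [← log_mul (by linarith) hY0'.ne']
      exact log_le_log (by exact_mod_cast pr_pos (fun p hp => (hpr p hp).ne_zero))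
        (by exact_mod_cast b1.trans hm')
    rw [log_pr (fun p hp => (hpr p hp).ne_zero)] at b2
    have b3 := sum_le_sum (s := Q0.filter fun q => q ∣ m) (f := fun _ => u)
      (fun p hp => (hQ0 p (mem_filter.1 hp).1).2.1)
    rw [sum_const, nsmul_eq_mul] at b3
    exact ar3_I8 hu (by linarith)
  have hGr : ((Gr n S).card : ℝ) = (J : ℝ) ^ (e * n) := by
    simp [Gr, Fintype.card_piFinset, fun i => (hS i).2, pow_mul]
  have hd : (col (Gr n S) (tt S) : ℝ) ≤ exp (-u) * ((Gr n S).card : ℝ) ^ 2 := by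
    have b1 : (col (Gr n S) (tt S) : ℝ) ≤ n.factorial * (Gr n S).card := by
      exact_mod_cast diag S l h hSp hsep
    refine b1.trans ?_
    rw [hGr, sq, ← mul_assoc]
    refine mul_le_mul_of_nonneg_right ?_ (by positivity)
    rw [exp_neg, ← div_eq_inv_mul, le_div_iff₀ (exp_pos _)]
    exact h2
  obtain ⟨q, hq, hC⟩ := inv_core (G := G') (M := M) hJ
    (fun i => ⟨(hS i).2, fun p hp => (hSp i p hp).1.ne_zero⟩) hδ
    (fun q hq => ⟨(hQ0 q hq).1, by exact_mod_cast h1.trans (hqe q hq)⟩) hne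
    (fun ρ hρ => by have := (hG ρ (mem_filter.1 hρ).1).1; omega) hε hε1 hw0 hw hd h4 rfl
    (fun ρ hρ => (mem_filter.1 hρ).2)
  have hqm : ∀ j, q j ∈ Q0 := Fintype.mem_piFinset.1 (mem_filter.1 hq).1
  have hB0 : 0 < ∏ j, q j := prod_pos (fun j _ => (hQ0 _ (hqm j)).1.pos)
  have hBl : exp (u * J1) ≤ ((∏ j, q j : ℕ) : ℝ) := by
    rw [Nat.cast_prod, mul_comm, exp_nat_mul]
    have := prod_le_prod (s := univ) (f := fun _ : Fin J1 => exp u) (fun _ _ => (exp_pos _).le)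
      (fun j _ => hqe _ (hqm j))
    simpa using this
  have hBu : ((∏ j, q j : ℕ) : ℝ) ≤ exp (u * J1 + 1) := by
    have b1 : ((∏ j, q j : ℕ) : ℝ) ≤ exp (J1 * (u + η)) := by
      rw [Nat.cast_prod, exp_nat_mul]
      have := prod_le_prod (s := univ) (f := fun j => (q j : ℝ)) (g := fun _ : Fin J1 => exp (u + η))
        (fun _ _ => Nat.cast_nonneg _) (fun j _ => (log_le_iff_le_exp
          (by exact_mod_cast (hQ0 _ (hqm j)).1.pos)).1 (hQ0 _ (hqm j)).2.2)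
      simpa using this
    exact b1.trans (exp_le_exp.2 (by linarith))
  set W := YY S * ∏ j, q j with hW
  have hW0 : 0 < W := Nat.mul_pos hY0 hB0
  have hW0' : (0 : ℝ) < W := by exact_mod_cast hW0
  have hWu : (W : ℝ) ≤ exp (J * ∑ i, h i + u * J1 + 1) := by
    rw [add_assoc, exp_add, hW, Nat.cast_mul]
    exact mul_le_mul ((log_le_iff_le_exp hY0').1 hYl) hBu (Nat.cast_nonneg _) (exp_pos _).le
  set lam0 := (ε / 8) ^ (2 * J1) * (ε / 4) ^ (2 * (n * J1)) / (exp (-u) + w / Q0.card) ^ J1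
    with hl0
  have hD : 0 < (exp (-u) + w / Q0.card) ^ J1 := by positivity
  have hl : 0 < lam0 := by positivity
  have k1 : 16 * (W : ℝ) ≤ Ξ * ε ^ 4 * lam0 := by
    rw [hl0, ← mul_div_assoc, le_div_iff₀ hD]
    exact le_trans (mul_le_mul_of_nonneg_right (by linarith) hD.le) h9
  have hR0 : 0 < R := lt_of_lt_of_le (mul_pos four_pos (lt_of_lt_of_le one_pos h6)) h7
  refine rat M hW0 (Dvd.intro_left _ rfl) h6 h7 (h8.trans_le hBl) hG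
    ((filter_subset _ _).trans (product_subset_product (filter_subset _ _) (filter_subset _ _)))
    (le_trans (ar1_I8 hε hR0 h6 hW0' hl h5 t2 k1) hC) (fun z hz => ?_)
  obtain ⟨v, hv⟩ := (mem_filter.1 hz).2
  exact ⟨v, hv.trans (ar2_I8 hε hε1 h6 hW0' hl k1)⟩

end Vale.Agent.P013
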