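import Vale.Agent.P013.I8

namespace Vale.Agent.P013

open Finset Real Filter

open Classical

theorem i9_h2 {x u : ℝ} {e n J : ℕ} (hx : 10 ≤ x) (he : (36 : ℝ) ≤ e) (hn1 : 4 * u / (e * x) ≤ n)
    (hn2 : (n : ℝ) ≤ x ^ 3) (hJ : exp (x / 3) ≤ J) :
    (n.factorial : ℝ) * exp u ≤ (J : ℝ) ^ (e * n) := by
  have a1 : (n.factorial : ℝ) ≤ (n : ℝ) ^ n := by exact_mod_cast Nat.factorial_le_pow n
  have a2 : x ^ 3 ≤ exp (3 * x) := by
    rw [show 3 * x = ((3 : ℕ) : ℝ) * x by norm_num, exp_nat_mul]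
    exact pow_le_pow_left₀ (by linarith) (by linarith [add_one_le_exp x]) 3
  have a3 : (n : ℝ) ^ n ≤ exp (n * (3 * x)) := by
    rw [exp_nat_mul]
    exact pow_le_pow_left₀ (Nat.cast_nonneg _) (hn2.trans a2) n
  have a4 : exp (((e * n : ℕ) : ℝ) * (x / 3)) ≤ (J : ℝ) ^ (e * n) := by
    rw [exp_nat_mul]
    exact pow_le_pow_left₀ (exp_pos _).le hJ _
  rw [div_le_iff₀ (by positivity)] at hn1
  refine le_trans ?_ a4
  calc _ ≤ exp (n * (3 * x)) * exp u := by gcongr; exact a1.trans a3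
    _ ≤ _ := by
      rw [← exp_add, exp_le_exp]
      push_cast
      have : 0 ≤ (n : ℝ) * x := by positivity
      nlinarith

theorem i9_sep {x : ℝ} {e n : ℕ} (hx : 2 * e + 4 ≤ x) (hn : 0 < n) (hn2 : (n : ℝ) ≤ x ^ 3)
    (i : Fin e) : log (2 * n) + 2 * n * ∑ j ∈ Iio i, x ^ (8 * (j.val + 1) + 4) <
      x ^ (8 * (i.val + 1) + 2) - 1 := by
  have e0 : (0 : ℝ) ≤ e := Nat.cast_nonneg _
  have x1 : 1 ≤ x := by linarith
  have n0 : (0 : ℝ) < n := by exact_mod_cast hn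
  have a1 : log (2 * n) ≤ 2 * n := (log_le_sub_one_of_pos (by positivity)).trans (by linarith)
  have a2 : ∑ j ∈ Iio i, x ^ (8 * (j.val + 1) + 4) ≤ e * x ^ (8 * i.val + 4) := by
    refine (sum_le_card_nsmul _ _ (x ^ (8 * i.val + 4)) fun j hj => ?_).trans ?_
    · have : j.val < i.val := Fin.lt_def.1 (mem_Iio.1 hj)
      exact pow_le_pow_right₀ x1 (by omega)
    · rw [nsmul_eq_mul]
      gcongr
      simpa using card_le_univ (Iio i)
  have a3 : 1 ≤ x ^ (8 * i.val + 4) := one_le_pow₀ x1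
  have a4 : x ^ (8 * (i.val + 1) + 2) = x ^ 3 * (x ^ 3 * x ^ (8 * i.val + 4)) := by ring
  have a5 : x ≤ x ^ 3 := le_self_pow₀ x1 (by norm_num)
  set P := x ^ (8 * i.val + 4)
  set c := x ^ 3
  have a6 : 2 * n * ∑ j ∈ Iio i, x ^ (8 * (j.val + 1) + 4) ≤ 2 * c * (e * P) := by
    gcongr
  have a7 : c ≤ c * P := le_mul_of_one_le_right (by linarith) a3
  have a8 : (2 * e + 4) * (c * P) ≤ c * (c * P) := by
    gcongr
    linarith
  rw [a4]
  nlinarith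

theorem i9_h9 {x L u A θ N : ℝ} {K K' n J1 : ℕ} (hx : 10 ≤ x) (hL : exp x = L)
    (hN : exp u / L ^ K' ≤ N)
    (h : 4 + A + (K' + 2) * x * J1 + 4 * K * x + 2 * J1 * ((K + 1) * x) +
      2 * (n * J1) * ((K + 1) * x) ≤ θ / 4 * L) :
    16 * exp (A + u * J1 + 1) * (exp (-u) + L / N) ^ J1 ≤
      exp (θ / 4 * L) * (1 / L ^ K) ^ 4 *
        ((1 / L ^ K / 8) ^ (2 * J1) * (1 / L ^ K / 4) ^ (2 * (n * J1))) := by
  have L1 : 11 ≤ L := by linarith [add_one_le_exp x]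
  have hp : ∀ k : ℕ, L ^ k = exp (k * x) := fun k => by rw [exp_nat_mul, hL]
  have a1 : 1 / L ^ K = exp (-(K * x)) := by rw [hp, exp_neg, one_div]
  have a2 : exp (-((K + 1) * x)) ≤ 1 / L ^ K / 8 := by
    rw [a1, show -((K + 1) * x) = -(K * x) - x by ring, exp_sub, hL]
    gcongr
    linarith
  have a3 : exp (-((K + 1) * x)) ≤ 1 / L ^ K / 4 := by
    refine a2.trans ?_
    gcongr
    norm_num
  have N0 : 0 < exp u / L ^ K' := by positivity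
  have a4 : exp (-u) + L / N ≤ exp (-u + (K' + 2) * x) := by
    have b1 : L / N ≤ exp (-u) * L ^ (K' + 1) := by
      refine (div_le_div_of_nonneg_left (by linarith) N0 hN).trans (le_of_eq ?_)
      rw [exp_neg]
      field_simp
      ring
    have b2 : 1 ≤ L ^ (K' + 1) := one_le_pow₀ (by linarith)
    have b3 : exp (-u + (K' + 2) * x) = exp (-u) * (L ^ (K' + 1) * L) := by
      rw [exp_add, ← pow_succ, hp]
      push_cast
      ring_nf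
    rw [b3]
    have b4 : 1 + L ^ (K' + 1) ≤ L ^ (K' + 1) * L := by nlinarith
    have b5 := mul_le_mul_of_nonneg_left b4 (exp_pos (-u)).le
    linarith
  have a5 : (16 : ℝ) ≤ exp 3 := by
    have := exp_one_gt_d9
    rw [show (3 : ℝ) = ((3 : ℕ) : ℝ) * 1 by norm_num, exp_nat_mul]
    calc (16 : ℝ) ≤ 2.7 ^ 3 := by norm_num
      _ ≤ _ := by gcongr; linarith
  have N1 : 0 < N := N0.trans_le hN
  calc _ ≤ exp 3 * exp (A + u * J1 + 1) * exp (-u + (K' + 2) * x) ^ J1 := by gcongr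
    _ ≤ exp (θ / 4 * L) * exp (-(K * x)) ^ 4 * (exp (-((K + 1) * x)) ^ (2 * J1) *
        exp (-((K + 1) * x)) ^ (2 * (n * J1))) := by
      simp only [← exp_nat_mul, ← exp_add, exp_le_exp]
      push_cast
      linarith
    _ ≤ _ := by
      rw [← a1]
      gcongr

theorem i9_num {x L u A θ e K K' n J1 : ℝ} (h0 : 0 < θ) (hx : 10 ≤ x) (hK : 0 ≤ K) (hK' : 0 ≤ K')
    (hL : 0 < L) (he : 5000 * (K + 1) / θ ≤ e) (hu : x ^ 2 - 1 ≤ u) (hn0 : 0 ≤ n)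
    (hn : n ≤ 4 * u / (e * x) + 1) (hJ0 : 0 ≤ J1) (hJ : J1 ≤ 6 * L / u)
    (hT : 1200 * (K' + 2 + 4 * (K + 1)) / θ ≤ x) (hA : A ≤ θ / 100 * L)
    (hc : (4 + 4 * K) * x ^ 1 ≤ θ / 100 * L) :
    4 + A + (K' + 2) * x * J1 + 4 * K * x + 2 * J1 * ((K + 1) * x) +
      2 * (n * J1) * ((K + 1) * x) ≤ θ / 4 * L := by
  have u0 : 0 < u := by nlinarith
  have e0 : 0 < e := lt_of_lt_of_le (by positivity) he
  rw [div_le_iff₀ h0] at he hT
  rw [le_div_iff₀ u0] at hJ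
  have a0 : x * x ≤ 2 * u := by nlinarith
  have a1 : x * (x * J1) ≤ 12 * L := by nlinarith [mul_le_mul_of_nonneg_right a0 hJ0]
  have a2 : (K' + 2 + 4 * (K + 1)) * (x * J1) ≤ θ / 100 * L := by
    have b1 : 0 ≤ x * J1 := by positivity
    have b2 := mul_le_mul_of_nonneg_right hT b1
    have b3 := mul_le_mul_of_nonneg_left a1 h0.le
    nlinarith
  have a3 : n * x ≤ 4 * u / e + x := by
    have := mul_le_mul_of_nonneg_right hn (by linarith : 0 ≤ x)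
    refine this.trans (le_of_eq ?_)
    field_simp
  have a4 : (K + 1) * (4 * u / e * J1) ≤ θ / 200 * L := by
    have b1 : 4 * u / e * J1 ≤ 24 * L / e := by
      rw [div_mul_eq_mul_div]
      exact div_le_div_of_nonneg_right (by linarith) e0.le
    have b2 : (K + 1) * (24 * L / e) ≤ θ / 200 * L := by
      rw [← mul_div_assoc, div_le_iff₀ e0]
      have := mul_le_mul_of_nonneg_right he hL.le
      have b3 : 0 ≤ (K + 1) * L := by positivity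
      nlinarith
    exact (mul_le_mul_of_nonneg_left b1 (by linarith)).trans b2
  have a5 : (K + 1) * (n * x * J1) ≤ (K + 1) * ((4 * u / e + x) * J1) := by gcongr
  have a6 : 0 ≤ θ * L := by positivity
  nlinarith

theorem i9_n {x u e : ℝ} (hx : 10 ≤ x) (he : 5000 ≤ e) (u0 : 0 < u) (u2 : u ≤ x ^ 4) :
    ∃ n : ℕ, 0 < n ∧ 4 * u / (e * x) ≤ n ∧ (n : ℝ) ≤ 4 * u / (e * x) + 1 ∧ (n : ℝ) ≤ x ^ 3 := by
  have n0 : 0 < 4 * u / (e * x) := by positivity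
  have n2 := (Nat.ceil_lt_add_one n0.le).le
  have x3 : 1000 ≤ x ^ 3 := by
    calc (1000 : ℝ) = 10 ^ 3 := by norm_num
      _ ≤ _ := by gcongr
  refine ⟨⌈4 * u / (e * x)⌉₊, Nat.ceil_pos.2 n0, Nat.le_ceil _, n2, ?_⟩
  have : 4 * u / (e * x) ≤ x ^ 3 / 2 := by
    rw [div_le_iff₀ (by positivity)]
    have b1 : 0 ≤ x ^ 4 := by positivity
    have b2 : x ^ 3 / 2 * (e * x) = e / 2 * x ^ 4 := by ring
    rw [b2]
    nlinarith
  linarith

theorem i9_J {x L : ℝ} (hx : 10 ≤ x) (hL : exp x = L) :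
    ∃ J : ℕ, 0 < J ∧ exp (x / 3) ≤ J ∧ (J : ℝ) ≤ √L ∧ (J : ℝ) ≤ L := by
  have L1 : 11 ≤ L := by linarith [add_one_le_exp x]
  have hs : √L = exp (x / 2) := by rw [← hL, ← exp_half]
  have s1 : exp (x / 3) * 2 ≤ √L := by
    rw [hs, show x / 2 = x / 3 + x / 6 by ring, exp_add]
    gcongr
    linarith [add_one_le_exp (x / 6)]
  have s2 : 1 ≤ exp (x / 3) := one_le_exp (by linarith)
  have J1' : (⌊√L⌋₊ : ℝ) ≤ √L := Nat.floor_le (sqrt_nonneg _)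
  have J2 : exp (x / 3) ≤ ⌊√L⌋₊ := by linarith [Nat.lt_floor_add_one (√L)]
  have sL : √L * √L = L := mul_self_sqrt (by linarith)
  exact ⟨⌊√L⌋₊, by exact_mod_cast (show (0 : ℝ) < ⌊√L⌋₊ by linarith), J2, J1', by nlinarith⟩

theorem i9_J1 {L u : ℝ} (u0 : 99 ≤ u) (uL : u ≤ L) :
    ∃ J1 : ℕ, 5 * L ≤ J1 * u ∧ (J1 : ℝ) ≤ 6 * L / u ∧ (J1 : ℝ) ≤ L := by
  have m1 : 5 * L / u ≤ ⌈5 * L / u⌉₊ := Nat.le_ceil _
  have L0 : 0 < L := by linarith
  have m2 : (⌈5 * L / u⌉₊ : ℝ) ≤ 5 * L / u + 1 := (Nat.ceil_lt_add_one (by positivity)).le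
  have m3 : (⌈5 * L / u⌉₊ : ℝ) ≤ 6 * L / u := by
    have : 1 ≤ L / u := (one_le_div (by linarith)).2 uL
    have b : 6 * L / u = 5 * L / u + L / u := by ring
    linarith
  refine ⟨⌈5 * L / u⌉₊, (div_le_iff₀ (by linarith)).1 m1, m3, m3.trans ?_⟩
  rw [div_le_iff₀ (by linarith)]
  nlinarith

theorem i9_A {x L θ J : ℝ} {e : ℕ} (h0 : 0 < θ) (hx : 10 ≤ x) (L0 : 0 ≤ L) (hJ : J ≤ √L)
    (hb : 100 * e / θ * x ^ (8 * e + 4) ≤ L ^ (1 / 2 : ℝ)) :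
    J * ∑ i : Fin e, x ^ (8 * (i.val + 1) + 4) ≤ θ / 100 * L := by
  have b1 : ∑ i : Fin e, x ^ (8 * (i.val + 1) + 4) ≤ e * x ^ (8 * e + 4) := by
    refine (sum_le_card_nsmul _ _ (x ^ (8 * e + 4)) fun j _ => ?_).trans ?_
    · have := j.2
      exact pow_le_pow_right₀ (by linarith) (by omega)
    · simp
  rw [← sqrt_eq_rpow] at hb
  have b2 : e * x ^ (8 * e + 4) ≤ θ / 100 * √L := by
    have := mul_le_mul_of_nonneg_left hb (show 0 ≤ θ / 100 by positivity)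
    refine le_trans (le_of_eq ?_) this
    field_simp
  calc _ ≤ √L * (θ / 100 * √L) :=
        mul_le_mul hJ (b1.trans b2) (sum_nonneg fun _ _ => by positivity) (sqrt_nonneg _)
    _ = θ / 100 * (√L * √L) := by ring
    _ = _ := by rw [mul_self_sqrt L0]

theorem i9_conc {M : ℤ} {R Ξ : ℝ} {G : Finset ℕ} (hΞ : 16 ≤ Ξ) (hR : 0 ≤ R)
    (h : InvC M R (2 * Ξ) (16 * Ξ ^ 3) (2 * Ξ) G) : InvC M R (Ξ ^ 4) (Ξ ^ 4) (Ξ ^ 4) G := by
  obtain ⟨V, U, C, c1, c2, c3, c4, c5, c6⟩ := h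
  have b2 : 16 * Ξ ^ 3 ≤ Ξ ^ 4 := by
    rw [pow_succ' Ξ 3]
    gcongr
  have b3 : 2 * Ξ ≤ Ξ ^ 4 := by
    have : Ξ ≤ Ξ ^ 3 := le_self_pow₀ (by linarith) (by norm_num)
    linarith
  refine ⟨V, U, C, c1, c2.trans b3, c3.trans (by gcongr), c4, le_trans ?_ c5, c6⟩
  gcongr

theorem i9_h1 {x L u n J1 : ℝ} (hx : 10 ≤ x) (hL : exp x = L) (hd : x ^ 4 ≤ L)
    (u1 : x ^ 2 - 1 ≤ u) (n0 : 0 ≤ n) (n3 : n ≤ x ^ 3) (m4 : J1 ≤ L) : J1 * n ≤ exp u := by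
  have b0 : x ^ 3 ≤ x ^ 4 := pow_le_pow_right₀ (by linarith) (by norm_num)
  have L0 : 0 < L := hL ▸ exp_pos x
  calc J1 * n ≤ L * L := mul_le_mul m4 (by linarith) n0 L0.le
    _ = exp (x + x) := by rw [exp_add, hL]
    _ ≤ _ := by
      rw [exp_le_exp]
      nlinarith

theorem i9_h3 {x L u θ A n : ℝ} (hx : 10 ≤ x) (hd : x ^ 4 ≤ L) (h1 : θ ≤ 1) (u0 : 99 ≤ u)
    (n0 : 0 < n) (n3 : n ≤ x ^ 3) (hA : A ≤ θ / 100 * L) : log n + A ≤ u * L := by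
  have b0 : x ^ 3 ≤ x ^ 4 := pow_le_pow_right₀ (by linarith) (by norm_num)
  have b2 : log n ≤ n := (log_le_sub_one_of_pos n0).trans (by linarith)
  have L0 : 0 < L := by linarith
  nlinarith

theorem i9_h4 {x L u J1 N : ℝ} {K K' : ℕ} (hx : 10 + K + K' ≤ x) (hL : exp x = L)
    (u1 : x ^ 2 - 1 ≤ u) (m0 : 0 ≤ J1) (m4 : J1 ≤ L) (hN : exp u / L ^ K' ≤ N) :
    8 * J1 ≤ 1 / L ^ K * N := by
  have K0 : (0 : ℝ) ≤ K := Nat.cast_nonneg _
  have K0' : (0 : ℝ) ≤ K' := Nat.cast_nonneg _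
  have L1 : 11 ≤ L := by linarith [add_one_le_exp x]
  have hp : ∀ k : ℕ, L ^ k = exp (k * x) := fun k => by rw [exp_nat_mul, hL]
  calc 8 * J1 ≤ L * L := by gcongr; linarith
    _ ≤ 1 / L ^ K * (exp u / L ^ K') := by
      rw [div_mul_div_comm, one_mul, le_div_iff₀ (by positivity), ← sq, ← pow_add, ← pow_add, hp,
        exp_le_exp]
      push_cast
      nlinarith
    _ ≤ _ := by gcongr

theorem i9_h7 {x L θ R : ℝ} (hx : 10 ≤ x) (hd : x ^ 4 ≤ L) (h1 : θ ≤ 1)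
    (R0 : exp (1 / 2 * L) ≤ R) : 4 * exp (θ / 4 * L) ≤ R := by
  have b1 : (10 : ℝ) ^ 4 ≤ x ^ 4 := by gcongr
  refine le_trans ?_ R0
  rw [show 1 / 2 * L = 1 / 4 * L + 1 / 4 * L by ring, exp_add]
  gcongr
  · linarith [add_one_le_exp (1 / 4 * L)]
  · linarith

theorem i9_h8 {L θ R u J1 : ℝ} (L1 : 11 ≤ L) (h1 : θ ≤ 1) (R0 : 0 < R) (R2 : R ≤ exp (1.1 * L))
    (m1 : 5 * L ≤ J1 * u) : 2 * exp (θ / 4 * L) * R ^ 3 < exp (u * J1) := by
  calc 2 * exp (θ / 4 * L) * R ^ 3 < exp L * exp (1 / 4 * L) * exp (1.1 * L) ^ 3 := by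
        refine mul_lt_mul (mul_lt_mul ?_ ?_ (exp_pos _) (exp_pos _).le) ?_ (by positivity)
          (by positivity)
        · linarith [add_one_le_exp L]
        · gcongr
        · gcongr
    _ ≤ _ := by
      rw [← exp_nat_mul, ← exp_add, ← exp_add, exp_le_exp]
      push_cast
      linarith

theorem inv {θ : ℝ} (h0 : 0 < θ) (h1 : θ ≤ 1) (K : ℕ) : ∃ e : ℕ, ∀ K' : ℕ, ∀ᶠ y : ℕ in atTop,
    ∀ (M : ℤ) (u R : ℝ) (Q0 : Finset ℕ) (Q : Fin e → Finset ℕ) (δ : Fin e → ℕ → ℝ) (G : Finset ℕ),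
    InvH K K' e y M u R Q0 Q δ G →
    InvC M R ((y : ℝ) ^ θ) ((y : ℝ) ^ θ) ((y : ℝ) ^ θ) G := by
  obtain ⟨e, he⟩ := exists_nat_ge (5000 * ((K : ℝ) + 1) / θ)
  refine ⟨e, fun K' => ?_⟩
  have K0 : (0 : ℝ) ≤ K := Nat.cast_nonneg _
  have K0' : (0 : ℝ) ≤ K' := Nat.cast_nonneg _
  have he5 : (5000 : ℝ) ≤ e := by
    refine le_trans ?_ he
    rw [le_div_iff₀ h0]
    nlinarith
  filter_upwards [L2_top.eventually_ge_atTop (10 + 2 * e + K + K'),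
    L2_top.eventually_ge_atTop (1200 * (K' + 2 + 4 * (K + 1)) / θ),
    ev_L2 (100 * e / θ) (8 * e + 4) (ε := 1 / 2) (by norm_num),
    ev_lin (4 + 4 * K) 1 (ε := θ / 100) (by positivity), ev_lin 1 4 one_pos,
    eventually_ge_atTop 2] with y hT hT' hb hc hd hy
  intro M u R Q0 Q δ G ⟨u1, u2, hQ0, hN, hQ, hδ, R1, R2, hG, hGc, hB⟩
  have hL := exp_L2 hy
  have hY := exp_L1 (show y ≠ 0 by omega)
  generalize L1 y = L at *
  generalize L2 y = x at *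
  rw [one_mul, one_mul] at hd
  have hx : 10 ≤ x := by linarith
  have L1 : 11 ≤ L := by linarith [add_one_le_exp x]
  have u0 : 99 ≤ u := by nlinarith only [hx, u1]
  have uL : u ≤ L := u2.trans hd
  have hr : ∀ s : ℝ, (y : ℝ) ^ s = exp (s * L) := fun s => by rw [← hY, ← exp_mul, mul_comm]
  obtain ⟨J, J0, J2, J3, J4⟩ := i9_J hx hL
  obtain ⟨n, n0, n1, n2, n3⟩ := i9_n hx he5 (by linarith) u2
  obtain ⟨J1, m1, m3, m4⟩ := i9_J1 u0 uL
  have hA := i9_A h0 hx (by linarith) J3 hb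
  have hΞ : 16 ≤ exp (θ / 4 * L) := by
    have := add_one_le_exp (θ / 4 * L)
    nlinarith only [this, hc, hx, K0]
  have N0 : 0 < exp u / L ^ K' := by positivity
  have R0 : exp (1 / 2 * L) ≤ R := by rwa [sqrt_eq_rpow, hr] at R1
  have Rp : 0 < R := (exp_pos _).trans_le R0
  rw [hr] at R2
  have key := inv_fin (e := e) (n := n) (J := J) (J1 := J1) (Q := Q) (Q0 := Q0) (G := G) (δ := δ)
    (M := M) (u := u) (η := 1 / L) (w := L) (ε := 1 / L ^ K) (R := R) (Ξ := exp (θ / 4 * L))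
    (l := fun i => x ^ (8 * (i.val + 1) + 2) - 1) (h := fun i => x ^ (8 * (i.val + 1) + 4))
    J0 n0 (by linarith)
    (fun i => ⟨by exact_mod_cast J4.trans (hQ i).1, (hQ i).2⟩)
    (i9_sep (by linarith) n0 n3) hδ hQ0 (card_pos.1 (by exact_mod_cast N0.trans_le hN))
    (by rw [one_div, inv_mul_le_iff₀ (by linarith)]; linarith)
    (i9_h1 hx hL hd u1 (Nat.cast_nonneg _) n3 m4)
    (i9_h2 hx (by linarith) n1 n3 J2) (i9_h3 hx hd h1 u0 (by exact_mod_cast n0) n3 hA)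
    (by positivity)
    (by rw [div_le_one (by positivity)]; exact one_le_pow₀ (by linarith))
    (i9_h4 (by linarith) hL u1 (Nat.cast_nonneg _) m4 hN) hG
    (by rwa [one_div, mul_comm, ← div_eq_mul_inv]) (by linarith) (i9_h7 hx hd h1 R0)
    (i9_h8 L1 h1 Rp R2 m1)
    (i9_h9 hx hL hN (i9_num h0 hx K0 K0' (by linarith) he u1 (Nat.cast_nonneg _) n2
      (Nat.cast_nonneg _) m3 hT' hA hc))
    (fun ρ hρ => by rw [mul_one_div]; exact hB ρ hρ)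
  have b1 : (y : ℝ) ^ θ = exp (θ / 4 * L) ^ 4 := by
    rw [hr, ← exp_nat_mul]
    congr 1
    push_cast
    ring
  rw [b1]
  exact i9_conc hΞ Rp.le key

end Vale.Agent.P013
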