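import Vale.Agent.P013.SM3

namespace Vale.Agent.P013

open Finset Real Filter

open Classical

theorem mla_cover {α γ : Type} (A : Finset α) (T : Finset γ) (f : α → ℝ) (g : γ → ℝ)
    (hg : ∀ x ∈ T, 0 ≤ g x) (φ : γ → α) (h : ∀ a ∈ A, ∃ x ∈ T, φ x = a ∧ f a ≤ g x) :
    ∑ a ∈ A, f a ≤ ∑ x ∈ T, g x := by
  calc ∑ a ∈ A, f a ≤ ∑ a ∈ A, ∑ x ∈ T.filter (fun x => φ x = a), g x := by
        refine sum_le_sum fun a ha => ?_
        obtain ⟨x, hx, h1, h2⟩ := h a ha
        exact h2.trans (single_le_sum (f := g) (fun x hx => hg x (mem_filter.1 hx).1)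
          (mem_filter.2 ⟨hx, h1⟩))
    _ = ∑ x ∈ T.filter (fun x => φ x ∈ A), g x := by
        rw [← sum_fiberwise_of_maps_to (s := T.filter fun x => φ x ∈ A) (t := A) (g := φ)
          fun x hx => (mem_filter.1 hx).2]
        refine sum_congr rfl fun a ha => sum_congr ?_ fun _ _ => rfl
        rw [filter_filter]
        exact filter_congr fun x _ => ⟨fun h => ⟨h ▸ ha, h⟩, fun h => h.2⟩
    _ ≤ _ := sum_le_sum_of_subset_of_nonneg (filter_subset _ _) fun x hx _ => hg x hx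

theorem mla_peel {S : Finset ℕ} (hS : S.Nonempty) :
    ∃ a R, S = insert a R ∧ ∀ p ∈ R, p < a :=
  ⟨S.max' hS, S.erase (S.max' hS), (insert_erase (S.max'_mem hS)).symm, fun p hp =>
    lt_of_le_of_ne (S.le_max' p (mem_of_mem_erase hp)) (ne_of_mem_erase hp)⟩

theorem mla_up {a p : ℕ} {R : Finset ℕ} (hp : p ≤ a) : up (insert a R) p = insert a (up R p) := by
  rw [up, filter_insert, if_pos hp, up]

theorem mla_pr {a : ℕ} {R : Finset ℕ} (h : ∀ p ∈ R, p < a) : pr (insert a R) = a * pr R := by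
  rw [pr, prod_insert fun h' => lt_irrefl _ (h a h'), pr]

theorem mla_log {a : ℕ} {R : Finset ℕ} (h : ∀ p ∈ R, p < a) (ha : a ≠ 0) (hR : ∀ p ∈ R, p ≠ 0) :
    log (pr (insert a R)) = log a + log (pr R) := by
  rw [mla_pr h, Nat.cast_mul, log_mul (by exact_mod_cast ha) (by exact_mod_cast (pr_pos hR).ne')]

theorem mla_top {β : ℝ} {S : Finset ℕ} (hS : ∀ p ∈ S, p.Prime) (hN : Near 1 β S)
    (h2 : 2 ≤ S.card) : ∀ p ∈ S, 3 * log p ≤ β := by
  obtain ⟨a, R, rfl, hR⟩ := mla_peel (card_pos.1 (by omega : 0 < S.card))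
  have ha : a ∉ R := fun h' => lt_irrefl _ (hR a h')
  rw [card_insert_of_notMem ha] at h2
  obtain ⟨q, hq⟩ := card_pos.1 (by omega : 0 < R.card)
  have h1 : up (insert a R) a = {a} := by
    rw [mla_up le_rfl, up, filter_eq_empty_iff.2 fun p hp => not_le.2 (hR p hp)]
    rfl
  have h3 := hN.2 a (mem_insert_self _ _) ⟨q, mem_insert_of_mem hq, hR q hq⟩ (by rw [h1]; rfl)
  rw [h1, pr, prod_singleton] at h3
  intro p hp
  have h4 : log p ≤ log a := by
    refine log_le_log (by exact_mod_cast (hS p hp).pos) ?_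
    rcases mem_insert.1 hp with rfl | hp
    · exact le_rfl
    · exact_mod_cast (hR p hp).le
  linarith

theorem mla_card {β b : ℝ} {S : Finset ℕ} (hβ : 2 ≤ β) (hb : b < β / 4)
    (hS : ∀ p ∈ S, p.Prime ∧ log p ≤ 2 * β / 3) (hN : Near 1 β S) (h : β - b ≤ log (pr S)) :
    3 ≤ S.card := by
  by_contra hc
  rw [log_pr fun p hp => (hS p hp).1.ne_zero] at h
  rcases lt_or_ge S.card 2 with h2 | h2
  · have h3 := sum_le_card_nsmul S (fun p : ℕ => log p) _ fun p hp => (hS p hp).2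
    have h4 : (S.card : ℝ) ≤ 1 := by exact_mod_cast (by omega : S.card ≤ 1)
    rw [nsmul_eq_mul] at h3
    nlinarith
  · have h3 := sum_le_card_nsmul S (fun p : ℕ => log p) (β / 3) fun p hp => by
      have := mla_top (fun p hp => (hS p hp).1) hN h2 p hp
      linarith
    rw [show S.card = 2 by omega, nsmul_eq_mul] at h3
    push_cast at h3
    linarith

theorem mla_three : ∃ C : ℝ, 0 < C ∧ ∀ (β b : ℝ) (A : Finset (Finset ℕ)), 2 ≤ β → 0 ≤ b →
    b < β / 4 → (∀ S ∈ A, (∀ p ∈ S, p.Prime) ∧ Near 1 β S ∧ β - b ≤ log (pr S) ∧ S.card = 3) →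
    ∑ S ∈ A, 1 / (pr S : ℝ) ≤ C * (b + 1) ^ 3 / β ^ 3 := by
  obtain ⟨C, hC, hw⟩ := win
  refine ⟨(12 * C) ^ 3, by positivity, fun β b A hβ hb hb' hA => ?_⟩
  set W := (PL β).filter fun p : ℕ => β / 3 - b ≤ log p ∧ log p ≤ β / 3 with hW
  have h1 : rc W ≤ C * (b + 1) / (β / 12) := hw _ (β / 3 - b) b W (by linarith) hb fun p hp => by
    obtain ⟨h1, h2, h3⟩ := mem_filter.1 hp
    exact ⟨(mem_PL.1 h1).1, by linarith, h2, by linarith⟩
  have h0 : 0 ≤ rc W := sum_nonneg fun _ _ => by positivity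
  have h2 := mla_cover A (W ×ˢ W ×ˢ W) (fun S => 1 / (pr S : ℝ))
    (fun x => 1 / (x.1 : ℝ) * (1 / (x.2.1 : ℝ) * (1 / (x.2.2 : ℝ)))) (fun _ _ => by positivity)
    (fun x => {x.1, x.2.1, x.2.2}) fun S hS => by
      obtain ⟨h1, h2, h3, h4⟩ := hA S hS
      have ht := mla_top h1 h2 (by omega)
      rw [log_pr fun p hp => (h1 p hp).ne_zero] at h3
      obtain ⟨x, y, z, hxy, hxz, hyz, rfl⟩ := card_eq_three.1 h4
      have hx := ht x (by simp)
      have hy := ht y (by simp)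
      have hz := ht z (by simp)
      rw [sum_insert (by simp [hxy, hxz]), sum_pair hyz] at h3
      have hm : ∀ p ∈ ({x, y, z} : Finset ℕ), β / 3 - b ≤ log p → p ∈ W := fun p hp h =>
        mem_filter.2 ⟨mem_PL.2 ⟨h1 p hp, by linarith [ht p hp]⟩, h, by linarith [ht p hp]⟩
      refine ⟨(x, y, z), mem_product.2 ⟨hm x (by simp) (by linarith), mem_product.2
        ⟨hm y (by simp) (by linarith), hm z (by simp) (by linarith)⟩⟩, rfl, le_of_eq ?_⟩
      simp only [pr]
      rw [prod_insert (by simp [hxy, hxz]), prod_pair hyz]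
      push_cast
      rw [one_div_mul_one_div, one_div_mul_one_div]
  have h3 : ∑ x ∈ W ×ˢ W ×ˢ W, 1 / (x.1 : ℝ) * (1 / (x.2.1 : ℝ) * (1 / (x.2.2 : ℝ))) =
      rc W ^ 3 := by
    simp only [sum_product, ← mul_sum, ← sum_mul, rc]
    ring
  rw [h3] at h2
  refine h2.trans ((pow_le_pow_left₀ h0 h1 3).trans (le_of_eq ?_))
  field_simp

theorem mla_four : ∃ C : ℝ, 0 < C ∧ ∀ (β b : ℝ) (A : Finset (Finset ℕ)), 2 ≤ β → 0 ≤ b →
    (∀ S ∈ A, (∀ p ∈ S, p.Prime) ∧ Near 1 β S ∧ β - b ≤ log (pr S) ∧ 4 ≤ S.card) →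
    ∑ S ∈ A, 1 / (pr S : ℝ) ≤ C * (b + 1) ^ 3 / β ^ 2 * rc (PL β) := by
  obtain ⟨C, hC, hw⟩ := win
  obtain ⟨C', hC', hs⟩ := sm3
  refine ⟨27 * C * C', by positivity, fun β b A hβ hb hA => ?_⟩
  set AR : ℕ → Finset (Finset ℕ) := fun q => (PL β).powerset.filter fun R =>
    (∀ p ∈ R, p.Prime ∧ log p ≤ log q) ∧ 2 ≤ R.card ∧ β / 3 ≤ b + log (pr R) ∧
      Near 1 (b + log (pr R)) R with hAR
  set W : ℕ → Finset ℕ → Finset ℕ := fun q R => (PL β).filter fun p : ℕ =>
    log q ≤ log p ∧ β - b - log q - log (pr R) ≤ log p ∧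
      log p ≤ β - b - log q - log (pr R) + b with hW
  have h2 := mla_cover A ((PL β).sigma fun q => (AR q).sigma fun R => W q R)
    (fun S => 1 / (pr S : ℝ))
    (fun x => 1 / (x.1 : ℝ) * (1 / (pr x.2.1 : ℝ) * (1 / (x.2.2 : ℝ))))
    (fun _ _ => by positivity) (fun x => insert x.2.2 (insert x.1 x.2.1)) fun S hS => by
      obtain ⟨h1, h2, h3, h4⟩ := hA S hS
      have ht := mla_top h1 h2 (by omega)
      obtain ⟨a, S1, rfl, hS1⟩ := mla_peel (card_pos.1 (by omega : 0 < S.card))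
      rw [card_insert_of_notMem fun h' => lt_irrefl _ (hS1 a h')] at h4
      obtain ⟨q, R, rfl, hR⟩ := mla_peel (card_pos.1 (by omega : 0 < S1.card))
      rw [card_insert_of_notMem fun h' => lt_irrefl _ (hR q h')] at h4
      have ha := h1 a (mem_insert_self _ _)
      have hq := h1 q (mem_insert_of_mem (mem_insert_self _ _))
      have hRp : ∀ p ∈ R, p.Prime := fun p hp => h1 p (mem_insert_of_mem (mem_insert_of_mem hp))
      have hqa : q < a := hS1 q (mem_insert_self _ _)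
      have hl : ∀ R' ⊆ R, log (pr (insert a (insert q R'))) = log a + (log q + log (pr R')) :=
        fun R' hR' => by
          rw [mla_log (fun p hp => hS1 p (insert_subset_insert _ hR' hp)) ha.ne_zero
            fun p hp => (h1 p (mem_insert_of_mem (insert_subset_insert _ hR' hp))).ne_zero,
            mla_log (fun p hp => hR p (hR' hp)) hq.ne_zero fun p hp => (hRp p (hR' hp)).ne_zero]
      have hta := ht a (mem_insert_self _ _)
      have htq := ht q (mem_insert_of_mem (mem_insert_self _ _))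
      have h5 := h2.1
      rw [hl R Subset.rfl] at h3 h5
      have hPL : ∀ p ∈ insert a (insert q R), p ∈ PL β := fun p hp =>
        mem_PL.2 ⟨h1 p hp, by linarith [ht p hp, log_natCast_nonneg p]⟩
      refine ⟨⟨q, R, a⟩, mem_sigma.2 ⟨hPL q (mem_insert_of_mem (mem_insert_self _ _)),
        mem_sigma.2 ⟨mem_filter.2 ⟨mem_powerset.2 fun p hp =>
          hPL p (mem_insert_of_mem (mem_insert_of_mem hp)), fun p hp => ⟨hRp p hp, ?_⟩,
          by dsimp only; omega, by dsimp only; linarith, by dsimp only; linarith,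
          fun p hp ⟨p', hp', hlt⟩ hodd => ?_⟩, mem_filter.2 ⟨hPL a (mem_insert_self _ _), ?_,
          by dsimp only; linarith, by dsimp only; linarith⟩⟩⟩, rfl, le_of_eq ?_⟩
      · exact log_le_log (by exact_mod_cast (hRp p hp).pos) (by exact_mod_cast (hR p hp).le)
      · have hu : up (insert a (insert q R)) p = insert a (insert q (up R p)) := by
          rw [mla_up ((hR p hp).trans hqa).le, mla_up (hR p hp).le]
        have hsub : up R p ⊆ R := filter_subset _ _
        have h6 := h2.2 p (mem_insert_of_mem (mem_insert_of_mem hp))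
          ⟨p', mem_insert_of_mem (mem_insert_of_mem hp'), hlt⟩ (by
            rw [hu, card_insert_of_notMem fun h' =>
              lt_irrefl _ (hS1 a (insert_subset_insert _ hsub h')),
              card_insert_of_notMem fun h' => lt_irrefl _ (hR q (hsub h'))]
            dsimp only at hodd
            omega)
        rw [hu, hl _ hsub] at h6
        dsimp only
        linarith
      · exact log_le_log (by exact_mod_cast hq.pos) (by exact_mod_cast hqa.le)
      · simp only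
        rw [mla_pr hS1, mla_pr hR]
        push_cast
        rw [one_div_mul_one_div, one_div_mul_one_div]
        ring
  refine h2.trans ?_
  rw [sum_sigma, rc, mul_sum]
  refine sum_le_sum fun q hq => ?_
  have hq2 : (2 : ℝ) ≤ q := by exact_mod_cast (mem_PL.1 hq).1.two_le
  have hl : 1 / 2 ≤ log q := le_trans (by linarith [log_two_gt_d9]) (log_le_log two_pos hq2)
  rw [sum_sigma]
  simp only [← mul_sum]
  rw [mul_comm]
  refine mul_le_mul_of_nonneg_right ?_ (by positivity)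
  have h3 := hs b (β / 3) (log q) (AR q) hb (by linarith) (by linarith)
    fun R hR => (mem_filter.1 hR).2
  calc ∑ R ∈ AR q, 1 / (pr R : ℝ) * ∑ p ∈ W q R, 1 / (p : ℝ)
      ≤ ∑ R ∈ AR q, 1 / (pr R : ℝ) * (C * (b + 1) / log q) := by
        refine sum_le_sum fun R _ => mul_le_mul_of_nonneg_left ?_ (by positivity)
        exact hw (log q) _ b (W q R) (by linarith) hb fun p hp =>
          ⟨(mem_PL.1 (mem_filter.1 hp).1).1, (mem_filter.1 hp).2⟩
    _ ≤ C' * (b + 1) ^ 2 * (log q + 1) / (β / 3) ^ 2 * (C * (b + 1) / log q) := by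
        rw [← sum_mul]
        exact mul_le_mul_of_nonneg_right h3 (by positivity)
    _ = 9 * C * C' * (b + 1) ^ 3 / β ^ 2 * ((log q + 1) / log q) := by
        field_simp
        norm_num
    _ ≤ 9 * C * C' * (b + 1) ^ 3 / β ^ 2 * 3 := by
        refine mul_le_mul_of_nonneg_left ?_ (by positivity)
        rw [div_le_iff₀ (by linarith)]
        linarith
    _ = _ := by ring

theorem mla : ∃ C : ℝ, 0 < C ∧ ∀ (β b : ℝ) (A : Finset (Finset ℕ)), 2 ≤ β → 0 ≤ b →
    (∀ S ∈ A, (∀ p ∈ S, p.Prime ∧ log p ≤ 2 * β / 3) ∧ Near 1 β S ∧ β - b ≤ log (pr S)) →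
    ∑ S ∈ A, 1 / (pr S : ℝ) ≤ C * (b + 1) ^ 3 * log β / β ^ 2 := by
  obtain ⟨C1, hC1, h1⟩ := prod_PL
  obtain ⟨C2, hC2, h2⟩ := rc_PL
  obtain ⟨C3, hC3, h3⟩ := mla_three
  obtain ⟨C4, hC4, h4⟩ := mla_four
  refine ⟨128 * C1 + C3 + C4 * (1 + 2 * C2), by positivity, fun β b A hβ hb hA => ?_⟩
  have hl : 1 / 2 ≤ log β := le_trans (by linarith [log_two_gt_d9]) (log_le_log two_pos hβ)
  have hβ0 : 0 < β := by linarith
  have hE : 0 ≤ (b + 1) ^ 3 * log β / β ^ 2 := by positivity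
  have he : ∀ c : ℝ, c * (b + 1) ^ 3 * log β / β ^ 2 = c * ((b + 1) ^ 3 * log β / β ^ 2) :=
    fun c => by ring
  rw [he]
  rcases le_or_gt (β / 4) b with hb' | hb'
  · have h5 := (sum_fam (A := A) (P := PL β) fun S hS p hp =>
      mem_PL.2 ⟨((hA S hS).1 p hp).1, by linarith [((hA S hS).1 p hp).2]⟩).trans
      (h1 β (by linarith))
    have h6 : β ≤ 128 * ((b + 1) ^ 3 * log β / β ^ 2) := by
      have h7 : (β / 4) ^ 3 ≤ (b + 1) ^ 3 := pow_le_pow_left₀ (by linarith) (by linarith) 3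
      have h8 : (β / 4) ^ 3 * (1 / 2) ≤ (b + 1) ^ 3 * log β :=
        mul_le_mul h7 hl (by norm_num) (by positivity)
      rw [← mul_div_assoc, le_div_iff₀ (by positivity)]
      nlinarith
    have h7 : 0 ≤ (C3 + C4 * (1 + 2 * C2)) * ((b + 1) ^ 3 * log β / β ^ 2) := by positivity
    nlinarith
  · rw [← sum_filter_add_sum_filter_not A fun S => S.card = 3]
    have h5 := h3 β b (A.filter fun S => S.card = 3) hβ hb hb' fun S hS => by
      obtain ⟨h5, h6⟩ := mem_filter.1 hS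
      exact ⟨fun p hp => ((hA S h5).1 p hp).1, (hA S h5).2.1, (hA S h5).2.2, h6⟩
    have h6 := h4 β b (A.filter fun S => ¬ S.card = 3) hβ hb fun S hS => by
      obtain ⟨h5, h6⟩ := mem_filter.1 hS
      have := mla_card hβ hb' (hA S h5).1 (hA S h5).2.1 (hA S h5).2.2
      exact ⟨fun p hp => ((hA S h5).1 p hp).1, (hA S h5).2.1, (hA S h5).2.2, by omega⟩
    have h7 : C3 * (b + 1) ^ 3 / β ^ 3 ≤ C3 * ((b + 1) ^ 3 * log β / β ^ 2) := by
      have : C3 * (b + 1) ^ 3 / β ^ 3 = C3 * ((b + 1) ^ 3 * (1 / β) / β ^ 2) := by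
        field_simp
      rw [this]
      have h8 : 1 / β ≤ log β := le_trans (one_div_le_one_div_of_le two_pos hβ) hl
      gcongr
    have h8 : C4 * (b + 1) ^ 3 / β ^ 2 * rc (PL β) ≤
        C4 * (1 + 2 * C2) * ((b + 1) ^ 3 * log β / β ^ 2) := by
      have h9 : rc (PL β) ≤ (1 + 2 * C2) * log β := by
        have := h2 β (by linarith)
        nlinarith
      calc _ ≤ C4 * (b + 1) ^ 3 / β ^ 2 * ((1 + 2 * C2) * log β) :=
            mul_le_mul_of_nonneg_left h9 (by positivity)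
        _ = _ := by ring
    have h9 : 0 ≤ 128 * C1 * ((b + 1) ^ 3 * log β / β ^ 2) := by positivity
    nlinarith

end Vale.Agent.P013
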