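import Vale.Agent.P013.SM3

namespace Vale.Agent.P013

open Finset Real Filter

open Classical

theorem top_MLB (A : Finset (Finset ℕ)) (m : Finset ℕ → ℕ) (K : ℝ) (hm : ∀ S ∈ A, m S ∈ S)
    (hK : ∀ R, rc ((A.filter fun S => S.erase (m S) = R).image m) ≤ K) :
    ∑ S ∈ A, 1 / (pr S : ℝ) ≤ K * ∑ R ∈ A.image (fun S => S.erase (m S)), 1 / (pr R : ℝ) := by
  rw [← sum_fiberwise_of_maps_to (s := A) (t := A.image fun S => S.erase (m S))
    (g := fun S => S.erase (m S)) (fun S hS => mem_image_of_mem _ hS), mul_sum]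
  refine sum_le_sum fun R _ => ?_
  have h1 : ∑ S ∈ A.filter (fun S => S.erase (m S) = R), 1 / (pr S : ℝ) =
      rc ((A.filter fun S => S.erase (m S) = R).image m) * (1 / (pr R : ℝ)) := by
    rw [rc, sum_image, sum_mul]
    · refine sum_congr rfl fun S hS => ?_
      obtain ⟨h2, h3⟩ := mem_filter.1 hS
      have h4 : pr S = m S * pr R := by
        rw [← h3, pr, pr, mul_prod_erase S (fun p => p) (hm S h2)]
      rw [h4]
      push_cast
      rw [one_div_mul_one_div]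
    · intro S hS S' hS' h
      obtain ⟨h2, h3⟩ := mem_filter.1 (mem_coe.1 hS)
      obtain ⟨h2', h3'⟩ := mem_filter.1 (mem_coe.1 hS')
      rw [← insert_erase (hm S h2), ← insert_erase (hm S' h2'), h3, h3', h]
  rw [h1]
  exact mul_le_mul_of_nonneg_right (hK R) (by positivity)

theorem sup_mem_MLB {S : Finset ℕ} (h : S.Nonempty) : S.sup id ∈ S := by
  obtain ⟨i, hi, h2⟩ := exists_mem_eq_sup S h id
  rw [h2]
  exact hi

theorem logs_MLB {S : Finset ℕ} (hS : ∀ p ∈ S, p.Prime) {q : ℕ} (hq : q ∈ S) :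
    log (pr S) = log q + log (pr (S.erase q)) := by
  rw [log_pr fun p hp => (hS p hp).ne_zero,
    log_pr fun p hp => (hS p (mem_of_mem_erase hp)).ne_zero,
    add_sum_erase S (fun p => log (p : ℝ)) hq]

theorem two_MLB {Cw β b : ℝ} (hCw : 0 < Cw) (hw : ∀ (t u b : ℝ) (S : Finset ℕ), 0 < t → 0 ≤ b →
    (∀ p ∈ S, p.Prime ∧ t ≤ log p ∧ u ≤ log p ∧ log p ≤ u + b) → rc S ≤ Cw * (b + 1) / t)
    (hβ : 2 ≤ β) (hb : 0 ≤ b) (hbβ : b ≤ β / 4) (A : Finset (Finset ℕ))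
    (hA : ∀ S ∈ A, (∀ p ∈ S, p.Prime ∧ log p ≤ β / 2) ∧ β - b ≤ log (pr S) ∧ S.card = 2) :
    ∑ S ∈ A, 1 / (pr S : ℝ) ≤ (Cw * (b + 1) / (β / 4)) ^ 2 := by
  have hK : 0 ≤ Cw * (b + 1) / (β / 4) := by positivity
  have hwin : ∀ S ∈ A, ∀ p ∈ S, p.Prime ∧ β / 4 ≤ log p ∧ β / 2 - b ≤ log p ∧
      log p ≤ β / 2 - b + b := by
    intro S hS p hp
    obtain ⟨h1, h2, h3⟩ := hA S hS
    obtain ⟨q, hq⟩ := card_eq_one.1 (show (S.erase p).card = 1 by rw [card_erase_of_mem hp, h3])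
    have h4 : q ∈ S := mem_of_mem_erase (hq ▸ mem_singleton_self q)
    rw [logs_MLB (fun p hp => (h1 p hp).1) hp, hq, pr, prod_singleton] at h2
    have h5 := (h1 q h4).2
    have h6 := (h1 p hp).2
    exact ⟨(h1 p hp).1, by linarith, by linarith, by linarith⟩
  have hne : ∀ S ∈ A, S.Nonempty := fun S hS => card_pos.1 (by rw [(hA S hS).2.2]; norm_num)
  have h1 := top_MLB A (fun S => S.sup id) _ (fun S hS => sup_mem_MLB (hne S hS)) fun R =>
    hw (β / 4) (β / 2 - b) b _ (by linarith) hb fun p hp => by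
      obtain ⟨S, hS, rfl⟩ := mem_image.1 hp
      exact hwin S (mem_filter.1 hS).1 _ (sup_mem_MLB (hne S (mem_filter.1 hS).1))
  set B := A.image fun S => S.erase (S.sup id) with hB
  have hB1 : ∀ R ∈ B, R.card = 1 ∧ ∀ p ∈ R, p.Prime ∧ β / 4 ≤ log p ∧ β / 2 - b ≤ log p ∧
      log p ≤ β / 2 - b + b := by
    intro R hR
    obtain ⟨S, hS, rfl⟩ := mem_image.1 hR
    refine ⟨?_, fun p hp => hwin S hS p (mem_of_mem_erase hp)⟩
    rw [card_erase_of_mem (sup_mem_MLB (hne S hS)), (hA S hS).2.2]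
  have hne' : ∀ R ∈ B, R.Nonempty := fun R hR => card_pos.1 (by rw [(hB1 R hR).1]; norm_num)
  have h2 := top_MLB B (fun S => S.sup id) _ (fun S hS => sup_mem_MLB (hne' S hS)) fun R =>
    hw (β / 4) (β / 2 - b) b _ (by linarith) hb fun p hp => by
      obtain ⟨S, hS, rfl⟩ := mem_image.1 hp
      exact (hB1 S (mem_filter.1 hS).1).2 _ (sup_mem_MLB (hne' S (mem_filter.1 hS).1))
  have h3 : ∑ R ∈ B.image (fun S => S.erase (S.sup id)), 1 / (pr R : ℝ) ≤ 1 := by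
    have h4 : B.image (fun S => S.erase (S.sup id)) ⊆ {∅} := by
      intro R hR
      obtain ⟨S, hS, rfl⟩ := mem_image.1 hR
      rw [mem_singleton, ← card_eq_zero, card_erase_of_mem (sup_mem_MLB (hne' S hS)),
        (hB1 S hS).1]
    refine (sum_le_sum_of_subset_of_nonneg h4 fun _ _ _ => by positivity).trans ?_
    simp [pr]
  calc _ ≤ _ := h1
    _ ≤ Cw * (b + 1) / (β / 4) * (Cw * (b + 1) / (β / 4) * 1) :=
      mul_le_mul_of_nonneg_left (h2.trans (mul_le_mul_of_nonneg_left h3 hK)) hK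
    _ = _ := by ring

theorem dy_MLB {Cw Cs β b t : ℝ} (hCw : 0 < Cw) (hCs : 0 < Cs)
    (hw : ∀ (t u b : ℝ) (S : Finset ℕ), 0 < t → 0 ≤ b →
    (∀ p ∈ S, p.Prime ∧ t ≤ log p ∧ u ≤ log p ∧ log p ≤ u + b) → rc S ≤ Cw * (b + 1) / t)
    (hs : ∀ (b G u : ℝ) (A : Finset (Finset ℕ)), 0 ≤ b → 0 < G → 0 ≤ u →
    (∀ S ∈ A, (∀ p ∈ S, p.Prime ∧ log p ≤ u) ∧ 2 ≤ S.card ∧ G ≤ b + log (pr S) ∧
      Near 1 (b + log (pr S)) S) →
    ∑ S ∈ A, 1 / (pr S : ℝ) ≤ Cs * (b + 1) ^ 2 * (u + 1) / G ^ 2)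
    (hβ : 2 ≤ β) (hb : 0 ≤ b) (ht : 1 / 2 ≤ t) (A : Finset (Finset ℕ))
    (hA : ∀ S ∈ A, (∀ p ∈ S, p.Prime ∧ log p ≤ β / 2) ∧ Near 0 β S ∧ β - b ≤ log (pr S) ∧
      3 ≤ S.card ∧ t ≤ log ((S.sup id : ℕ) : ℝ) ∧ log ((S.sup id : ℕ) : ℝ) ≤ 2 * t) :
    ∑ S ∈ A, 1 / (pr S : ℝ) ≤ 16 * Cw * Cs * (b + 1) ^ 3 / β ^ 2 := by
  have ht0 : 0 < t := by linarith
  have hne : ∀ S ∈ A, S.Nonempty := fun S hS => card_pos.1 (by have := (hA S hS).2.2.2.1; omega)
  have h1 := top_MLB A (fun S => S.sup id) _ (fun S hS => sup_mem_MLB (hne S hS)) fun R =>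
    hw t (β - b - log (pr R)) b _ ht0 hb fun p hp => by
      obtain ⟨S, hS, rfl⟩ := mem_image.1 hp
      obtain ⟨hS1, hS2⟩ := mem_filter.1 hS
      obtain ⟨g1, g2, g3, -, g5, -⟩ := hA S hS1
      have g6 := sup_mem_MLB (hne S hS1)
      have g7 := logs_MLB (fun p hp => (g1 p hp).1) g6
      have g8 := g2.1
      rw [hS2] at g7
      exact ⟨(g1 _ g6).1, g5, by linarith, by linarith⟩
  have h2 := hs b (β / 2) (2 * t) (A.image fun S => S.erase (S.sup id)) hb (by linarith)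
    (by linarith) fun R hR => by
      obtain ⟨S, hS, rfl⟩ := mem_image.1 hR
      obtain ⟨g1, g2, g3, g4, -, g5⟩ := hA S hS
      have g6 := sup_mem_MLB (hne S hS)
      have g7 := logs_MLB (fun p hp => (g1 p hp).1) g6
      have g8 := (g1 _ g6).2
      have g9 : ∀ p ∈ S, p ≤ S.sup id := fun p hp => le_sup (f := id) hp
      refine ⟨fun p hp => ⟨(g1 p (mem_of_mem_erase hp)).1, le_trans ?_ g5⟩, ?_, by linarith,
        by linarith, fun p hp hq hc => ?_⟩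
      · have := (g1 p (mem_of_mem_erase hp)).1.pos
        exact log_le_log (by exact_mod_cast this) (by exact_mod_cast g9 p (mem_of_mem_erase hp))
      · rw [card_erase_of_mem g6]
        omega
      · have hp' := mem_of_mem_erase hp
        have e1 : S.sup id ∈ up S p := mem_filter.2 ⟨g6, g9 p hp'⟩
        have e2 : up (S.erase (S.sup id)) p = (up S p).erase (S.sup id) := by
          unfold up
          rw [filter_erase]
        have e3 := card_erase_of_mem e1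
        have e4 := card_pos.2 ⟨_, e1⟩
        obtain ⟨q, hq1, hq2⟩ := hq
        rw [e2] at hc ⊢
        have e5 := g2.2 p hp' ⟨q, mem_of_mem_erase hq1, hq2⟩ (by omega)
        rw [logs_MLB (S := up S p) (fun r hr => (g1 r (mem_filter.1 hr).1).1) e1] at e5
        linarith
  have hK : 0 ≤ Cw * (b + 1) / t := by positivity
  refine (h1.trans (mul_le_mul_of_nonneg_left h2 hK)).trans ?_
  have e : Cw * (b + 1) / t * (Cs * (b + 1) ^ 2 * (2 * t + 1) / (β / 2) ^ 2) =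
      4 * ((2 * t + 1) / t) * Cw * Cs * (b + 1) ^ 3 / β ^ 2 := by
    field_simp
    ring
  have h3 : (2 * t + 1) / t ≤ 4 := by
    rw [div_le_iff₀ ht0]
    linarith
  rw [e]
  have h4 : 4 * ((2 * t + 1) / t) ≤ 16 := by linarith
  gcongr

theorem mlb : ∃ C : ℝ, 0 < C ∧ ∀ (β b : ℝ) (A : Finset (Finset ℕ)), 2 ≤ β → 0 ≤ b →
    (∀ S ∈ A, (∀ p ∈ S, p.Prime ∧ log p ≤ β / 2) ∧ Near 0 β S ∧ β - b ≤ log (pr S)) →
    ∑ S ∈ A, 1 / (pr S : ℝ) ≤ C * (b + 1) ^ 3 * log β / β ^ 2 := by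
  obtain ⟨Cw, hCw, hw⟩ := win
  obtain ⟨Cs, hCs, hs⟩ := sm3
  obtain ⟨Cp, hCp, hp⟩ := prod_PL
  refine ⟨64 * Cp + 32 * Cw ^ 2 + 64 * Cw * Cs, by positivity, fun β b A hβ hb hA => ?_⟩
  have hl2 : 1 / 2 < log (2 : ℝ) := by linarith [log_two_gt_d9]
  have hl : 1 / 2 < log β := hl2.trans_le (log_le_log (by norm_num) hβ)
  have hβ0 : 0 < β := by linarith
  obtain ⟨X, hX⟩ : ∃ X, X = (b + 1) ^ 3 * log β / β ^ 2 := ⟨_, rfl⟩
  have hX0 : 0 < X := by rw [hX]; positivity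
  have e0 : (64 * Cp + 32 * Cw ^ 2 + 64 * Cw * Cs) * (b + 1) ^ 3 * log β / β ^ 2 =
      64 * (Cp * X) + 32 * (Cw ^ 2 * X) + 64 * (Cw * Cs * X) := by rw [hX]; ring
  rw [e0]
  have x1 : 0 < Cp * X := by positivity
  have x2 : 0 < Cw ^ 2 * X := by positivity
  have x3 : 0 < Cw * Cs * X := by positivity
  rcases le_total (β / 4) b with hbβ | hbβ
  · have h1 := (sum_fam (A := A) (P := PL (β / 2)) fun S hS p hp =>
      mem_PL.2 ((hA S hS).1 p hp)).trans (hp _ (by linarith))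
    have h2 : β / 128 ≤ X := by
      rw [hX, le_div_iff₀ (by positivity)]
      have h3 : (β / 4) ^ 3 * (1 / 2) ≤ (b + 1) ^ 3 * log β := by
        gcongr
        linarith
      linarith
    have h3 := mul_le_mul_of_nonneg_left h2 hCp.le
    linarith
  · have hc : ∀ S ∈ A, ¬ S.card = 2 → 3 ≤ S.card := by
      intro S hS h2
      obtain ⟨h1, -, h3⟩ := hA S hS
      by_contra h4
      rw [log_pr fun p hp => (h1 p hp).1.ne_zero] at h3
      have h5 := sum_le_card_nsmul S (fun p => log (p : ℝ)) (β / 2) fun p hp => (h1 p hp).2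
      have h6 : (S.card : ℝ) ≤ 1 := by exact_mod_cast (show S.card ≤ 1 by omega)
      rw [nsmul_eq_mul] at h5
      nlinarith
    rw [← sum_filter_add_sum_filter_not A (fun S => S.card = 2)]
    have h1 := two_MLB hCw hw hβ hb hbβ (A.filter fun S => S.card = 2) fun S hS =>
      ⟨(hA S (mem_filter.1 hS).1).1, (hA S (mem_filter.1 hS).1).2.2, (mem_filter.1 hS).2⟩
    have h2 : (Cw * (b + 1) / (β / 4)) ^ 2 ≤ 32 * (Cw ^ 2 * X) := by
      have e : (Cw * (b + 1) / (β / 4)) ^ 2 =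
          32 * (Cw ^ 2 * ((b + 1) ^ 2 * 1 * (1 / 2) / β ^ 2)) := by
        field_simp
        ring
      have e' : X = (b + 1) ^ 2 * (b + 1) * log β / β ^ 2 := by rw [hX]; ring
      rw [e, e']
      gcongr
      linarith
    set B := A.filter fun S => ¬ S.card = 2 with hB
    set j : Finset ℕ → ℕ := fun S => Nat.log 2 ⌊2 * log ((S.sup id : ℕ) : ℝ)⌋₊ with hj
    have hj1 : ∀ S ∈ B, (2 : ℝ) ^ j S / 2 ≤ log ((S.sup id : ℕ) : ℝ) ∧
        log ((S.sup id : ℕ) : ℝ) ≤ 2 * ((2 : ℝ) ^ j S / 2) ∧ j S < ⌊2 * log β⌋₊ + 1 := by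
      intro S hS
      obtain ⟨g1, g2⟩ := mem_filter.1 hS
      have g3 := sup_mem_MLB (card_pos.1 (show 0 < S.card by have := hc S g1 g2; omega))
      obtain ⟨g4, g5⟩ := (hA S g1).1 _ g3
      have g6 : log 2 ≤ log ((S.sup id : ℕ) : ℝ) :=
        log_le_log (by norm_num) (by exact_mod_cast g4.two_le)
      have g7 : ⌊2 * log ((S.sup id : ℕ) : ℝ)⌋₊ ≠ 0 := by
        have : 1 ≤ ⌊2 * log ((S.sup id : ℕ) : ℝ)⌋₊ := Nat.le_floor (by push_cast; linarith)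
        omega
      have g8 : (2 : ℝ) ^ j S ≤ ⌊2 * log ((S.sup id : ℕ) : ℝ)⌋₊ := by
        exact_mod_cast Nat.pow_log_le_self 2 g7
      have g9 : (⌊2 * log ((S.sup id : ℕ) : ℝ)⌋₊ : ℝ) + 1 ≤ 2 ^ (j S + 1) := by
        exact_mod_cast Nat.lt_pow_succ_log_self (by norm_num : 1 < 2) _
      have g10 := Nat.floor_le (show 0 ≤ 2 * log ((S.sup id : ℕ) : ℝ) by linarith)
      have g11 := Nat.lt_floor_add_one (2 * log ((S.sup id : ℕ) : ℝ))
      rw [pow_succ] at g9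
      refine ⟨by linarith, by linarith, Nat.lt_succ_of_le (Nat.le_floor ?_)⟩
      have g12 : log ((2 : ℝ) ^ j S) ≤ log β := log_le_log (by positivity) (by linarith)
      rw [log_pow] at g12
      have g13 : (0 : ℝ) ≤ j S := Nat.cast_nonneg _
      nlinarith
    have h3 : ∑ S ∈ B, 1 / (pr S : ℝ) ≤
        ∑ _i ∈ range (⌊2 * log β⌋₊ + 1), 16 * Cw * Cs * (b + 1) ^ 3 / β ^ 2 := by
      rw [← sum_fiberwise_of_maps_to (s := B) (t := range (⌊2 * log β⌋₊ + 1)) (g := j)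
        (fun S hS => mem_range.2 (hj1 S hS).2.2)]
      refine sum_le_sum fun i _ => dy_MLB (t := 2 ^ i / 2) hCw hCs hw hs hβ hb ?_ _ fun S hS => ?_
      · have : (1 : ℝ) ≤ 2 ^ i := one_le_pow₀ (by norm_num)
        linarith
      · obtain ⟨g1, rfl⟩ := mem_filter.1 hS
        obtain ⟨g2, g3⟩ := mem_filter.1 g1
        exact ⟨(hA S g2).1, (hA S g2).2.1, (hA S g2).2.2, hc S g2 g3, (hj1 S g1).1, (hj1 S g1).2.1⟩
    rw [sum_const, card_range, nsmul_eq_mul] at h3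
    have h4 : ((⌊2 * log β⌋₊ + 1 : ℕ) : ℝ) ≤ 4 * log β := by
      have := Nat.floor_le (show 0 ≤ 2 * log β by linarith)
      push_cast
      linarith
    have h5 : ((⌊2 * log β⌋₊ + 1 : ℕ) : ℝ) * (16 * Cw * Cs * (b + 1) ^ 3 / β ^ 2) ≤
        4 * log β * (16 * Cw * Cs * (b + 1) ^ 3 / β ^ 2) := by gcongr
    have h6 : 4 * log β * (16 * Cw * Cs * (b + 1) ^ 3 / β ^ 2) = 64 * (Cw * Cs * X) := by
      rw [hX]; ring
    linarith

end Vale.Agent.P013
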