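import Vale.Agent.P013.Bas

namespace Vale.Agent.P013

open Finset Real Filter

open Classical

theorem mt_up_up (S : Finset ℕ) {p q : ℕ} (h : p ≤ q) : up (up S p) q = up S q := by
  ext r
  simp only [up, mem_filter]
  exact ⟨fun ⟨⟨a, _⟩, c⟩ => ⟨a, c⟩, fun ⟨a, c⟩ => ⟨⟨a, h.trans c⟩, c⟩⟩

theorem mt_no {η β γ : ℝ} {F : Finset (Finset ℕ)} {S : Finset ℕ} (h : ¬ HasPre F S) :
    Alive (okS η β γ F) 0 S ↔ Alive (okR η β) 0 S := by
  have h1 : ∀ p, ¬ HasPre F (up S p) := by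
    rintro p ⟨q, hq, hq'⟩
    have hq2 := mem_filter.1 hq
    rw [mt_up_up S hq2.2] at hq'
    exact h ⟨q, hq2.1, hq'⟩
  unfold Alive okS okR
  refine forall₂_congr fun p _ => ?_
  rw [if_neg (h1 p)]

theorem mt_up_hi {T U : Finset ℕ} {m p : ℕ} (hU : ∀ q ∈ U, q < m) (hp : m ≤ p) :
    up (T ∪ U) p = up T p := by
  ext r
  simp only [up, mem_filter, mem_union]
  constructor
  · rintro ⟨a | a, c⟩
    · exact ⟨a, c⟩
    · have := hU r a
      omega
  · exact fun ⟨a, c⟩ => ⟨Or.inl a, c⟩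

theorem mt_up_lo {T U : Finset ℕ} {m p : ℕ} (hT : ∀ q ∈ T, m ≤ q) (hp : p ≤ m) :
    up (T ∪ U) p = T ∪ up U p := by
  ext r
  simp only [up, mem_filter, mem_union]
  constructor
  · rintro ⟨a | a, c⟩
    · exact Or.inl a
    · exact Or.inr ⟨a, c⟩
  · rintro (a | ⟨a, c⟩)
    · exact ⟨Or.inl a, hp.trans (hT r a)⟩
    · exact ⟨Or.inr a, c⟩

theorem mt_up_min {T : Finset ℕ} {m : ℕ} (hT : ∀ q ∈ T, m ≤ q) : up T m = T :=
  filter_true_of_mem hT

theorem mt_disj {T U : Finset ℕ} {m : ℕ} (hT : ∀ q ∈ T, m ≤ q) (hU : ∀ q ∈ U, q < m) :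
    Disjoint T U :=
  disjoint_left.2 fun q a b => absurd (hT q a) (not_le.2 (hU q b))

theorem mt_yes {η β γ : ℝ} {F : Finset (Finset ℕ)} {T U : Finset ℕ} {m : ℕ} (hF : T ∈ F)
    (hm : m ∈ T) (hT : ∀ q ∈ T, m ≤ q) (hodd : T.card % 2 = 1) (hal : Alive (okR η β) 0 T)
    (hun : ∀ q ∈ T, up T q ∈ F → q = m) (hU : ∀ q ∈ U, q < m) :
    Alive (okS η β γ F) 0 (T ∪ U) ↔ Alive (okR η (γ - lS η T)) 1 U := by
  have key : ∀ p ∈ U, ((up (T ∪ U) p).card % 2 = 0 → okS η β γ F (up (T ∪ U) p) p) ↔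
      ((up U p).card % 2 = 1 → okR η (γ - lS η T) (up U p) p) := by
    intro p hp
    have hpm := (hU p hp).le
    have hU' : ∀ q ∈ up U p, q < m := fun q hq => hU q (mem_filter.1 hq).1
    have hd : Disjoint T (up U p) := mt_disj hT hU'
    have hpre : HasPre F (T ∪ up U p) :=
      ⟨m, mem_union_left _ hm, by rw [mt_up_hi hU' le_rfl, mt_up_min hT]; exact hF⟩
    have hl : lS η (T ∪ up U p) = lS η T + lS η (up U p) := sum_union hd
    rw [mt_up_lo hT hpm, card_union_of_disjoint hd]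
    unfold okS okR
    rw [if_pos hpre, hl]
    constructor
    · intro h hc
      have := h (by omega)
      linarith
    · intro h hc
      have := h (by omega)
      linarith
  constructor
  · exact fun h p hp => (key p hp).1 (h p (mem_union_right _ hp))
  · intro h p hp
    rcases mem_union.1 hp with hp | hp
    · rw [mt_up_hi hU (hT p hp)]
      intro hc
      have hne : p ≠ m := by
        rintro rfl
        rw [mt_up_min hT] at hc
        omega
      have hno : ¬ HasPre F (up T p) := by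
        rintro ⟨q, hq, hq'⟩
        have hq2 := mem_filter.1 hq
        rw [mt_up_up T hq2.2] at hq'
        have h1 := hun q hq2.1 hq'
        have h2 := hT p hp
        have h3 := hq2.2
        omega
      have := hal p hp hc
      unfold okS
      rw [if_neg hno]
      exact this
    · exact (key p hp).2 (h p hp)

theorem mt_gen {η β : ℝ} (γ : ℝ) {P : Finset ℕ} {F : Finset (Finset ℕ)} (mn : Finset ℕ → ℕ)
    (hF : ∀ T ∈ F, T ⊆ P ∧ mn T ∈ T ∧ (∀ q ∈ T, mn T ≤ q) ∧ T.card % 2 = 1 ∧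
      Alive (okR η β) 0 T ∧ ∀ q ∈ T, up T q ∈ F → q = mn T) :
    VV (okS η β γ F) 0 P =
      ∑ S ∈ (AS (okR η β) 0 P).filter (fun S => ¬ HasPre F S), (-1 : ℝ) ^ S.card / (pr S : ℝ) -
      ∑ T ∈ F, 1 / (pr T : ℝ) * VV (okR η (γ - lS η T)) 1 (lo P (mn T)) := by
  have h1 : (AS (okS η β γ F) 0 P).filter (fun S => ¬ HasPre F S) =
      (AS (okR η β) 0 P).filter (fun S => ¬ HasPre F S) := by
    ext S
    simp only [AS, mem_filter]
    constructor
    · rintro ⟨⟨a, b⟩, c⟩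
      exact ⟨⟨a, (mt_no c).1 b⟩, c⟩
    · rintro ⟨⟨a, b⟩, c⟩
      exact ⟨⟨a, (mt_no c).2 b⟩, c⟩
  have hlo : ∀ {T U : Finset ℕ} {ok σ}, U ∈ AS ok σ (lo P (mn T)) → ∀ q ∈ U, q < mn T :=
    fun hU q hq => (mem_filter.1 (mem_powerset.1 (mem_filter.1 hU).1 hq)).2
  have h2 : ∑ x ∈ F.sigma (fun T => AS (okR η (γ - lS η T)) 1 (lo P (mn T))),
      -(1 / (pr x.1 : ℝ) * ((-1 : ℝ) ^ x.2.card / (pr x.2 : ℝ))) =
      ∑ S ∈ (AS (okS η β γ F) 0 P).filter (fun S => HasPre F S),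
        (-1 : ℝ) ^ S.card / (pr S : ℝ) := by
    refine sum_bij (fun x _ => x.1 ∪ x.2) ?_ ?_ ?_ ?_
    · rintro ⟨T, U⟩ hx
      obtain ⟨hT, hU⟩ := mem_sigma.1 hx
      obtain ⟨a1, a2, a3, a4, a5, a6⟩ := hF T hT
      have hU' := hlo hU
      have hU2 := mem_filter.1 hU
      refine mem_filter.2 ⟨mem_filter.2 ⟨mem_powerset.2 (union_subset a1 fun q hq =>
        (mem_filter.1 (mem_powerset.1 hU2.1 hq)).1), ?_⟩, mn T, mem_union_left _ a2, ?_⟩
      · exact (mt_yes hT a2 a3 a4 a5 a6 hU').2 hU2.2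
      · rw [mt_up_hi hU' le_rfl, mt_up_min a3]
        exact hT
    · have hle : ∀ {T U T' U' : Finset ℕ}, T ∈ F → T' ∈ F → (∀ q ∈ U, q < mn T) →
          (∀ q ∈ U', q < mn T') → T ∪ U = T' ∪ U' → mn T ≤ mn T' → mn T' = mn T := by
        intro T U T' U' hT hT' hU hU' h hm
        obtain ⟨a1, a2, a3, a4, a5, a6⟩ := hF T hT
        obtain ⟨b1, b2, b3, b4, b5, b6⟩ := hF T' hT'
        have e1 : up T (mn T') = T' := by
          rw [← mt_up_hi hU hm, h, mt_up_hi hU' le_rfl, mt_up_min b3]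
        have e2 : mn T' ∈ up T (mn T') := by rw [e1]; exact b2
        exact a6 _ (mem_filter.1 e2).1 (by rw [e1]; exact hT')
      rintro ⟨T, U⟩ hx ⟨T', U'⟩ hx' h
      obtain ⟨hT, hU⟩ := mem_sigma.1 hx
      obtain ⟨hT', hU'⟩ := mem_sigma.1 hx'
      have hU1 := hlo hU
      have hU1' := hlo hU'
      dsimp only at h hU1 hU1' hT hT'
      have hm : mn T' = mn T := by
        rcases le_total (mn T) (mn T') with g | g
        · exact hle hT hT' hU1 hU1' h g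
        · exact (hle hT' hT hU1' hU1 h.symm g).symm
      obtain ⟨a1, a2, a3, a4, a5, a6⟩ := hF T hT
      obtain ⟨b1, b2, b3, b4, b5, b6⟩ := hF T' hT'
      have e1 : T = T' := by
        rw [← mt_up_min a3, ← mt_up_hi hU1 le_rfl, h, ← hm, mt_up_hi hU1' le_rfl, mt_up_min b3]
      subst e1
      have e2 : U = U' := by
        rw [← union_sdiff_cancel_left (mt_disj a3 hU1), h,
          union_sdiff_cancel_left (mt_disj a3 hU1')]
      subst e2
      rfl
    · intro S hS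
      obtain ⟨hS1, q, hq, hq'⟩ := mem_filter.1 hS
      obtain ⟨hS2, hS3⟩ := mem_filter.1 hS1
      obtain ⟨a1, a2, a3, a4, a5, a6⟩ := hF _ hq'
      have hqm : q = mn (up S q) :=
        a6 q (mem_filter.2 ⟨hq, le_rfl⟩) (by rw [mt_up_up S le_rfl]; exact hq')
      have e : up S q ∪ lo S q = S := by
        ext r
        simp only [up, lo, mem_filter, mem_union]
        constructor
        · rintro (a | a) <;> exact a.1
        · intro a
          rcases le_or_gt q r with g | g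
          · exact Or.inl ⟨a, g⟩
          · exact Or.inr ⟨a, g⟩
      have hU : ∀ r ∈ lo S q, r < mn (up S q) := fun r hr => hqm ▸ (mem_filter.1 hr).2
      refine ⟨⟨up S q, lo S q⟩, mem_sigma.2 ⟨hq', mem_filter.2 ⟨mem_powerset.2 fun r hr =>
        mem_filter.2 ⟨mem_powerset.1 hS2 (mem_filter.1 hr).1, hU r hr⟩, ?_⟩⟩, e⟩
      refine (mt_yes hq' a2 a3 a4 a5 a6 hU).1 ?_
      rw [e]
      exact hS3
    · rintro ⟨T, U⟩ hx
      obtain ⟨hT, hU⟩ := mem_sigma.1 hx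
      obtain ⟨a1, a2, a3, a4, a5, a6⟩ := hF T hT
      have hd : Disjoint T U := mt_disj a3 (hlo hU)
      have e1 : pr (T ∪ U) = pr T * pr U := prod_union hd
      have e2 : (-1 : ℝ) ^ T.card = -1 := Odd.neg_one_pow (Nat.odd_iff.2 a4)
      dsimp only
      rw [card_union_of_disjoint hd, e1, pow_add, e2, Nat.cast_mul]
      ring
  have h3 : ∑ T ∈ F, 1 / (pr T : ℝ) * VV (okR η (γ - lS η T)) 1 (lo P (mn T)) =
      -∑ x ∈ F.sigma (fun T => AS (okR η (γ - lS η T)) 1 (lo P (mn T))),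
      -(1 / (pr x.1 : ℝ) * ((-1 : ℝ) ^ x.2.card / (pr x.2 : ℝ))) := by
    rw [sum_neg_distrib, neg_neg, sum_sigma]
    refine sum_congr rfl fun T _ => ?_
    rw [VV, mul_sum]
  rw [h3, h2, ← h1, VV, sub_neg_eq_add, add_comm, sum_filter_add_sum_filter_not]

theorem mt {η β β' : ℝ} {P : Finset ℕ} {F : Finset (Finset ℕ)} (mn : Finset ℕ → ℕ)
    (hP : ∀ p ∈ P, p ≠ 0)
    (hF : ∀ T ∈ F, T ⊆ P ∧ mn T ∈ T ∧ (∀ q ∈ T, mn T ≤ q) ∧ T.card % 2 = 1 ∧
      Alive (okR η β) 0 T ∧ ∀ q ∈ T, up T q ∈ F → q = mn T) :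
    VV (okS η β β' F) 0 P = VV (okR η β) 0 P + ∑ T ∈ F, 1 / (pr T : ℝ) *
      (VV (okR η (β - lS η T)) 1 (lo P (mn T)) - VV (okR η (β' - lS η T)) 1 (lo P (mn T))) := by
  have h1 := mt_gen β' mn hF
  have h2 := mt_gen β mn hF
  have h3 : okS η β β F = okR η β := by
    funext T p
    unfold okS okR
    rw [ite_self]
  rw [h3] at h2
  rw [h1, h2]
  simp only [mul_sub, sum_sub_distrib]
  ring

end Vale.Agent.P013
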