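import Vale.Agent.P013.Rows

namespace Vale.Agent.P013

open Finset Real Filter

open Classical

theorem pig2_cnt {α : Type} (A : Finset α) (w r b : α → ℝ) {MK c W X Y S m : ℝ}
    (hMK : 0 < MK) (hc : 0 < c) (hX : 0 < X) (hY : 0 < Y)
    (hw : ∀ a ∈ A, 0 ≤ w a ∧ w a ≤ m) (hr : ∀ a ∈ A, r a ≤ MK ∧ c * r a ≤ b a)
    (hS : ∑ a ∈ A, w a ≤ S) (hW : W ≤ 3 * c * MK) (h6 : 6 * S * Y ≤ X)
    (h : MK / Y ≤ ∑ a ∈ A, w a * r a) :
    1 / (2 * Y) ≤ ((A.filter fun a => W / X ≤ b a).card : ℝ) * m := by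
  have h1 : ∑ a ∈ A, w a * r a ≤
      ∑ a ∈ A, ((if W / X ≤ b a then m * MK else 0) + w a * (3 * MK / X)) := by
    refine sum_le_sum fun a ha => ?_
    obtain ⟨w0, w1⟩ := hw a ha
    obtain ⟨r0, r1⟩ := hr a ha
    have p0 : 0 ≤ w a * (3 * MK / X) := by positivity
    split_ifs with hg
    · have := mul_le_mul_of_nonneg_left r0 w0
      have := mul_le_mul_of_nonneg_right w1 hMK.le
      linarith
    · have e1 : W / X ≤ c * (3 * MK / X) := by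
        rw [← mul_div_assoc]
        exact div_le_div_of_nonneg_right (by linarith) hX.le
      have e2 : r a ≤ 3 * MK / X := le_of_mul_le_mul_left (by linarith [not_le.1 hg]) hc
      have := mul_le_mul_of_nonneg_left e2 w0
      linarith
  rw [sum_add_distrib, ← sum_filter, sum_const, nsmul_eq_mul, ← sum_mul] at h1
  have h2 : (∑ a ∈ A, w a) * (3 * MK / X) ≤ MK / (2 * Y) := by
    refine (mul_le_mul_of_nonneg_right hS (by positivity)).trans ?_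
    rw [← mul_div_assoc, div_le_div_iff₀ hX (by positivity)]
    nlinarith
  have h3 : MK / Y = MK / (2 * Y) + MK / (2 * Y) := by field_simp; ring
  have h4 : 1 / (2 * Y) * MK ≤ ((A.filter fun a => W / X ≤ b a).card : ℝ) * m * MK := by
    rw [one_div_mul_eq_div, mul_assoc]
    linarith
  exact le_of_mul_le_mul_right h4 hMK

theorem pig2_rc {S : Finset ℕ} {a b : ℝ} (h : ∀ q ∈ S, q.Prime ∧ a < log q ∧ log q ≤ b) :
    exp a * rc S ≤ S.card ∧ (S.card : ℝ) ≤ exp b * rc S := by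
  rw [rc, mul_sum, mul_sum, card_eq_sum_ones]
  push_cast
  constructor
  · refine sum_le_sum fun q hq => ?_
    have q0 : (0 : ℝ) < q := Nat.cast_pos.2 (h q hq).1.pos
    rw [mul_one_div, div_le_one q0]
    exact ((Real.lt_log_iff_exp_lt q0).1 (h q hq).2.1).le
  · refine sum_le_sum fun q hq => ?_
    have q0 : (0 : ℝ) < q := Nat.cast_pos.2 (h q hq).1.pos
    rw [mul_one_div, one_le_div q0]
    exact (Real.log_le_iff_le_exp q0).1 (h q hq).2.2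

theorem pig2_one {n : ℕ} (f : Fin n → ℝ) (h0 : ∀ i, 0 ≤ f i) (h1 : ∀ i, f i ≤ 1) (j : Fin n) :
    ∏ i, f i ≤ f j := by
  rw [← mul_prod_erase univ f (mem_univ j)]
  exact mul_le_of_le_one_right (h0 j) (prod_le_one (fun i _ => h0 i) fun i _ => h1 i)

theorem pig2_W {e : ℕ} {η : ℝ} {B : Fin (e + 1) → Finset ℕ} {k : Fin (e + 1) → ℕ}
    (h : ∀ i, ∀ q ∈ B i, q.Prime ∧ η * (k i - 1) < log q ∧ log q ≤ η * k i)
    (e4 : ((e : ℝ) + 1) * η ≤ 1) :
    ((B 0).card : ℝ) * ∏ i : Fin e, ((B i.succ).card : ℝ) ≤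
      3 * exp (∑ i, η * (k i - 1)) * ∏ i, rc (B i) := by
  have e2 : ∏ i, ((B i).card : ℝ) ≤ ∏ i, (exp (η * k i) * rc (B i)) :=
    prod_le_prod (fun _ _ => Nat.cast_nonneg _) fun i _ => (pig2_rc (h i)).2
  rw [prod_mul_distrib, ← Real.exp_sum] at e2
  have e3 : ∑ i, η * (k i : ℝ) = ∑ i, η * ((k i : ℝ) - 1) + (e + 1) * η := by
    have : ∀ i, η * (k i : ℝ) = η * (k i - 1) + η := fun i => by ring
    rw [sum_congr rfl fun i _ => this i, sum_add_distrib]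
    simp
  have e5 : exp (∑ i, η * ((k i : ℝ) - 1) + (e + 1) * η) ≤ 3 * exp (∑ i, η * ((k i : ℝ) - 1)) := by
    rw [Real.exp_add, mul_comm]
    refine mul_le_mul_of_nonneg_right ?_ (exp_pos _).le
    exact (exp_le_exp.2 e4).trans (by linarith [Real.exp_one_lt_d9])
  rw [e3, Fin.prod_univ_succ] at e2
  exact e2.trans (mul_le_mul_of_nonneg_right e5
    (prod_nonneg fun i _ => sum_nonneg fun _ _ => by positivity))

theorem pig2_G {e κ : ℕ} {η L β C R : ℝ} {B : Fin (e + 1) → Finset ℕ} {k : Fin (e + 1) → ℕ}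
    {A : Finset (Finset ℕ)} (M : ℤ) (hL4 : 4 ≤ L) (hLC : 6 * C ≤ L)
    (h : ∀ i, ∀ q ∈ B i, q.Prime ∧ η * (k i - 1) < log q ∧ log q ≤ η * k i)
    (e4 : ((e : ℝ) + 1) * η ≤ 1) (hMK0 : 0 < ∏ i, rc (B i))
    (hsum : ∑ ρ ∈ A, 1 / (pr ρ : ℝ) ≤ C * L)
    (hA : ∀ ρ ∈ A, (∀ p ∈ ρ, p.Prime) ∧ β ≤ log (pr ρ)) (hR : R = exp 2 * L ^ κ * exp β)
    (hBK : (∏ i, rc (B i)) / L ^ (2 * κ + 6) ≤
      ∑ ρ ∈ A, 1 / (pr ρ : ℝ) * ‖RS B (fun _ q => 1 / (q : ℝ)) M (pr ρ)‖) :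
    R / L ^ (3 * κ + 9) ≤ (((A.filter fun ρ =>
      ((B 0).card : ℝ) * (∏ i : Fin e, ((B i.succ).card : ℝ)) / L ^ (3 * κ + 9) ≤
        ∑ q ∈ B 0, ‖RS (fun i => B i.succ) (fun i p =>
          if p ∈ B i.succ then exp (η * (k i.succ - 1)) / p else 0) M (pr ρ * q)‖).image
            pr).card : ℝ) := by
  have hL0 : 0 < L := by linarith
  have hL1 : 1 ≤ L := by linarith
  have hR0 : 0 < R := by rw [hR]; positivity
  have hpr : ∀ ρ ∈ A, (0 : ℝ) < pr ρ := fun ρ hρ =>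
    Nat.cast_pos.2 (pr_pos fun p hp => ((hA ρ hρ).1 p hp).ne_zero)
  have hcnt := pig2_cnt A (fun ρ => 1 / (pr ρ : ℝ))
    (fun ρ => ‖RS B (fun _ q => 1 / (q : ℝ)) M (pr ρ)‖)
    (fun ρ => ∑ q ∈ B 0, ‖RS (fun i => B i.succ) (fun i p =>
          if p ∈ B i.succ then exp (η * (k i.succ - 1)) / p else 0) M (pr ρ * q)‖)
    (X := L ^ (3 * κ + 9)) (Y := L ^ (2 * κ + 6)) (m := 9 * L ^ κ / R) hMK0
    (exp_pos _) (by positivity) (by positivity) ?_ ?_ hsum (pig2_W h e4) ?_ hBK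
  · rw [card_image_of_injOn fun S hS T hT h => pr_inj (hA S (mem_filter.1 hS).1).1
      (hA T (mem_filter.1 hT).1).1 h]
    generalize Finset.card _ = g at hcnt ⊢
    have g0 : (0 : ℝ) ≤ g := Nat.cast_nonneg _
    rw [← mul_div_assoc, div_le_div_iff₀ (by positivity) hR0, one_mul] at hcnt
    rw [div_le_iff₀ (by positivity)]
    refine hcnt.trans ?_
    have e1 : g * L ^ (3 * κ + 9) = g * L ^ κ * L ^ (2 * κ + 6) * L ^ 3 := by ring
    have e2 : g * (9 * L ^ κ) * (2 * L ^ (2 * κ + 6)) = g * L ^ κ * L ^ (2 * κ + 6) * 18 := by ring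
    rw [e1, e2]
    refine mul_le_mul_of_nonneg_left ?_ (by positivity)
    have := pow_le_pow_left₀ (by norm_num) hL4 3
    linarith
  · intro ρ hρ
    refine ⟨by positivity, ?_⟩
    have e2 : exp β ≤ pr ρ := (Real.le_log_iff_exp_le (hpr ρ hρ)).1 (hA ρ hρ).2
    have e4 : exp 2 ≤ 9 := by
      rw [show (2 : ℝ) = 1 + 1 by norm_num, Real.exp_add]
      nlinarith [Real.exp_one_lt_d9, Real.exp_pos 1]
    rw [div_le_div_iff₀ (hpr ρ hρ) hR0, one_mul, hR]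
    gcongr
  · intro ρ hρ
    constructor
    · refine (RS_le _ _ _ _).trans (le_of_eq ?_)
      exact prod_congr rfl fun i _ => sum_congr rfl fun q _ => abs_of_nonneg (by positivity)
    · have := RS_split B (fun i => exp (η * (k i - 1))) (fun i => exp_pos _) (fun q hq => by
        have h1 := h 0 q hq
        exact ((Real.lt_log_iff_exp_lt (Nat.cast_pos.2 h1.1.pos)).1 h1.2.1).le) M (pr ρ)
      rwa [← Real.exp_sum] at this
  · have e1 : L ^ (3 * κ + 9) = L * L * L ^ (2 * κ + 6) * L ^ (κ + 1) := by ring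
    have e2 : 1 ≤ L ^ (κ + 1) := one_le_pow₀ hL1
    have e3 : 6 * (C * L) * L ^ (2 * κ + 6) ≤ L * L * L ^ (2 * κ + 6) := by
      refine mul_le_mul_of_nonneg_right ?_ (by positivity)
      nlinarith
    rw [e1]
    exact e3.trans (le_mul_of_one_le_right (by positivity) e2)

theorem pig2_B {e K' : ℕ} {η L l2 : ℝ} {B : Fin (e + 1) → Finset ℕ} {k : Fin (e + 1) → ℕ}
    (hL0 : 0 < L) (hη0 : 0 < η) (hl1 : 1 ≤ l2)
    (hbox : ∀ i, rc (B i) ≤ 1 ∧ ∀ q ∈ B i, q.Prime ∧ η * (k i - 1) < log q ∧ log q ≤ η * k i ∧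
      l2 ^ (8 * i.val + 2) - 1 ≤ η * (k i - 1) ∧ η * k i ≤ l2 ^ (8 * i.val + 4))
    (hMK : 1 / L ^ K' ≤ ∏ i, rc (B i)) :
    (∀ i : Fin (e + 1), l2 ^ 2 - 1 ≤ η * (k i - 1)) ∧ η * (k 0 - 1) ≤ l2 ^ 4 ∧
    (∀ i, exp (η * (k i - 1)) / L ^ K' ≤ (B i).card) ∧
    0 ≤ ∑ i, η * ((k i : ℝ) - 1) ∧ ∑ i, η * ((k i : ℝ) - 1) ≤ (e + 1) * l2 ^ (8 * e + 4) := by
  have hrc0 : ∀ i, 0 ≤ rc (B i) := fun i => sum_nonneg fun _ _ => by positivity
  have hrcl : ∀ i, 1 / L ^ K' ≤ rc (B i) := fun i =>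
    hMK.trans (pig2_one (fun i => rc (B i)) hrc0 (fun i => (hbox i).1) i)
  have hne : ∀ i, (B i).Nonempty := by
    intro i
    rw [nonempty_iff_ne_empty]
    intro h
    have := hrcl i
    rw [h, rc, sum_empty] at this
    have h' : 0 < 1 / L ^ K' := by positivity
    linarith
  have hrc := fun i => pig2_rc (S := B i) (a := η * (k i - 1)) (b := η * k i) fun q hq =>
    ⟨((hbox i).2 q hq).1, ((hbox i).2 q hq).2.1, ((hbox i).2 q hq).2.2.1⟩
  have hlo : ∀ i : Fin (e + 1), l2 ^ (8 * i.val + 2) - 1 ≤ η * (k i - 1) ∧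
      η * k i ≤ l2 ^ (8 * i.val + 4) := fun i => by
    obtain ⟨q, hq⟩ := hne i
    exact ((hbox i).2 q hq).2.2.2
  have hlo2 : ∀ i : Fin (e + 1), l2 ^ 2 - 1 ≤ η * (k i - 1) := fun i => by
    have := pow_le_pow_right₀ hl1 (show 2 ≤ 8 * i.val + 2 by omega)
    linarith [(hlo i).1]
  have h1 : 1 ≤ l2 ^ 2 := one_le_pow₀ hl1
  refine ⟨hlo2, ?_, fun i => ?_, sum_nonneg fun i _ => by linarith [hlo2 i], ?_⟩
  · have := (hlo 0).2
    simp only [Fin.val_zero, mul_zero, zero_add] at this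
    linarith
  · refine le_trans ?_ (hrc i).1
    rw [div_eq_mul_one_div]
    exact mul_le_mul_of_nonneg_left (hrcl i) (exp_pos _).le
  · have : ∑ i, η * ((k i : ℝ) - 1) ≤ ∑ _i : Fin (e + 1), l2 ^ (8 * e + 4) :=
      sum_le_sum fun i _ => by
        have := pow_le_pow_right₀ hl1 (show 8 * i.val + 4 ≤ 8 * e + 4 by have := i.2; omega)
        linarith [(hlo i).2]
    simpa using this

theorem pig2 {t : ℝ} (ht : 0 < t) (θ : ℝ) (κ e K' : ℕ) : ∀ᶠ y : ℕ in atTop,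
    ∀ (N : ℕ) (M : ℤ) (k : Fin (e + 1) → ℕ), 1 / L1 y ^ K' ≤ MK κ e y k →
    MK κ e y k / L1 y ^ (2 * κ + 6) ≤ BK t θ κ e y N M k →
    ∃ (u R : ℝ) (Q0 : Finset ℕ) (Q : Fin e → Finset ℕ) (δ : Fin e → ℕ → ℝ) (G : Finset ℕ),
      InvH (3 * κ + 9) K' e y M u R Q0 Q δ G ∧ R ≤ y * L1 y ^ κ ∧
      ∀ ρ ∈ G, ∃ a ∈ tp t y, ∃ b ∈ bs t y, Good t θ y N a b ∧ a ∣ ρ ∧ b ∣ ρ := by
  obtain ⟨C, hC0, hC⟩ := prod_PL
  filter_upwards [box_str κ e, rows_str ht θ κ e, L1_top.eventually_ge_atTop 4,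
    L1_top.eventually_ge_atTop (6 * C), L1_top.eventually_ge_atTop ((e : ℝ) + 1),
    L2_top.eventually_ge_atTop ((K' : ℝ) + 2), ev_lin ((e : ℝ) + 4) (8 * e + 4) one_half_pos,
    ev_lin (κ : ℝ) 1 (show (0 : ℝ) < 0.1 by norm_num), eventually_ge_atTop 2]
    with y hbox hrows hL4 hLC hLe hl2 hlin1 hlin2 hy2 N M k hMK hBK
  have hL0 : 0 < L1 y := by linarith
  have hL1 : 1 ≤ L1 y := by linarith
  have hK0 : (0 : ℝ) ≤ K' := Nat.cast_nonneg _
  have hl1 : 1 ≤ L2 y := by linarith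
  have hη0 : 0 < et κ y := by rw [et]; positivity
  have hηL : et κ y ≤ 1 / L1 y :=
    one_div_le_one_div_of_le hL0 (le_self_pow₀ hL1 (by omega))
  have hMK0 : 0 < MK κ e y k := lt_of_lt_of_le (by positivity) hMK
  obtain ⟨hlo2, hu, hcard, hs0, hs1⟩ := pig2_B hL0 hη0 hl1 (hbox k) hMK
  have hl2p : L2 y ≤ L2 y ^ (8 * e + 4) := le_self_pow₀ hl1 (by omega)
  have hey : exp (L1 y) = y := exp_L1 (by omega)
  have hel : exp (L2 y) = L1 y := exp_L2 hy2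
  have hbe : be y = L1 y - 3 * L2 y := rfl
  have hbe' : be' κ y = L1 y - 3 * L2 y + κ * L2 y := rfl
  have hκ0 : 0 ≤ (κ : ℝ) * L2 y := by positivity
  have hLk : exp (κ * L2 y) = L1 y ^ κ := by rw [Real.exp_nat_mul, hel]
  have he0 : 0 ≤ (e : ℝ) * L2 y ^ (8 * e + 4) := by positivity
  rw [pow_one] at hlin2
  have e4 : ((e : ℝ) + 1) * et κ y ≤ 1 := by
    have := mul_le_mul hLe hηL hη0.le hL0.le
    rwa [mul_one_div_cancel hL0.ne'] at this
  have hsum : ∑ ρ ∈ Rows (lab (et κ y)) (RgF κ e y) (P1 y) (GoodS t θ κ e y N) k,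
      1 / (pr ρ : ℝ) ≤ C * L1 y := by
    refine (sum_fam (P := P1 y) fun S hS => mem_powerset.1 (mem_filter.1 hS).1).trans ?_
    refine (hC (be y / 2) (by linarith)).trans ?_
    exact mul_le_mul_of_nonneg_left (by linarith) hC0.le
  have hG := pig2_G (R := exp (be' κ y - ∑ i, et κ y * ((k i : ℝ) - 1))) M hL4 hLC
    (fun i q hq => ⟨((hbox k i).2 q hq).1, ((hbox k i).2 q hq).2.1, ((hbox k i).2 q hq).2.2.1⟩)
    e4 hMK0 hsum (fun ρ hρ => ⟨(hrows N k ρ hρ).1, (hrows N k ρ hρ).2.1⟩) (by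
      rw [← hLk, ← Real.exp_add, ← Real.exp_add, hbe, hbe']
      congr 1
      ring) hBK
  refine ⟨et κ y * (k 0 - 1), _, _, fun i => Box (lab (et κ y)) (RgF κ e y) k i.succ,
    fun i p => if p ∈ Box (lab (et κ y)) (RgF κ e y) k i.succ then
      exp (et κ y * (k i.succ - 1)) / p else 0, _, ⟨hlo2 0, hu, ?_, hcard 0, ?_, ?_, ?_, ?_,
      ?_, hG, ?_⟩, ?_, ?_⟩
  rotate_left 6
  · intro ρ hρ
    obtain ⟨S, hS, rfl⟩ := mem_image.1 hρ
    exact (mem_filter.1 hS).2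
  · rw [← hey, ← hLk, ← Real.exp_add, exp_le_exp]
    linarith
  · intro ρ hρ
    obtain ⟨S, hS, rfl⟩ := mem_image.1 hρ
    obtain ⟨a, ha, b', hb', hg, h1, h2⟩ := (hrows N k S (mem_filter.1 hS).1).2.2.2
    exact ⟨a, ha, b', hb', hg, dvd_prod_of_mem _ h1, dvd_prod_of_mem _ h2⟩
  · intro q hq
    obtain ⟨a1, a2, a3, -⟩ := (hbox k 0).2 q hq
    exact ⟨a1, a2.le, by linarith⟩
  · intro i
    constructor
    · refine le_trans ?_ (hcard i.succ)
      rw [le_div_iff₀ (by positivity), ← pow_succ', ← hel, ← Real.exp_nat_mul, exp_le_exp]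
      push_cast
      have := mul_le_mul_of_nonneg_right hl2 (show 0 ≤ L2 y by linarith)
      linarith [hlo2 i.succ]
    · intro q hq
      obtain ⟨a1, a2, a3, a4, a5⟩ := (hbox k i.succ).2 q hq
      rw [Fin.val_succ] at a4 a5
      exact ⟨a1, by linarith, by linarith⟩
  · intro i q
    simp only
    split_ifs with hq
    · obtain ⟨a1, a2, -⟩ := (hbox k i.succ).2 q hq
      have q0 : (0 : ℝ) < q := Nat.cast_pos.2 a1.pos
      rw [abs_of_nonneg (by positivity), div_le_one q0]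
      exact ((Real.lt_log_iff_exp_lt q0).1 a2).le
    · simp
  · rw [← hey, ← Real.exp_half, exp_le_exp]
    linarith
  · rw [← hey, ← Real.exp_mul, exp_le_exp]
    linarith
  · intro ρ hρ
    obtain ⟨S, hS, rfl⟩ := mem_image.1 hρ
    have hS' := (mem_filter.1 hS).1
    have hp := pr_pos fun p hp => ((hrows N k S hS').1 p hp).ne_zero
    exact ⟨hp, (Real.log_le_iff_le_exp (Nat.cast_pos.2 hp)).1 (hrows N k S hS').2.2.1⟩

end Vale.Agent.P013
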