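import Vale.Agent.P013.Pig1
import Vale.Agent.P013.Pig2
import Vale.Agent.P013.I9
import Vale.Agent.P013.Hv2

namespace Vale.Agent.P013

open Finset Real Filter

open Classical

theorem nob {t θ : ℝ} (h0 : 0 < t) (h1 : t ≤ 1 / 100) (h2 : 0 < θ) (h3 : θ ≤ t / 4) (κ : ℕ) :
    ∃ e : ℕ, ∀ᶠ y : ℕ in atTop, ∀ (N n : ℕ) (h : ℤ), h ≠ 0 → |(h : ℝ)| ≤ 2 * L1 y ^ (2 * κ) →
    n < 2 * y → ‖BI t θ κ e y N (h * (N + n))‖ ≤ 1 / L1 y ^ (2 * κ + 4) := by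
  obtain ⟨e, he⟩ := inv (θ := θ / 2) (by linarith) (by linarith) (3 * κ + 9)
  obtain ⟨K', hK⟩ := pig1 h0 θ κ e
  refine ⟨e, ?_⟩
  filter_upwards [he K', hK, pig2 h0 θ κ e K', hv2 h0 h1 h2 h3 κ, eventually_ge_atTop 1]
    with y a1 a2 a3 a4 a5
  intro N n h hh hb hn
  by_contra hc
  obtain ⟨k, k1, k2⟩ := a2 N _ (not_le.mp hc).le
  obtain ⟨u, R, Q0, Q, δ, G, hI, hR, hG⟩ := a3 N _ k k1 k2
  have hC := a1 _ u R Q0 Q δ G hI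
  obtain ⟨-, -, -, -, -, -, r1, -, r2, -, -⟩ := hI
  have hy : (1 : ℝ) ≤ √(y : ℝ) := by
    rw [Real.one_le_sqrt]
    exact_mod_cast a5
  exact a4 N n h R G hh hb hn (hy.trans r1) hR
    (fun ρ hρ => ⟨(r2 ρ hρ).1, (r2 ρ hρ).2, hG ρ hρ⟩) hC

end Vale.Agent.P013
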