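import Vale.Agent.P013.An7
import Vale.Agent.P013.Bas

namespace Vale.Agent.P013

open Finset Real Filter

open Classical

theorem Par1_mul {d m : ℕ} (hd : d ≠ 0) (hm : m ≠ 0) : lam (d * m) = lam d * lam m := by
  rw [lam, lam, lam, ArithmeticFunction.cardFactors_mul hd hm, pow_add]

theorem Par1_pm (n : ℕ) : lam n = 1 ∨ lam n = -1 := neg_one_pow_eq_or ℝ _

theorem par_cnt : ∃ δ C : ℝ, 0 < δ ∧ δ ≤ 1 / 4 ∧ 1 ≤ C ∧ ∀ (x ε : ℝ) (d : ℕ), 0 ≤ x → 0 < d →
    (ε = 1 ∨ ε = -1) →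
    |(((Icc 1 ⌊x⌋₊).filter fun n => lam n = ε ∧ d ∣ n).card : ℝ) - x / (2 * d)| ≤
      C * (x / d) ^ (1 - δ) := by
  obtain ⟨δ, C, h0, h1, hC, h⟩ := liou
  refine ⟨δ, C + 1, h0, h1, by linarith, fun x ε d hx hd hε => ?_⟩
  have hd' : (0 : ℝ) < d := by exact_mod_cast hd
  set y : ℝ := x / d with hy
  have hy0 : 0 ≤ y := by positivity
  have e1 : (Icc 1 ⌊x⌋₊).filter (fun n => lam n = ε ∧ d ∣ n) =
      ((Icc 1 ⌊y⌋₊).filter fun m => lam (d * m) = ε).image fun m => d * m := by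
    ext n
    simp only [mem_filter, mem_Icc, mem_image, hy, Nat.floor_div_natCast]
    constructor
    · rintro ⟨⟨a1, a2⟩, a3, m, rfl⟩
      refine ⟨m, ⟨⟨?_, ?_⟩, a3⟩, rfl⟩
      · rcases Nat.eq_zero_or_pos m with rfl | hm
        · simp at a1
        · exact hm
      · rw [Nat.le_div_iff_mul_le hd, mul_comm]
        exact a2
    · rintro ⟨m, ⟨⟨a1, a2⟩, a3⟩, rfl⟩
      rw [Nat.le_div_iff_mul_le hd, mul_comm] at a2
      exact ⟨⟨Nat.mul_pos hd a1, a2⟩, a3, dvd_mul_right _ _⟩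
  have e2 : (((Icc 1 ⌊y⌋₊).filter fun m => lam (d * m) = ε).card : ℝ) =
      ∑ m ∈ Icc 1 ⌊y⌋₊, (1 / 2 + ε * lam d / 2 * lam m) := by
    rw [card_filter, Nat.cast_sum]
    refine sum_congr rfl fun m hm => ?_
    have hm0 : m ≠ 0 := by have := (mem_Icc.1 hm).1; omega
    rw [Par1_mul hd.ne' hm0]
    rcases hε with rfl | rfl <;> rcases Par1_pm d with a | a <;> rcases Par1_pm m with c | c <;>
      rw [a, c] <;> norm_num
  rw [e1, card_image_of_injective _ (mul_right_injective₀ hd.ne'), e2, sum_add_distrib,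
    ← mul_sum, sum_const, Nat.card_Icc, Nat.add_sub_cancel, nsmul_eq_mul]
  have e3 : x / (2 * d) = y / 2 := by rw [hy]; field_simp
  have h2 := h y hy0
  have h3 : |ε * lam d / 2| ≤ 1 := by
    rcases hε with rfl | rfl <;> rcases Par1_pm d with a | a <;> rw [a] <;> norm_num [abs_le]
  have h4 : |(⌊y⌋₊ : ℝ) * (1 / 2) - y / 2| ≤ y ^ (1 - δ) := by
    have a1 := Nat.floor_le hy0
    have a2 := Nat.lt_floor_add_one y
    have a3 : (0 : ℝ) ≤ ⌊y⌋₊ := Nat.cast_nonneg _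
    rw [abs_le]
    have a4 : 0 ≤ y ^ (1 - δ) := by positivity
    refine ⟨?_, by linarith⟩
    rcases le_total 1 y with c | c
    · have := one_le_rpow c (by linarith : 0 ≤ 1 - δ)
      linarith
    · have : y ≤ y ^ (1 - δ) := by
        rcases hy0.eq_or_lt with c0 | c0
        · rw [← c0] at a4 ⊢
          exact a4
        · have := rpow_le_rpow_of_exponent_ge c0 c (by linarith : 1 - δ ≤ 1)
          rwa [rpow_one] at this
      linarith
  rw [e3]
  calc _ = |((⌊y⌋₊ : ℝ) * (1 / 2) - y / 2) + ε * lam d / 2 * ∑ m ∈ Icc 1 ⌊y⌋₊, lam m| := by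
        congr 1; ring
    _ ≤ y ^ (1 - δ) + 1 * (C * y ^ (1 - δ)) := by
        refine (abs_add_le _ _).trans (add_le_add h4 ?_)
        rw [abs_mul]
        exact mul_le_mul h3 h2 (abs_nonneg _) zero_le_one
    _ = _ := by ring

theorem par_err {δ : ℝ} (h0 : 0 < δ) (h1 : δ ≤ 1) : ∃ C : ℝ, 0 < C ∧
    ∀ (β M : ℝ) (A : Finset (Finset ℕ)), 0 ≤ M → (∀ S ∈ A, 0 < pr S ∧ log (pr S) ≤ β) →
    (∀ b : ℝ, 0 ≤ b →
      ∑ S ∈ A.filter (fun S => β - b ≤ log (pr S)), 1 / (pr S : ℝ) ≤ M * (b + 1) ^ 3) →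
    ∑ S ∈ A, (exp β / pr S) ^ (1 - δ) ≤ C * M * exp β := by
  set r : ℝ := exp (-δ) with hr
  have hr0 : 0 < r := exp_pos _
  have hr1 : ‖r‖ < 1 := by
    rw [Real.norm_eq_abs, abs_of_pos hr0, hr]
    exact exp_lt_one_iff.2 (by linarith)
  have hs : Summable fun j : ℕ => r ^ j * ((j : ℝ) + 1 + 1) ^ 3 := by
    have h3 : Summable fun n : ℕ => (n : ℝ) ^ 3 * r ^ n :=
      summable_pow_mul_geometric_of_norm_lt_one 3 hr1
    have h4 : Summable fun n : ℕ => ((n + 2 : ℕ) : ℝ) ^ 3 * r ^ (n + 2) :=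
      (summable_nat_add_iff (f := fun n : ℕ => (n : ℝ) ^ 3 * r ^ n) 2).2 h3
    refine (h4.mul_left (r ^ 2)⁻¹).congr fun j => ?_
    push_cast
    field_simp
    ring
  have hs0 : ∀ j : ℕ, 0 ≤ r ^ j * ((j : ℝ) + 1 + 1) ^ 3 := fun j => by positivity
  refine ⟨∑' j : ℕ, r ^ j * ((j : ℝ) + 1 + 1) ^ 3 + 1,
    add_pos_of_nonneg_of_pos (tsum_nonneg hs0) one_pos, fun β M A hM hA hb => ?_⟩
  set g : Finset ℕ → ℕ := fun S => ⌊β - log (pr S)⌋₊ with hg
  have h2 : ∀ S ∈ A, (exp β / pr S) ^ (1 - δ) ≤ exp β * (r ^ g S * (1 / (pr S : ℝ))) := by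
    intro S hS
    have hp : (0 : ℝ) < pr S := by exact_mod_cast (hA S hS).1
    have hf : (g S : ℝ) ≤ β - log (pr S) := Nat.floor_le (by linarith [(hA S hS).2])
    have e : exp β / pr S = exp (β - log (pr S)) := by rw [exp_sub, exp_log hp]
    have e' : (1 / (pr S : ℝ)) = exp (-log (pr S)) := by rw [exp_neg, exp_log hp, one_div]
    rw [e, e', ← exp_mul, hr, ← exp_nat_mul, ← exp_add, ← exp_add]
    refine exp_le_exp.2 ?_
    nlinarith
  refine (sum_le_sum h2).trans ?_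
  rw [← mul_sum, mul_comm]
  refine mul_le_mul_of_nonneg_right ?_ (exp_pos _).le
  rw [← Finset.sum_fiberwise_of_maps_to (s := A) (t := A.image g) (g := g)
    (fun S hS => mem_image_of_mem _ hS)]
  calc _ ≤ ∑ j ∈ A.image g, r ^ j * ((j : ℝ) + 1 + 1) ^ 3 * M := by
        refine sum_le_sum fun j _ => ?_
        have e : ∑ S ∈ A.filter (fun S => g S = j), r ^ g S * (1 / (pr S : ℝ)) =
            r ^ j * ∑ S ∈ A.filter (fun S => g S = j), 1 / (pr S : ℝ) := by
          rw [mul_sum]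
          exact sum_congr rfl fun S hS => by rw [(mem_filter.1 hS).2]
        rw [e, mul_assoc, mul_comm _ M]
        refine mul_le_mul_of_nonneg_left (le_trans ?_ (hb (j + 1) (by positivity)))
          (by positivity)
        refine sum_le_sum_of_subset_of_nonneg (fun S hS => ?_) fun S _ _ => by positivity
        obtain ⟨a, c⟩ := mem_filter.1 hS
        refine mem_filter.2 ⟨a, ?_⟩
        have := Nat.lt_floor_add_one (β - log (pr S))
        rw [← c]
        simp only [hg]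
        linarith
    _ ≤ _ := by
        rw [← sum_mul]
        refine mul_le_mul_of_nonneg_right ?_ hM
        have := hs.sum_le_tsum (A.image g) fun j _ => hs0 j
        linarith

end Vale.Agent.P013
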