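import Vale.Agent.P013.SI

namespace Vale.Agent.P013

open Finset Real Filter

open Classical

theorem Par2_log_le {η β u : ℝ} {σ : ℕ} (hσ : σ < 2) (hη : 0 < η) (hβ : 0 ≤ β) (hu : u ≤ β)
    {S : Finset ℕ} (hS : S ⊆ PL u) (h : Alive (okR η β) σ S) : log (pr S) ≤ β := by
  have h0 : ∀ p ∈ S, p ≠ 0 := fun p hp => (mem_PL.1 (hS hp)).1.ne_zero
  rcases S.eq_empty_or_nonempty with rfl | hne
  · simpa [pr] using hβ
  set p := S.min' hne with hp
  have hpS : p ∈ S := S.min'_mem hne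
  have hup : up S p = S := filter_true_of_mem fun q hq => S.min'_le q hq
  by_cases hc : S.card % 2 = σ
  · have h1 := h p hpS (by rwa [hup])
    rw [hup, okR] at h1
    have := le_lS hη h0
    have := rl_nonneg hη p
    linarith
  have hlog : log (pr S) = log (pr (S.erase p)) + log p := by
    rw [log_pr h0, log_pr fun q hq => h0 q (mem_of_mem_erase hq), sum_erase_add _ _ hpS]
  rcases (S.erase p).eq_empty_or_nonempty with he | hne'
  · rw [hlog, he]
    have := (mem_PL.1 (hS hpS)).2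
    simp only [pr, prod_empty, Nat.cast_one, log_one]
    linarith
  set p' := (S.erase p).min' hne' with hp'
  have hp'S : p' ∈ S.erase p := (S.erase p).min'_mem hne'
  have hlt : p < p' := lt_of_le_of_ne (S.min'_le _ (mem_of_mem_erase hp'S))
    (ne_of_mem_erase hp'S).symm
  have hup' : up S p' = S.erase p := by
    ext q
    simp only [up, mem_filter, mem_erase]
    constructor
    · rintro ⟨h1, h2⟩
      exact ⟨by omega, h1⟩
    · rintro ⟨h1, h2⟩
      exact ⟨h2, (S.erase p).min'_le q (mem_erase.2 ⟨h1, h2⟩)⟩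
  have hcard := card_erase_add_one hpS
  have h1 := h p' (mem_of_mem_erase hp'S) (by rw [hup']; omega)
  rw [hup', okR] at h1
  have h2 := le_lS hη fun q (hq : q ∈ S.erase p) => h0 q (mem_of_mem_erase hq)
  have h3 := rl_nonneg hη p'
  have h4 := le_rl hη p
  have h5 := rl_mono hη (h0 p hpS) hlt.le
  linarith

theorem alive_near {η β u : ℝ} {σ : ℕ} (hσ : σ < 2) (hη : 0 < η) (hβ : 0 ≤ β) (hu : u ≤ β)
    {S : Finset ℕ} (h : S ∈ AS (okR η β) σ (PL u)) : Near σ β S := by
  obtain ⟨h1, h2⟩ := mem_filter.1 h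
  rw [mem_powerset] at h1
  refine ⟨Par2_log_le hσ hη hβ hu h1 h2, fun p hp _ hc => ?_⟩
  have h3 := h2 p hp hc
  rw [okR] at h3
  have h4 := le_lS hη fun q (hq : q ∈ up S p) => (mem_PL.1 (h1 (mem_filter.1 hq).1)).1.ne_zero
  have h5 := le_rl hη p
  linarith

theorem disc_near {η β u : ℝ} {σ p : ℕ} (hσ : σ < 2) (hη : 0 < η) (hβ : 0 ≤ β) (hu : u ≤ β)
    (he : η * (2 * β + 4) ≤ 1) {T : Finset ℕ} (h : T ∈ DS (okR η β) σ (PL u) p) :
    (log (pr T) ≤ β → Near σ β T) ∧ exp (β - 1) < (pr T : ℝ) * (p : ℝ) ^ 2 := by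
  obtain ⟨h1, hp, hmin, hc, hno, hal⟩ := mem_filter.1 h
  rw [mem_powerset] at h1
  have h0 : ∀ q ∈ T, q ≠ 0 := fun q hq => (mem_PL.1 (h1 hq)).1.ne_zero
  constructor
  · intro hl
    refine ⟨hl, fun q hq ⟨r, hr, hrq⟩ hc' => ?_⟩
    have hpq : p < q := lt_of_le_of_lt (hmin r hr) hrq
    have hup : up (T.erase p) q = up T q := by
      ext x
      simp only [up, mem_filter, mem_erase]
      constructor
      · rintro ⟨⟨-, h3⟩, h4⟩
        exact ⟨h3, h4⟩
      · rintro ⟨h3, h4⟩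
        exact ⟨⟨by omega, h3⟩, h4⟩
    have h3 := hal q (mem_erase.2 ⟨hpq.ne', hq⟩) (by rwa [hup])
    rw [hup, okR] at h3
    have h4 := le_lS hη fun x (hx : x ∈ up T q) => h0 x (mem_filter.1 hx).1
    have h5 := le_rl hη q
    linarith
  · have h2 := Par2_log_le hσ hη hβ hu ((erase_subset p T).trans h1) hal
    have h3 := card_le_log (S := T.erase p) fun q hq => (mem_PL.1 (h1 (mem_of_mem_erase hq))).1
    have h4 : (T.card : ℝ) = (T.erase p).card + 1 := by exact_mod_cast (card_erase_add_one hp).symm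
    have h5 := lS_le hη h0
    have h6 := rl_le hη p
    rw [okR, not_le] at hno
    have h7 : η * T.card ≤ η * (2 * β + 2) := mul_le_mul_of_nonneg_left (by linarith) hη.le
    have hpr : (0 : ℝ) < pr T := by exact_mod_cast pr_pos h0
    have hp0 : (0 : ℝ) < p := by exact_mod_cast Nat.pos_of_ne_zero (h0 p hp)
    rw [← lt_log_iff_exp_lt (by positivity), log_mul hpr.ne' (by positivity), log_pow]
    push_cast
    linarith

theorem Par2_lam_mul {a b : ℕ} (ha : a ≠ 0) (hb : b ≠ 0) : lam (a * b) = lam a * lam b := by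
  rw [lam, lam, lam, ArithmeticFunction.cardFactors_mul ha hb, pow_add]

theorem Par2_lam_prime {p : ℕ} (hp : p.Prime) : lam p = -1 := by
  rw [lam, ArithmeticFunction.cardFactors_apply_prime hp, pow_one]

theorem Par2_lam_pr {T : Finset ℕ} (h : ∀ q ∈ T, q.Prime) : lam (pr T) = (-1) ^ T.card := by
  induction T using Finset.induction_on with
  | empty => simp [lam, pr]
  | insert a T ha ih =>
    have h1 : ∀ q ∈ T, q.Prime := fun q hq => h q (mem_insert_of_mem hq)
    have h2 := h a (mem_insert_self _ _)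
    have h3 : pr (insert a T) = a * pr T := by rw [pr, prod_insert ha, pr]
    rw [h3, Par2_lam_mul h2.ne_zero (pr_pos fun q hq => (h1 q hq).ne_zero).ne', ih h1,
      Par2_lam_prime h2, card_insert_of_notMem ha, pow_succ]
    ring

theorem Par2_one {m p : ℕ} (hm : m ≠ 0) (hlt : m < p ^ 2)
    (h : ∀ q, q.Prime → q ∣ m → p ≤ q) (hl : lam m = 1) : m = 1 := by
  by_contra h1
  have h2 := Nat.minFac_prime h1
  by_cases h3 : m.Prime
  · rw [Par2_lam_prime h3] at hl
    norm_num at hl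
  · have h4 := Nat.minFac_sq_le_self (Nat.pos_of_ne_zero hm) h3
    have h5 := Nat.pow_le_pow_left (h _ h2 (Nat.minFac_dvd m)) 2
    omega

theorem Par2_cnt {η β u : ℝ} {σ p : ℕ} (hσ : σ < 2) (hη : 0 < η) (hβ : 0 ≤ β) (hu : u ≤ β)
    (he : η * (2 * β + 4) ≤ 1) {T : Finset ℕ} (h : T ∈ DS (okR η β) σ (PL u) p) :
    ∑ n ∈ (Icc 1 ⌊exp (β - 1)⌋₊).filter (fun n => lam n = (-1) ^ σ),
      (∏ q ∈ T, if q ∣ n then (1 : ℝ) else 0) *
        ∏ q ∈ lo (PL u) p, (1 - if q ∣ n then (1 : ℝ) else 0) ≤ if Near σ β T then 1 else 0 := by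
  obtain ⟨k1, k2⟩ := disc_near hσ hη hβ hu he h
  obtain ⟨h1, hp, hmin, hc, -, -⟩ := mem_filter.1 h
  rw [mem_powerset] at h1
  have hT : ∀ q ∈ T, q.Prime := fun q hq => (mem_PL.1 (h1 hq)).1
  have hpr := pr_pos fun q hq => (hT q hq).ne_zero
  have key : ∀ n ∈ (Icc 1 ⌊exp (β - 1)⌋₊).filter (fun n => lam n = (-1) ^ σ),
      (∏ q ∈ T, if q ∣ n then (1 : ℝ) else 0) *
        ∏ q ∈ lo (PL u) p, (1 - if q ∣ n then (1 : ℝ) else 0) ≤
      if n = pr T then (if Near σ β T then 1 else 0) else 0 := by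
    intro n hn
    obtain ⟨hn1, hn2⟩ := mem_filter.1 hn
    obtain ⟨hn3, hn4⟩ := mem_Icc.1 hn1
    have hnn : (0 : ℝ) ≤ if n = pr T then (if Near σ β T then 1 else 0) else 0 := by
      split_ifs <;> norm_num
    by_cases a1 : ∀ q ∈ T, q ∣ n
    swap
    · push Not at a1
      obtain ⟨q, hq, hq'⟩ := a1
      rw [prod_eq_zero hq (if_neg hq'), zero_mul]
      exact hnn
    by_cases a2 : ∀ q ∈ lo (PL u) p, ¬ q ∣ n
    swap
    · push Not at a2
      obtain ⟨q, hq, hq'⟩ := a2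
      rw [prod_eq_zero hq (by rw [if_pos hq', sub_self]), mul_zero]
      exact hnn
    rw [prod_eq_one fun q hq => if_pos (a1 q hq),
      prod_eq_one fun q hq => by rw [if_neg (a2 q hq), sub_zero], mul_one]
    obtain ⟨m, rfl⟩ := (pr_dvd_iff hT n).2 a1
    have hm : m ≠ 0 := by rintro rfl; simp at hn3
    have hle : ((pr T * m : ℕ) : ℝ) ≤ exp (β - 1) :=
      (Nat.le_floor_iff (exp_pos _).le).1 hn4
    have hpr' : (0 : ℝ) < pr T := by exact_mod_cast hpr
    have hlt : m < p ^ 2 := by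
      have h2 := hle.trans_lt k2
      push_cast at h2
      exact_mod_cast lt_of_mul_lt_mul_left h2 hpr'.le
    have hl : lam m = 1 := by
      rw [Par2_lam_mul hpr.ne' hm, Par2_lam_pr hT, ← hc, ← neg_one_pow_eq_pow_mod_two] at hn2
      exact mul_left_cancel₀ (pow_ne_zero _ (by norm_num)) (hn2.trans (mul_one _).symm)
    have hm1 : m = 1 := Par2_one hm hlt (fun q hq hqm => by
      by_contra hlt'
      refine a2 q (mem_filter.2 ⟨mem_PL.2 ⟨hq, ?_⟩, by omega⟩) (hqm.mul_left _)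
      refine le_trans (log_le_log (by exact_mod_cast hq.pos) ?_) (mem_PL.1 (h1 hp)).2
      exact_mod_cast (not_le.1 hlt').le) hl
    subst hm1
    rw [mul_one] at hle ⊢
    rw [if_pos rfl, if_pos (k1 ?_)]
    have := log_le_log hpr' hle
    rw [log_exp] at this
    linarith
  refine (sum_le_sum key).trans ?_
  rw [sum_ite_eq']
  split_ifs <;> norm_num

/-- exact identity for the parity example, with the discarded terms bounded -/
theorem par_id {η β u : ℝ} {σ : ℕ} (hσ : σ < 2) (hη : 0 < η) (hβ : 0 ≤ β) (hu : u ≤ β)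
    (he : η * (2 * β + 4) ≤ 1) :
    |∑ S ∈ AS (okR η β) σ (PL u), (-1 : ℝ) ^ S.card *
        (((Icc 1 ⌊exp (β - 1)⌋₊).filter fun n => lam n = (-1) ^ σ ∧ pr S ∣ n).card : ℝ) -
      (((Icc 1 ⌊exp (β - 1)⌋₊).filter fun n => lam n = (-1) ^ σ ∧ ∀ p ∈ PL u, ¬ p ∣ n).card : ℝ)| ≤
    (((PL u).powerset.filter fun T => Near σ β T).filter
      fun T => ∃ p, Disc (okR η β) σ T p).card := by
  set N := (Icc 1 ⌊exp (β - 1)⌋₊).filter (fun n => lam n = (-1) ^ σ) with hN
  have e1 : ∑ S ∈ AS (okR η β) σ (PL u), (-1 : ℝ) ^ S.card *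
        (((Icc 1 ⌊exp (β - 1)⌋₊).filter fun n => lam n = (-1) ^ σ ∧ pr S ∣ n).card : ℝ) =
      ∑ n ∈ N, SV (okR η β) σ (PL u) fun q => if q ∣ n then (1 : ℝ) else 0 := by
    simp only [SV]
    rw [sum_comm]
    refine sum_congr rfl fun S hS => ?_
    have hS' : ∀ q ∈ S, q.Prime := fun q hq =>
      (mem_PL.1 (mem_powerset.1 (mem_filter.1 hS).1 hq)).1
    rw [← mul_sum, ← filter_filter, ← hN, card_filter]
    push_cast
    congr 1
    refine sum_congr rfl fun n _ => ?_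
    rw [prod_ite_zero, prod_const_one]
    exact if_congr (pr_dvd_iff hS' n) rfl rfl
  have e2 : (((Icc 1 ⌊exp (β - 1)⌋₊).filter
      fun n => lam n = (-1) ^ σ ∧ ∀ p ∈ PL u, ¬ p ∣ n).card : ℝ) =
      ∑ n ∈ N, ∏ q ∈ PL u, (1 - if q ∣ n then (1 : ℝ) else 0) := by
    rw [← filter_filter, ← hN, card_filter]
    push_cast
    refine sum_congr rfl fun n _ => ?_
    split_ifs with a2
    · exact (prod_eq_one fun q hq => by rw [if_neg (a2 q hq), sub_zero]).symm
    · push Not at a2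
      obtain ⟨q, hq, hq'⟩ := a2
      exact (prod_eq_zero hq (by rw [if_pos hq', sub_self])).symm
  rw [e1, e2, ← sum_sub_distrib]
  simp only [si _ hσ, sub_sub_cancel_left, sum_neg_distrib, abs_neg, ← mul_sum, abs_mul, abs_pow,
    abs_one, one_pow, one_mul]
  rw [abs_of_nonneg (sum_nonneg fun n _ => sum_nonneg fun p _ => sum_nonneg fun T _ =>
    mul_nonneg (prod_nonneg fun q _ => by split_ifs <;> norm_num)
      (prod_nonneg fun q _ => by split_ifs <;> norm_num)), sum_comm]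
  calc _ = ∑ p ∈ PL u, ∑ T ∈ DS (okR η β) σ (PL u) p, ∑ n ∈ N,
        (∏ q ∈ T, if q ∣ n then (1 : ℝ) else 0) *
          ∏ q ∈ lo (PL u) p, (1 - if q ∣ n then (1 : ℝ) else 0) :=
        sum_congr rfl fun p _ => sum_comm
    _ ≤ ∑ p ∈ PL u, ∑ T ∈ DS (okR η β) σ (PL u) p, if Near σ β T then (1 : ℝ) else 0 :=
        sum_le_sum fun p _ => sum_le_sum fun T hT => Par2_cnt hσ hη hβ hu he hT
    _ = ∑ p ∈ PL u, (((DS (okR η β) σ (PL u) p).filter fun T => Near σ β T).card : ℝ) := by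
        refine sum_congr rfl fun p _ => ?_
        rw [card_filter]; push_cast; rfl
    _ ≤ _ := by
        rw [← Nat.cast_sum, ← card_biUnion]
        · refine Nat.cast_le.2 (card_le_card fun T hT => ?_)
          obtain ⟨p, -, hp⟩ := mem_biUnion.1 hT
          obtain ⟨h1, h2⟩ := mem_filter.1 hp
          obtain ⟨h3, h4⟩ := mem_filter.1 h1
          exact mem_filter.2 ⟨mem_filter.2 ⟨h3, h2⟩, p, h4⟩
        · intro p _ p' _ hne
          refine disjoint_left.2 fun T h1 h2 => hne ?_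
          have h3 := (mem_filter.1 (mem_filter.1 h1).1).2
          have h4 := (mem_filter.1 (mem_filter.1 h2).1).2
          exact le_antisymm (h3.2.1 _ h4.1) (h4.2.1 _ h3.1)

end Vale.Agent.P013
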