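import Vale.Agent.P013.Par1
import Vale.Agent.P013.Par2
import Vale.Agent.P013.MLA
import Vale.Agent.P013.MLB

namespace Vale.Agent.P013

open Finset Real Filter

open Classical

theorem Par3_err {δ : ℝ} (h0 : 0 < δ) (h1 : δ ≤ 1) : ∃ C : ℝ, 0 < C ∧
    ∀ (β u : ℝ) (σ : ℕ) (A : Finset (Finset ℕ)), 2 ≤ β →
    (σ = 0 ∧ u ≤ β / 2 ∨ σ = 1 ∧ u ≤ 2 * β / 3) → (∀ S ∈ A, S ⊆ PL u ∧ Near σ β S) →
    ∑ S ∈ A, (exp β / pr S) ^ (1 - δ) ≤ C * (exp β * log β / β ^ 2) := by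
  obtain ⟨C2, hC2, h2⟩ := par_err h0 h1
  obtain ⟨Ca, hCa, ha⟩ := mla
  obtain ⟨Cb, hCb, hb⟩ := mlb
  refine ⟨C2 * (Ca + Cb), by positivity, fun β u σ A hβ hσ hA => ?_⟩
  have hl : 0 ≤ log β := log_nonneg (by linarith)
  have hq : 0 ≤ log β / β ^ 2 := by positivity
  have h3 := h2 β ((Ca + Cb) * (log β / β ^ 2)) A (by positivity)
    (fun S hS => ⟨pr_pos fun p hp => (mem_PL.1 ((hA S hS).1 hp)).1.ne_zero, (hA S hS).2.1⟩)
    (fun b hb0 => by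
      have hw : 0 ≤ (b + 1) ^ 3 * (log β / β ^ 2) := by positivity
      rcases hσ with ⟨rfl, hu⟩ | ⟨rfl, hu⟩
      · have := hb β b (A.filter fun S => β - b ≤ log (pr S)) hβ hb0 fun S hS => by
          obtain ⟨k1, k2⟩ := mem_filter.1 hS
          exact ⟨fun p hp => ⟨(mem_PL.1 ((hA S k1).1 hp)).1,
            (mem_PL.1 ((hA S k1).1 hp)).2.trans hu⟩, (hA S k1).2, k2⟩
        refine this.trans ?_
        have e : Cb * (b + 1) ^ 3 * log β / β ^ 2 = Cb * ((b + 1) ^ 3 * (log β / β ^ 2)) := by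
          ring
        rw [e]
        nlinarith [mul_nonneg hCa.le hw]
      · have := ha β b (A.filter fun S => β - b ≤ log (pr S)) hβ hb0 fun S hS => by
          obtain ⟨k1, k2⟩ := mem_filter.1 hS
          exact ⟨fun p hp => ⟨(mem_PL.1 ((hA S k1).1 hp)).1,
            (mem_PL.1 ((hA S k1).1 hp)).2.trans hu⟩, (hA S k1).2, k2⟩
        refine this.trans ?_
        have e : Ca * (b + 1) ^ 3 * log β / β ^ 2 = Ca * ((b + 1) ^ 3 * (log β / β ^ 2)) := by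
          ring
        rw [e]
        nlinarith [mul_nonneg hCb.le hw])
  refine h3.trans (le_of_eq ?_)
  ring

theorem parg : ∃ C : ℝ, 0 < C ∧ ∀ (η β u : ℝ) (σ : ℕ), 2 ≤ β → 0 < η → η * (2 * β + 4) ≤ 1 →
    (σ = 0 ∧ u ≤ β / 2 ∨ σ = 1 ∧ u ≤ 2 * β / 3) →
    |VV (okR η β) σ (PL u) * (exp (β - 1) / 2) -
      (((Icc 1 ⌊exp (β - 1)⌋₊).filter fun n => lam n = (-1) ^ σ ∧ ∀ p ∈ PL u, ¬ p ∣ n).card : ℝ)| ≤
      C * exp β * log β / β ^ 2 := by
  obtain ⟨δ, C1, hδ, hδ1, hC1, h1⟩ := par_cnt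
  obtain ⟨C, hC, h2⟩ := Par3_err hδ (by linarith)
  refine ⟨(C1 + 1) * C, by positivity, fun η β u σ hβ hη he hσ => ?_⟩
  have hσ2 : σ < 2 := by rcases hσ with ⟨rfl, -⟩ | ⟨rfl, -⟩ <;> norm_num
  have hu : u ≤ β := by rcases hσ with ⟨-, h⟩ | ⟨-, h⟩ <;> linarith
  have hε : (-1 : ℝ) ^ σ = 1 ∨ (-1 : ℝ) ^ σ = -1 := neg_one_pow_eq_or ℝ σ
  have h3 := par_id hσ2 hη (by linarith) hu he
  have hpos : ∀ S : Finset ℕ, S ⊆ PL u → 0 < pr S := fun S hS =>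
    pr_pos fun p hp => (mem_PL.1 (hS hp)).1.ne_zero
  have h4 := h2 β u σ (AS (okR η β) σ (PL u)) hβ hσ fun S hS =>
    ⟨mem_powerset.1 (mem_filter.1 hS).1, alive_near hσ2 hη (by linarith) hu hS⟩
  set A' := ((PL u).powerset.filter fun T => Near σ β T).filter
      fun T => ∃ p, Disc (okR η β) σ T p with hA'
  have hA'' : ∀ S ∈ A', S ⊆ PL u ∧ Near σ β S := fun S hS =>
    ⟨mem_powerset.1 (mem_filter.1 (mem_filter.1 hS).1).1, (mem_filter.1 (mem_filter.1 hS).1).2⟩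
  have h5 := h2 β u σ A' hβ hσ hA''
  have h6 : (A'.card : ℝ) ≤ ∑ S ∈ A', (exp β / pr S) ^ (1 - δ) := by
    rw [card_eq_sum_ones]
    push_cast
    refine sum_le_sum fun S hS => one_le_rpow ?_ (by linarith)
    have hp : (0 : ℝ) < pr S := by exact_mod_cast hpos S (hA'' S hS).1
    rw [le_div_iff₀ hp, one_mul, ← log_le_iff_le_exp hp]
    exact (hA'' S hS).2.1
  have h7 : |VV (okR η β) σ (PL u) * (exp (β - 1) / 2) -
      ∑ S ∈ AS (okR η β) σ (PL u), (-1 : ℝ) ^ S.card *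
        (((Icc 1 ⌊exp (β - 1)⌋₊).filter fun n => lam n = (-1) ^ σ ∧ pr S ∣ n).card : ℝ)| ≤
      C1 * ∑ S ∈ AS (okR η β) σ (PL u), (exp β / pr S) ^ (1 - δ) := by
    rw [VV, sum_mul, ← sum_sub_distrib, mul_sum]
    refine (abs_sum_le_sum_abs _ _).trans (sum_le_sum fun S hS => ?_)
    have hp := hpos S (mem_powerset.1 (mem_filter.1 hS).1)
    have hp' : (0 : ℝ) < pr S := by exact_mod_cast hp
    have h8 := h1 (exp (β - 1)) ((-1) ^ σ) (pr S) (exp_pos _).le hp hε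
    have e : ∀ c : ℝ, (-1 : ℝ) ^ S.card / (pr S : ℝ) * (exp (β - 1) / 2) - (-1 : ℝ) ^ S.card * c =
        -((-1 : ℝ) ^ S.card * (c - exp (β - 1) / (2 * (pr S : ℝ)))) := fun c => by
      field_simp
      ring
    rw [e, abs_neg, abs_mul, abs_pow, abs_neg, abs_one, one_pow, one_mul]
    refine h8.trans (mul_le_mul_of_nonneg_left (rpow_le_rpow (by positivity) ?_ (by linarith))
      (by linarith))
    exact div_le_div_of_nonneg_right (exp_le_exp.2 (by linarith)) hp'.le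
  have h9 := mul_le_mul_of_nonneg_left h4 (show 0 ≤ C1 by linarith)
  refine (abs_sub_le _ _ _).trans ((add_le_add h7 h3).trans ?_)
  have e : (C1 + 1) * C * exp β * log β / β ^ 2 =
      C1 * (C * (exp β * log β / β ^ 2)) + C * (exp β * log β / β ^ 2) := by ring
  rw [e]
  linarith

end Vale.Agent.P013
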