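import Vale.Agent.P013.Par3
import Vale.Agent.P013.An9

namespace Vale.Agent.P013

open Finset Real Filter

open Classical

theorem par4_prime {β u : ℝ} {n : ℕ} (h1 : β ≤ 3 * u) (hn1 : 1 ≤ n) (hn : (n : ℝ) ≤ exp (β - 1))
    (hl : lam n = -1) (hp : ∀ p ∈ PL u, ¬ p ∣ n) : n.Prime := by
  have hn0 : n ≠ 0 := by omega
  have hlog : log n ≤ β - 1 := by
    have := Real.log_le_log (by exact_mod_cast hn1.trans_lt' Nat.zero_lt_one) hn
    rwa [log_exp] at this
  have hall : ∀ p ∈ n.primeFactorsList, u < log p := fun p hpm => by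
    by_contra hc
    exact hp p (mem_PL.2 ⟨Nat.prime_of_mem_primeFactorsList hpm, not_lt.1 hc⟩)
      (Nat.dvd_of_mem_primeFactorsList hpm)
  have hsum : ∀ L : List ℕ, (∀ p ∈ L, p ≠ 0) → (∀ p ∈ L, u < log p) →
      L.length * u ≤ log (L.prod : ℕ) := by
    intro L
    induction L with
    | nil => intro _ _; simp
    | cons a L ih =>
      intro h0 h
      have ha : a ≠ 0 := h0 a (by simp)
      have hL : L.prod ≠ 0 := List.prod_ne_zero fun hh => h0 0 (by simp [hh]) rfl
      have := ih (fun p hp => h0 p (by simp [hp])) (fun p hp => h p (by simp [hp]))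
      have h2 := h a (by simp)
      rw [List.prod_cons, Nat.cast_mul, Real.log_mul (by exact_mod_cast ha) (by exact_mod_cast hL),
        List.length_cons, Nat.cast_succ]
      linarith
  have h3 := hsum n.primeFactorsList
    (fun p hpm => (Nat.prime_of_mem_primeFactorsList hpm).ne_zero) hall
  rw [Nat.prod_primeFactorsList hn0] at h3
  have hl0 : 0 ≤ log n := Real.log_natCast_nonneg n
  have hlen : n.primeFactorsList.length < 3 := by
    by_contra hc
    have h4 : (3 : ℝ) ≤ n.primeFactorsList.length := by exact_mod_cast not_lt.1 hc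
    have hu : 0 < u := by linarith
    nlinarith
  have hc : ArithmeticFunction.cardFactors n = n.primeFactorsList.length :=
    ArithmeticFunction.cardFactors_apply
  rw [← ArithmeticFunction.cardFactors_eq_one_iff_prime]
  rw [lam] at hl
  rw [← hc] at hlen
  generalize ArithmeticFunction.cardFactors n = m at hl hlen
  interval_cases m
  · norm_num at hl
  · rfl
  · norm_num at hl

theorem par4_count {β u : ℝ} (h1 : β ≤ 3 * u) (h2 : u ≤ β - 1) :
    (((Icc 1 ⌊exp (β - 1)⌋₊).filter fun n => lam n = (-1) ^ 1 ∧ ∀ p ∈ PL u, ¬ p ∣ n).card : ℝ) =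
      ((PL (β - 1)).card : ℝ) - (PL u).card := by
  have hsub : PL u ⊆ PL (β - 1) := fun p hp =>
    mem_PL.2 ⟨(mem_PL.1 hp).1, (mem_PL.1 hp).2.trans h2⟩
  have h : ((Icc 1 ⌊exp (β - 1)⌋₊).filter fun n => lam n = (-1) ^ 1 ∧ ∀ p ∈ PL u, ¬ p ∣ n) =
      PL (β - 1) \ PL u := by
    ext n
    rw [mem_filter, mem_Icc, Finset.mem_sdiff, pow_one, Nat.le_floor_iff (exp_pos _).le]
    constructor
    · rintro ⟨⟨ha, hb⟩, hc, hd⟩
      have hpr := par4_prime h1 ha hb hc hd
      refine ⟨mem_PL.2 ⟨hpr, ?_⟩, fun hm => hd n hm dvd_rfl⟩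
      have := Real.log_le_log (by exact_mod_cast hpr.pos) hb
      rwa [log_exp] at this
    · rintro ⟨ha, hb⟩
      obtain ⟨hpr, hl⟩ := mem_PL.1 ha
      refine ⟨⟨hpr.one_le, ?_⟩, ?_, fun p hp hd => hb ?_⟩
      · rw [← exp_log (x := (n : ℝ)) (by exact_mod_cast hpr.pos)]
        exact exp_le_exp.2 hl
      · rw [lam, ArithmeticFunction.cardFactors_apply_prime hpr, pow_one]
      · rwa [← (Nat.prime_dvd_prime_iff_eq (mem_PL.1 hp).1 hpr).1 hd]
  rw [h, card_sdiff_of_subset hsub, Nat.cast_sub (card_le_card hsub)]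

theorem par4_card (u : ℝ) : ((PL u).card : ℝ) ≤ exp u := by
  have h : PL u ⊆ Icc 1 ⌊exp u⌋₊ := fun p hp => by
    rw [PL, mem_filter, mem_range] at hp
    exact mem_Icc.2 ⟨hp.2.one_le, by omega⟩
  have h1 := card_le_card h
  rw [Nat.card_Icc] at h1
  calc ((PL u).card : ℝ) ≤ (⌊exp u⌋₊ : ℕ) := by exact_mod_cast (by omega)
    _ ≤ exp u := Nat.floor_le (exp_pos _).le

theorem par0 : ∃ C : ℝ, 0 < C ∧ ∀ η β u : ℝ, 2 ≤ β → 0 < η → η * (2 * β + 4) ≤ 1 → u ≤ β / 2 →
    -(C * log β / β ^ 2) ≤ VV (okR η β) 0 (PL u) := by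
  obtain ⟨C, hC, h⟩ := parg
  refine ⟨2 * exp 1 * C, by positivity, fun η β u hβ hη he hu => ?_⟩
  have h1 := (abs_le.1 (h η β u 0 hβ hη he (Or.inl ⟨rfl, hu⟩))).1
  have hX : 0 < exp (β - 1) := exp_pos _
  have hE : exp β = exp (β - 1) * exp 1 := by rw [← exp_add]; congr 1; ring
  have h2 : -(2 * exp 1 * C * log β / β ^ 2) * (exp (β - 1) / 2) ≤
      VV (okR η β) 0 (PL u) * (exp (β - 1) / 2) := by
    have h3 : -(2 * exp 1 * C * log β / β ^ 2) * (exp (β - 1) / 2) =
        -(C * exp β * log β / β ^ 2) := by rw [hE]; ring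
    rw [h3]
    exact h1.trans (sub_le_self _ (Nat.cast_nonneg _))
  exact le_of_mul_le_mul_right h2 (by positivity)

theorem par1 : ∃ C : ℝ, 0 < C ∧ ∀ η β u : ℝ, 3 ≤ β → 0 < η → η * (2 * β + 4) ≤ 1 → β ≤ 3 * u →
    u ≤ 2 * β / 3 → |VV (okR η β) 1 (PL u) - 2 / β| ≤ C * log β / β ^ 2 := by
  obtain ⟨C, hC, h⟩ := parg
  obtain ⟨C2, hC2, hpi⟩ := pi_asy
  refine ⟨2 * exp 1 * C + 9 / 2 * C2 + 36 * exp 1 + 3, by positivity,
    fun η β u hβ hη he hu1 hu2 => ?_⟩
  have h1 := h η β u 1 (by linarith) hη he (Or.inr ⟨rfl, hu2⟩)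
  rw [par4_count hu1 (by linarith)] at h1
  have h2 := hpi (β - 1) (by linarith)
  have h3 := par4_card u
  have hX : 0 < exp (β - 1) := exp_pos _
  have hE : exp β = exp (β - 1) * exp 1 := by rw [← exp_add]; congr 1; ring
  have hβ0 : 0 < β := by linarith
  have hβ1 : 0 < β - 1 := by linarith
  have hlog : 1 ≤ log β := by
    rw [le_log_iff_exp_le hβ0]
    have := Real.exp_one_lt_d9
    linarith
  have h4 : exp u ≤ 18 * exp β / β ^ 2 := by
    have h5 : (β / 3) ^ 2 / 2 ≤ exp (β / 3) := by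
      have := Real.pow_div_factorial_le_exp (β / 3) (by linarith) 2
      simpa [Nat.factorial] using this
    have h6 : exp u * exp (β / 3) ≤ exp β := by
      rw [← exp_add]
      exact exp_le_exp.2 (by linarith)
    rw [le_div_iff₀ (by positivity)]
    have h7 := exp_pos u
    nlinarith
  have hP0 : (0 : ℝ) ≤ (PL u).card := Nat.cast_nonneg _
  set X := exp (β - 1) with hXd
  set V := VV (okR η β) 1 (PL u)
  set t := 1 / β ^ 2 with ht
  have ht0 : 0 < t := by positivity
  have e1 : C * exp β * log β / β ^ 2 = X * (exp 1 * C * (log β * t)) := by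
    rw [hE, ht]; ring
  have e2 : C2 * X / (β - 1) ^ 2 ≤ X * (9 / 4 * C2 * (log β * t)) := by
    have h8 : 1 / (β - 1) ^ 2 ≤ 9 / 4 * t := by
      rw [ht, mul_one_div, div_le_div_iff₀ (by positivity) (by positivity)]
      nlinarith
    have h9 : t ≤ log β * t := le_mul_of_one_le_left ht0.le hlog
    calc C2 * X / (β - 1) ^ 2 = X * C2 * (1 / (β - 1) ^ 2) := by ring
      _ ≤ X * C2 * (9 / 4 * (log β * t)) := by
        apply mul_le_mul_of_nonneg_left _ (by positivity)
        linarith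
      _ = _ := by ring
  have e3 : 18 * exp β / β ^ 2 ≤ X * (18 * exp 1 * (log β * t)) := by
    have h9 : t ≤ log β * t := le_mul_of_one_le_left ht0.le hlog
    calc 18 * exp β / β ^ 2 = X * (18 * exp 1) * t := by rw [hE, ht]; ring
      _ ≤ X * (18 * exp 1) * (log β * t) := mul_le_mul_of_nonneg_left h9 (by positivity)
      _ = _ := by ring
  have e4 : |X / (β - 1) - X / β| ≤ X * (3 / 2 * (log β * t)) := by
    have h9 : t ≤ log β * t := le_mul_of_one_le_left ht0.le hlog
    have h10 : X / (β - 1) - X / β = X * (1 / (β * (β - 1))) := by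
      field_simp
      ring
    have h11 : 1 / (β * (β - 1)) ≤ 3 / 2 * t := by
      rw [ht, mul_one_div, div_le_div_iff₀ (by positivity) (by positivity)]
      nlinarith
    rw [h10, abs_of_nonneg (by positivity)]
    apply mul_le_mul_of_nonneg_left _ hX.le
    linarith
  have key : |V - 2 / β| * (X / 2) ≤
      (2 * exp 1 * C + 9 / 2 * C2 + 36 * exp 1 + 3) * log β / β ^ 2 * (X / 2) := by
    have e5 : (2 * exp 1 * C + 9 / 2 * C2 + 36 * exp 1 + 3) * log β / β ^ 2 * (X / 2) =
        X * (exp 1 * C * (log β * t)) + X * (9 / 4 * C2 * (log β * t)) +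
          X * (18 * exp 1 * (log β * t)) + X * (3 / 2 * (log β * t)) := by
      rw [ht]; ring
    have e6 : |V - 2 / β| * (X / 2) = |V * (X / 2) - X / β| := by
      rw [← abs_of_pos (show 0 < X / 2 by positivity), ← abs_mul, abs_of_pos
        (show 0 < X / 2 by positivity)]
      congr 1
      ring
    rw [e5, e6]
    rw [e1] at h1
    obtain ⟨a1, a2⟩ := abs_le.1 h1
    obtain ⟨b1, b2⟩ := abs_le.1 h2
    obtain ⟨c1, c2⟩ := abs_le.1 e4
    rw [abs_le]
    constructor <;> linarith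
  exact le_of_mul_le_mul_right key (by positivity)

end Vale.Agent.P013
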