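import Vale.Agent.P013.Swap
import Vale.Agent.P013.Fact
import Vale.Agent.P013.Box

namespace Vale.Agent.P013

open Finset Real Filter

open Classical

theorem Pig1_row {n : ℕ} (Q : Fin n → Finset ℕ) (M : ℤ) (d : ℕ) :
    ∑ q ∈ Fintype.piFinset Q, (1 / ((d * ∏ i, q i : ℕ) : ℂ) * ee (M / ((d * ∏ i, q i : ℕ) : ℝ))) =
      ((1 / (d : ℝ) : ℝ) : ℂ) * RS Q (fun _ q => 1 / (q : ℝ)) M d := by
  rw [RS, mul_sum]
  refine sum_congr rfl fun q _ => ?_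
  push_cast
  rw [prod_div_distrib, prod_const_one, ← mul_assoc, div_mul_div_comm, one_mul]

theorem Pig1_sub {t θ : ℝ} {κ e y N : ℕ} {S : Finset ℕ} (h : S ∈ GoodS t θ κ e y N) :
    S ⊆ P1 y :=
  mem_powerset.1 (mem_filter.1 (mem_filter.1 (mem_filter.1 h).1).1).1

theorem Pig1_BI {t : ℝ} (ht : 0 < t) (θ : ℝ) (κ e : ℕ) : ∀ᶠ y : ℕ in atTop,
    ∀ (N : ℕ) (M : ℤ), ‖BI t θ κ e y N M‖ ≤
      ∑ k ∈ Fintype.piFinset (fun i => (RgF κ e y i).image (lab (et κ y))), BK t θ κ e y N M k := by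
  filter_upwards [swap ht θ κ e, rg_disj κ] with y h1 h2 N M
  have h := fact (lab (et κ y)) (RgF κ e y) (P1 y) (GoodS t θ κ e y N)
    (fun i j p a b => Fin.ext (h2 _ _ p a b)) (fun S hS => Pig1_sub hS)
    (fun S hS i => (mem_filter.1 hS).2.2 i.val (Nat.lt_succ_iff.1 i.2))
    (fun S hS => (mem_filter.1 hS).2.1) (h1 N) fun d => 1 / (d : ℂ) * ee (M / (d : ℝ))
  rw [BI, h]
  refine (norm_sum_le _ _).trans (sum_le_sum fun k _ => ?_)
  refine (norm_sum_le _ _).trans (sum_le_sum fun ρ _ => le_of_eq ?_)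
  rw [Pig1_row, norm_mul, norm_mul, norm_pow, norm_neg, norm_one, one_pow, one_mul,
    Complex.norm_real, Real.norm_of_nonneg (by positivity)]

theorem Pig1_nn (κ e y : ℕ) (k : Fin (e + 1) → ℕ) : 0 ≤ MK κ e y k :=
  prod_nonneg fun _ _ => sum_nonneg fun _ _ => by positivity

theorem Pig1_BK (t θ : ℝ) (κ e : ℕ) : ∀ᶠ y : ℕ in atTop,
    ∀ (N : ℕ) (M : ℤ) (k : Fin (e + 1) → ℕ), BK t θ κ e y N M k ≤ L1 y ^ 2 * MK κ e y k := by
  obtain ⟨C, hC, h⟩ := prod_PL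
  filter_upwards [ev_lin 3 1 (ε := 1 / 2) (by norm_num), L1_top.eventually_ge_atTop 4,
    L1_top.eventually_ge_atTop C, L2_top.eventually_ge_atTop 0] with y h1 h2 h3 h4 N M k
  rw [pow_one] at h1
  have h5 : ∏ p ∈ P1 y, (1 + 1 / (p : ℝ)) ≤ L1 y ^ 2 := by
    refine (h (be y / 2) (by unfold be; linarith)).trans ?_
    rw [sq]
    exact mul_le_mul h3 (by unfold be; linarith) (by unfold be; linarith) (by linarith)
  calc BK t θ κ e y N M k
      ≤ ∑ ρ ∈ Rows (lab (et κ y)) (RgF κ e y) (P1 y) (GoodS t θ κ e y N) k,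
          1 / (pr ρ : ℝ) * MK κ e y k := by
        refine sum_le_sum fun ρ _ => mul_le_mul_of_nonneg_left ?_ (by positivity)
        refine (RS_le _ _ _ _).trans (le_of_eq ?_)
        refine prod_congr rfl fun i _ => sum_congr rfl fun q _ => abs_of_nonneg (by positivity)
    _ ≤ _ := by
        rw [← sum_mul]
        refine mul_le_mul_of_nonneg_right (le_trans (sum_fam fun S hS => ?_) h5) (Pig1_nn κ e y k)
        exact mem_powerset.1 (mem_filter.1 hS).1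

theorem pig1 {t : ℝ} (ht : 0 < t) (θ : ℝ) (κ e : ℕ) : ∃ K' : ℕ, ∀ᶠ y : ℕ in atTop,
    ∀ (N : ℕ) (M : ℤ), 1 / L1 y ^ (2 * κ + 4) ≤ ‖BI t θ κ e y N M‖ →
    ∃ k : Fin (e + 1) → ℕ, 1 / L1 y ^ K' ≤ MK κ e y k ∧
      MK κ e y k / L1 y ^ (2 * κ + 6) ≤ BK t θ κ e y N M k := by
  refine ⟨(κ + 4) * (e + 1) + 2 + (2 * κ + 5), ?_⟩
  filter_upwards [Pig1_BI ht θ κ e, Pig1_BK t θ κ e, box_card κ e, box_mass κ e,
    L1_top.eventually_ge_atTop 4] with y h1 h2 h3 h4 h5 N M hM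
  by_contra hc
  push Not at hc
  have hL : 0 < L1 y := by linarith
  have h6 : ∀ k, BK t θ κ e y N M k ≤ L1 y ^ 2 / L1 y ^ ((κ + 4) * (e + 1) + 2 + (2 * κ + 5)) +
      MK κ e y k / L1 y ^ (2 * κ + 6) := by
    intro k
    have a1 : 0 ≤ MK κ e y k / L1 y ^ (2 * κ + 6) := div_nonneg (Pig1_nn κ e y k) (by positivity)
    by_cases hk : 1 / L1 y ^ ((κ + 4) * (e + 1) + 2 + (2 * κ + 5)) ≤ MK κ e y k
    · have a2 : 0 ≤ L1 y ^ 2 / L1 y ^ ((κ + 4) * (e + 1) + 2 + (2 * κ + 5)) := by positivity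
      linarith [hc k hk]
    · have a2 := mul_le_mul_of_nonneg_left (not_le.1 hk).le (show 0 ≤ L1 y ^ 2 by positivity)
      rw [mul_one_div] at a2
      linarith [h2 N M k]
  have h7 := hM.trans ((h1 N M).trans (sum_le_sum fun k _ => h6 k))
  rw [sum_add_distrib, sum_const, nsmul_eq_mul, ← sum_div] at h7
  have h8 := mul_le_mul_of_nonneg_right h3
    (show 0 ≤ L1 y ^ 2 / L1 y ^ ((κ + 4) * (e + 1) + 2 + (2 * κ + 5)) by positivity)
  have h9 := div_le_div_of_nonneg_right h4 (show 0 ≤ L1 y ^ (2 * κ + 6) by positivity)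
  have e1 : L1 y ^ ((κ + 4) * (e + 1)) * (L1 y ^ 2 / L1 y ^ ((κ + 4) * (e + 1) + 2 + (2 * κ + 5))) =
      1 / L1 y ^ (2 * κ + 4) / L1 y := by
    field_simp
    ring
  have e2 : L1 y / L1 y ^ (2 * κ + 6) = 1 / L1 y ^ (2 * κ + 4) / L1 y := by
    field_simp
    ring
  have e3 : 0 < 1 / L1 y ^ (2 * κ + 4) := by positivity
  have e4 : 1 / L1 y ^ (2 * κ + 4) / L1 y ≤ 1 / L1 y ^ (2 * κ + 4) / 4 :=
    div_le_div_of_nonneg_left e3.le (by norm_num) h5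
  rw [e1] at h8
  rw [e2] at h9
  linarith

end Vale.Agent.P013
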