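import Vale.Agent.P013.SI
import Vale.Agent.P013.I4

namespace Vale.Agent.P013

open Finset Real Filter

open Classical

theorem Re1_row (a e y : ℕ) : ((range y).filter fun j => e + 1 ∣ a + j).card + (a + e) / (e + 1) =
    (a + e + y) / (e + 1) := by
  induction y with
  | zero => simp
  | succ y ih =>
    rw [range_add_one, filter_insert, ← add_assoc, Nat.succ_div, ← ih]
    have h : e + 1 ∣ a + e + y + 1 ↔ e + 1 ∣ a + y := by
      rw [show a + e + y + 1 = e + 1 + (a + y) by ring, Nat.dvd_add_right dvd_rfl]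
    simp only [h]
    split_ifs
    · rw [card_insert_of_notMem (by simp)]
      ring
    · rfl

theorem Re1_row' (a y : ℕ) {d : ℕ} (hd : 0 < d) :
    |(((range y).filter fun j => d ∣ a + j).card : ℝ) - (y : ℝ) / d| ≤ 1 := by
  obtain ⟨e, rfl⟩ : ∃ e, d = e + 1 := ⟨d - 1, by omega⟩
  have h := Re1_row a e y
  generalize ((range y).filter fun j => e + 1 ∣ a + j).card = c at h ⊢
  have h1 := Nat.div_add_mod (a + e) (e + 1)
  have h2 := Nat.div_add_mod (a + e + y) (e + 1)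
  have h3 := Nat.mod_lt (a + e) hd
  have h4 := Nat.mod_lt (a + e + y) hd
  rw [← h, mul_add] at h2
  have h5 : (e + 1) * c ≤ y + (e + 1) := by omega
  have h6 : y ≤ (e + 1) * c + (e + 1) := by omega
  have h5' : ((e + 1 : ℕ) : ℝ) * c ≤ y + (e + 1 : ℕ) := by exact_mod_cast h5
  have h6' : (y : ℝ) ≤ ((e + 1 : ℕ) : ℝ) * c + (e + 1 : ℕ) := by exact_mod_cast h6
  have hd' : (0 : ℝ) < (e + 1 : ℕ) := by exact_mod_cast hd
  rw [abs_le, le_sub_comm, sub_le_iff_le_add', ← sub_le_iff_le_add, le_div_iff₀ hd',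
    div_le_iff₀ hd']
  constructor <;> linarith

theorem cnt_triv (y N : ℕ) {d : ℕ} (hd : 0 < d) : |(cnt y N d : ℝ) - (y : ℝ) ^ 2 / d| ≤ y := by
  have e : (cnt y N d : ℝ) - (y : ℝ) ^ 2 / d = ∑ i ∈ range y,
      ((((range y).filter fun j => d ∣ N + i + j).card : ℝ) - (y : ℝ) / d) := by
    rw [sum_sub_distrib, cnt, card_filter, sum_product, sum_const, card_range, nsmul_eq_mul]
    simp only [card_filter]
    push_cast
    ring
  rw [e]
  refine (abs_sum_le_sum_abs _ _).trans ((sum_le_sum fun i _ => Re1_row' _ y hd).trans ?_)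
  simp

theorem Re1_orth {d : ℕ} (hd : 0 < d) (a n : ℤ) :
    ∑ h ∈ Ico a (a + d), ee (((h * n : ℤ) : ℝ) / d) = if (d : ℤ) ∣ n then (d : ℂ) else 0 := by
  have hd' : (d : ℝ) ≠ 0 := by positivity
  have e : ∑ h ∈ Ico a (a + d), ee (((h * n : ℤ) : ℝ) / d) =
      ee (((a * n : ℤ) : ℝ) / d) * ∑ j ∈ range d, ee ((n : ℝ) / d) ^ j := by
    rw [mul_sum]
    symm
    refine sum_bij (fun j _ => a + j) (fun j hj => ?_) (fun i _ j _ h => ?_) (fun h hh => ?_)
      fun j _ => ?_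
    · have := mem_range.1 hj
      exact mem_Ico.2 ⟨by omega, by omega⟩
    · omega
    · have := mem_Ico.1 hh
      exact ⟨(h - a).toNat, mem_range.2 (by omega), by omega⟩
    · rw [← ee_pow_I4, ← ee_add]
      congr 1
      push_cast
      ring
  split_ifs with h
  · obtain ⟨k, rfl⟩ := h
    have : ∀ h : ℤ, ee (((h * (d * k) : ℤ) : ℝ) / d) = 1 := fun h => by
      rw [← ee_int (h * k)]
      congr 1
      push_cast
      field_simp
    simp only [this]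
    simp
  · have h1 : ee ((n : ℝ) / d) - 1 ≠ 0 := by
      rw [sub_ne_zero]
      intro h1
      obtain ⟨k, hk⟩ := Complex.exp_eq_one_iff.1 h1
      apply h
      have h2 : (((n : ℝ) / d : ℝ) : ℂ) = k := by
        have h3 : (2 * π * Complex.I : ℂ) ≠ 0 := Complex.two_pi_I_ne_zero
        apply mul_right_cancel₀ h3
        rw [← hk]
        ring
      have h3 : (n : ℝ) / d = k := by exact_mod_cast h2
      rw [div_eq_iff hd'] at h3
      exact ⟨k, by exact_mod_cast h3.trans (mul_comm _ _)⟩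
    have h2 := geom_sum_mul (ee ((n : ℝ) / d)) d
    rw [← ee_pow_I4, mul_div_cancel₀ _ hd', ee_int, sub_self] at h2
    rw [e, (mul_eq_zero.1 h2).resolve_right h1, mul_zero]

theorem Re1_term (y N : ℕ) {d : ℕ} (hd : 0 < d) {h : ℤ} (h0 : h ≠ 0) (h1 : 2 * |h| ≤ d) :
    ‖∑ x ∈ range y ×ˢ range y,
      1 / (d : ℂ) * ee (((h * (N + (x.1 + x.2 : ℕ)) : ℤ) : ℝ) / d)‖ ≤
      d / 2 * ((h : ℝ) ^ 2)⁻¹ := by
  have hd' : (0 : ℝ) < d := by exact_mod_cast hd
  have ha : (0 : ℝ) < |(h : ℝ)| := abs_pos.2 (by exact_mod_cast h0)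
  have hb : 2 * |(h : ℝ)| ≤ d := by exact_mod_cast h1
  have e : ∑ x ∈ range y ×ˢ range y,
      1 / (d : ℂ) * ee (((h * (N + (x.1 + x.2 : ℕ)) : ℤ) : ℝ) / d) =
      1 / (d : ℂ) * ee (h * N / d) * ((∑ T ∈ range y, ee (T * (h / d : ℝ))) *
        ∑ T ∈ range y, ee (T * (h / d : ℝ))) := by
    rw [sum_mul_sum, ← sum_product', mul_sum]
    refine sum_congr rfl fun x _ => ?_
    rw [mul_assoc, ← ee_add, ← ee_add]
    congr 2
    push_cast
    ring
  have hx : |(h : ℝ) / d| = |(h : ℝ)| / d := by rw [abs_div, abs_of_pos hd']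
  have hx1 : |(h : ℝ)| / d ≤ 1 / 2 := by
    rw [div_le_iff₀ hd']
    linarith
  have hx0 : 0 < |(h : ℝ)| / d := by positivity
  have hg := geo y (x := (h : ℝ) / d) (Δ := 3 / 4 * (|(h : ℝ)| / d)) (by positivity) (by
    rintro ⟨v, hv⟩
    rcases eq_or_ne v 0 with rfl | hv0
    · rw [Int.cast_zero, sub_zero, hx] at hv
      linarith
    · have a1 : (1 : ℝ) ≤ |(v : ℝ)| := by exact_mod_cast Int.one_le_abs hv0
      have a2 := abs_sub_abs_le_abs_sub (v : ℝ) ((h : ℝ) / d)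
      rw [abs_sub_comm, hx] at a2
      linarith)
  rw [e, norm_mul, norm_mul, norm_mul, norm_ee, norm_div, norm_one, Complex.norm_natCast]
  calc _ ≤ 1 / (d : ℝ) * 1 * ((1 / (2 * (3 / 4 * (|(h : ℝ)| / d)))) *
        (1 / (2 * (3 / 4 * (|(h : ℝ)| / d))))) := by gcongr
    _ = d * (4 / 9) * ((h : ℝ) ^ 2)⁻¹ := by
        rw [← sq_abs]
        field_simp
        ring
    _ ≤ _ := by
        gcongr
        linarith

theorem Re1_tail {h0 d : ℕ} (h1 : 1 ≤ h0) (h2 : h0 ≤ d) (T : Finset ℤ)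
    (hT : ∀ h ∈ T, (h0 : ℤ) < |h| ∧ |h| ≤ d) : ∑ h ∈ T, ((h : ℝ) ^ 2)⁻¹ ≤ 2 / (h0 : ℝ) := by
  have hs : ∑ i ∈ Ioc h0 d, ((i : ℝ) ^ 2)⁻¹ ≤ (h0 : ℝ)⁻¹ := by
    have := sum_Ioc_inv_sq_le_sub (α := ℝ) (by omega : h0 ≠ 0) h2
    have : (0 : ℝ) ≤ (d : ℝ)⁻¹ := by positivity
    linarith
  have hsub : T ⊆ (Ioc h0 d).image (fun i : ℕ => (i : ℤ)) ∪
      (Ioc h0 d).image (fun i : ℕ => -(i : ℤ)) := by
    intro h hh
    have := hT h hh
    simp only [mem_union, mem_image, mem_Ioc]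
    rcases le_total 0 h with c | c
    · rw [abs_of_nonneg c] at this
      exact Or.inl ⟨h.toNat, by omega, by omega⟩
    · rw [abs_of_nonpos c] at this
      exact Or.inr ⟨(-h).toNat, by omega, by omega⟩
  refine (sum_le_sum_of_subset_of_nonneg hsub fun _ _ _ => by positivity).trans ?_
  have hu := sum_union_inter (s₁ := (Ioc h0 d).image (fun i : ℕ => (i : ℤ)))
    (s₂ := (Ioc h0 d).image (fun i : ℕ => -(i : ℤ))) (f := fun h : ℤ => ((h : ℝ) ^ 2)⁻¹)
  rw [sum_image (fun a _ b _ h => by simpa using h),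
    sum_image (fun a _ b _ h => by simpa using h)] at hu
  simp only [Int.cast_neg, Int.cast_natCast, neg_sq] at hu
  have hi : 0 ≤ ∑ h ∈ (Ioc h0 d).image (fun i : ℕ => (i : ℤ)) ∩
      (Ioc h0 d).image (fun i : ℕ => -(i : ℤ)), ((h : ℝ) ^ 2)⁻¹ :=
    sum_nonneg fun _ _ => by positivity
  rw [div_eq_mul_inv]
  linarith

theorem four (y N : ℕ) {d h0 : ℕ} (h1 : 1 ≤ h0) (h2 : 2 * h0 < d) :
    ‖(cnt y N d : ℂ) - (y : ℂ) ^ 2 / d - ∑ h ∈ (Icc (-(h0 : ℤ)) h0).erase 0,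
      ∑ x ∈ range y ×ˢ range y, 1 / (d : ℂ) * ee (((h * (N + (x.1 + x.2 : ℕ)) : ℤ) : ℝ) / d)‖ ≤
      (d : ℝ) / h0 := by
  have hd : 0 < d := by omega
  have hd' : (d : ℂ) ≠ 0 := by exact_mod_cast hd.ne'
  set F : ℤ → ℂ := fun h => ∑ x ∈ range y ×ˢ range y,
    1 / (d : ℂ) * ee (((h * (N + (x.1 + x.2 : ℕ)) : ℤ) : ℝ) / d) with hF
  set a : ℤ := -(((d - 1) / 2 : ℕ) : ℤ) with ha
  have e1 : (cnt y N d : ℂ) = ∑ h ∈ Ico a (a + d), F h := by
    simp only [hF]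
    rw [sum_comm, cnt, card_filter, Nat.cast_sum]
    refine sum_congr rfl fun x _ => ?_
    rw [← mul_sum, Re1_orth hd]
    have : (d : ℤ) ∣ N + (x.1 + x.2 : ℕ) ↔ d ∣ N + x.1 + x.2 := by
      rw [← Int.natCast_dvd_natCast, add_assoc, Nat.cast_add N]
    simp only [this]
    split_ifs
    · simp [hd']
    · simp
  have e2 : (y : ℂ) ^ 2 / d = F 0 := by
    have := ee_int 0
    rw [Int.cast_zero] at this
    simp only [hF, zero_mul, Int.cast_zero, zero_div, this, mul_one, sum_const, card_product,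
      card_range, nsmul_eq_mul]
    push_cast
    ring
  have hsub : Icc (-(h0 : ℤ)) h0 ⊆ Ico a (a + d) := fun h hh => by
    have := mem_Icc.1 hh
    exact mem_Ico.2 ⟨by omega, by omega⟩
  have e3 : (cnt y N d : ℂ) - (y : ℂ) ^ 2 / d - ∑ h ∈ (Icc (-(h0 : ℤ)) h0).erase 0, F h =
      ∑ h ∈ Ico a (a + d) \ Icc (-(h0 : ℤ)) h0, F h := by
    rw [e1, e2, ← sum_sdiff hsub,
      ← add_sum_erase (Icc (-(h0 : ℤ)) h0) F (a := 0) (mem_Icc.2 ⟨by omega, by omega⟩)]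
    ring
  rw [e3]
  have hT : ∀ h ∈ Ico a (a + d) \ Icc (-(h0 : ℤ)) h0, (h0 : ℤ) < |h| ∧ 2 * |h| ≤ d := by
    intro h hh
    rw [Finset.mem_sdiff, Finset.mem_Ico, Finset.mem_Icc] at hh
    rcases le_total 0 h with c | c
    · rw [abs_of_nonneg c]
      omega
    · rw [abs_of_nonpos c]
      omega
  refine (norm_sum_le _ _).trans ((sum_le_sum fun h hh =>
    Re1_term y N hd (by rintro rfl; have := (hT 0 hh).1; simp at this; omega) (hT h hh).2).trans ?_)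
  rw [← mul_sum]
  have := Re1_tail h1 (by omega : h0 ≤ d) _ fun h hh =>
    ⟨(hT h hh).1, by have := (hT h hh).2; have := abs_nonneg h; omega⟩
  calc _ ≤ (d : ℝ) / 2 * (2 / (h0 : ℝ)) := by gcongr
    _ = _ := by ring

theorem sieve_low (ok : Finset ℕ → ℕ → Prop) (y N : ℕ) {P : Finset ℕ} (hP : ∀ p ∈ P, p.Prime) :
    ∑ S ∈ AS ok 0 P, (-1 : ℝ) ^ S.card * cnt y N (pr S) ≤
      (((range y ×ˢ range y).filter fun x => ∀ q ∈ P, ¬ q ∣ N + x.1 + x.2).card : ℝ) := by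
  simp only [cnt, card_filter, Nat.cast_sum, mul_sum]
  rw [sum_comm]
  refine sum_le_sum fun x _ => ?_
  have h := si_lower ok P fun q => q ∣ N + x.1 + x.2
  refine le_trans (le_of_eq (sum_congr rfl fun S hS => ?_)) (h.trans (le_of_eq ?_))
  · have hS' : ∀ p ∈ S, p.Prime := fun p hp => hP p (mem_powerset.1 (mem_filter.1 hS).1 hp)
    simp only [pr_dvd_iff hS']
    split_ifs <;> simp
  · split_ifs <;> simp

end Vale.Agent.P013
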