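import Vale.Agent.P013.Fam1

namespace Vale.Agent.P013

open Finset Real Filter

open Classical

theorem re2_bud {η γ : ℝ} (hη : 0 < η) {S : Finset ℕ} (h0 : ∀ p ∈ S, p ≠ 0)
    (h : ∀ p ∈ S, (up S p).card % 2 = 0 → lS η (up S p) + 2 * rl η p ≤ γ) {p : ℕ} (hp : p ∈ S)
    (hq : ∃ q ∈ S, p < q) : lS η (up S p) + rl η p ≤ γ := by
  by_cases he : (up S p).card % 2 = 0
  · have := h p hp he
    have := rl_nonneg hη p
    linarith
  have hne : (S.filter fun q => p < q).Nonempty := by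
    obtain ⟨q, h1, h2⟩ := hq
    exact ⟨q, mem_filter.2 ⟨h1, h2⟩⟩
  obtain ⟨hqS, hpq⟩ := mem_filter.1 (min'_mem _ hne)
  set q := (S.filter fun q => p < q).min' hne with hqd
  have e : up S p = insert p (up S q) := by
    ext r
    simp only [up, mem_filter, mem_insert]
    constructor
    · rintro ⟨h1, h2⟩
      rcases h2.eq_or_lt with h3 | h3
      · exact Or.inl h3.symm
      · exact Or.inr ⟨h1, min'_le _ _ (mem_filter.2 ⟨h1, h3⟩)⟩
    · rintro (rfl | ⟨h1, h2⟩)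
      · exact ⟨hp, le_rfl⟩
      · exact ⟨h1, by omega⟩
  have hn : p ∉ up S q := fun h1 => by
    have := (mem_filter.1 h1).2
    omega
  rw [e, card_insert_of_notMem hn] at he
  have h1 := h q hqS (by omega)
  have h2 := rl_mono hη (h0 p hp) hpq.le
  rw [e, lS, sum_insert hn]
  unfold lS at h1
  linarith

theorem re2_tot {η γ : ℝ} (hη : 0 < η) (hγ : 0 ≤ γ) {S : Finset ℕ} (h0 : ∀ p ∈ S, p ≠ 0)
    (h : ∀ p ∈ S, (up S p).card % 2 = 0 → lS η (up S p) + 2 * rl η p ≤ γ)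
    (h1 : ∀ p ∈ S, rl η p ≤ γ) : lS η S ≤ γ := by
  rcases S.eq_empty_or_nonempty with rfl | hne
  · simpa [lS] using hγ
  have hp := min'_mem S hne
  by_cases hq : ∃ q ∈ S, S.min' hne < q
  · have h2 := re2_bud hη h0 h hp hq
    have e : up S (S.min' hne) = S := filter_true_of_mem fun r hr => min'_le _ _ hr
    rw [e] at h2
    have := rl_nonneg hη (S.min' hne)
    linarith
  · have e : S = {S.min' hne} := by
      refine eq_singleton_iff_unique_mem.2 ⟨hp, fun r hr => ?_⟩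
      exact le_antisymm (not_lt.1 fun h3 => hq ⟨r, hr, h3⟩) (min'_le _ _ hr)
    have h2 := h1 _ hp
    rw [e, lS, sum_singleton]
    exact h2

theorem re2_ev (κ : ℕ) : ∀ᶠ y : ℕ in atTop, 2 ≤ y ∧ 1 ≤ L2 y ∧ 10 ≤ L1 y ∧ 6 * L2 y ≤ L1 y ∧
    κ * L2 y ≤ L1 y ∧ 0 < et κ y ∧ et κ y * (3 * L1 y) ≤ 1 := by
  filter_upwards [eventually_ge_atTop 2, L2_top.eventually_ge_atTop 1,
    L1_top.eventually_ge_atTop 10, ev_lin 6 1 one_pos, ev_lin κ 1 one_pos] with y h1 h2 h3 h4 h5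
  refine ⟨h1, h2, h3, by simpa using h4, by simpa using h5, by unfold et; positivity, ?_⟩
  unfold et
  rw [div_mul_eq_mul_div, one_mul, div_le_one (by positivity)]
  have : L1 y ^ 2 ≤ L1 y ^ (κ + 2) := pow_le_pow_right₀ (by linarith) (by omega)
  nlinarith

theorem re2_exp {κ y : ℕ} (hy : 2 ≤ y) (h : 0 < L1 y) :
    exp (be' κ y) = y * L1 y ^ κ / L1 y ^ 3 := by
  unfold be' be
  rw [exp_add, exp_sub, exp_L1 (by omega), exp_nat_mul, exp_L2 hy,
    show (3 : ℝ) = (3 : ℕ) by norm_num, exp_nat_mul, exp_L2 hy]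
  ring

theorem re2_lev {t θ : ℝ} {κ y N : ℕ} (h2 : 0 ≤ L2 y) {S : Finset ℕ}
    (h : Alive (okM t θ κ y N) 0 S) : ∀ p ∈ S, (up S p).card % 2 = 0 →
      lS (et κ y) (up S p) + 2 * rl (et κ y) p ≤ be' κ y := by
  intro p hp he
  have h1 := h p hp he
  unfold okM okS at h1
  refine h1.trans ?_
  split_ifs
  · exact le_rfl
  · unfold be'
    have : 0 ≤ κ * L2 y := by positivity
    linarith

theorem re2_all (t θ : ℝ) (κ : ℕ) : ∀ᶠ y : ℕ in atTop, ∀ N : ℕ,
    ∀ S ∈ AS (okM t θ κ y N) 0 (P1 y), (∀ p ∈ S, p.Prime) ∧ lS (et κ y) S ≤ be' κ y ∧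
      et κ y * S.card ≤ 1 ∧ (¬ HasPre (Fam t θ κ y N) S → lS (et κ y) S ≤ be y) := by
  filter_upwards [re2_ev κ] with y ⟨h1, h2, h3, h4, h5, h6, h7⟩ N S hS
  obtain ⟨hP, hA⟩ := mem_filter.1 hS
  have hp : ∀ p ∈ S, p.Prime ∧ log p ≤ be y / 2 := fun p hp => mem_PL.1 (mem_powerset.1 hP hp)
  have h0 : ∀ p ∈ S, p ≠ 0 := fun p h => (hp p h).1.ne_zero
  have hb : L1 y / 2 ≤ be y := by unfold be; linarith
  have hb1 : be y ≤ L1 y := by unfold be; linarith
  have he : et κ y ≤ 1 := by nlinarith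
  have hr : ∀ p ∈ S, rl (et κ y) p ≤ be y := fun p h => by
    have := rl_le h6 p
    have := (hp p h).2
    linarith
  have hk : 0 ≤ κ * L2 y := by positivity
  have a1 : lS (et κ y) S ≤ be' κ y :=
    re2_tot h6 (by unfold be'; linarith) h0 (re2_lev (by linarith) hA) fun p h => by
      have := hr p h
      unfold be'; linarith
  refine ⟨fun p h => (hp p h).1, a1, ?_, fun hn => re2_tot h6 (by linarith) h0 ?_ hr⟩
  · have a2 := card_le_log fun p h => (hp p h).1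
    have a3 := le_lS h6 h0
    have a4 : (S.card : ℝ) ≤ 3 * L1 y := by unfold be' at a1; linarith
    exact (mul_le_mul_of_nonneg_left a4 h6.le).trans h7
  · intro p hp he
    have h8 := hA p hp he
    unfold okM okS at h8
    rwa [if_neg] at h8
    rintro ⟨q, hq, h9⟩
    refine hn ⟨q, (mem_filter.1 hq).1, ?_⟩
    have : up (up S p) q = up S q := by
      have := (mem_filter.1 hq).2
      ext r
      simp only [up, mem_filter]
      constructor
      · exact fun h => ⟨h.1.1, h.2⟩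
      · exact fun h => ⟨⟨h.1, by omega⟩, h.2⟩
    rwa [this] at h9

theorem big_str {t : ℝ} (ht : 0 < t) (θ : ℝ) (κ : ℕ) : ∀ᶠ y : ℕ in atTop, ∀ N : ℕ,
    ∀ S ∈ Big t θ κ y N, (∀ p ∈ S, p.Prime) ∧ HasPre (Fam t θ κ y N) S ∧
      be y - 1 ≤ log (pr S) ∧ log (pr S) ≤ be' κ y ∧ (pr S : ℝ) ≤ y * L1 y ^ κ / L1 y ^ 3 := by
  filter_upwards [re2_ev κ, re2_all t θ κ] with y ⟨h1, h2, h3, h4, h5, h6, h7⟩ hy N S hS
  obtain ⟨hA, hb⟩ := mem_filter.1 hS
  obtain ⟨a1, a2, a3, a4⟩ := hy N S hA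
  have h0 : ∀ p ∈ S, p ≠ 0 := fun p h => (a1 p h).ne_zero
  have a5 := (le_lS h6 h0).trans a2
  have a6 := lS_le h6 h0
  refine ⟨a1, by_contra fun h => by linarith [a4 h], by linarith, a5, ?_⟩
  rw [← re2_exp h1 (by linarith)]
  exact (log_le_iff_le_exp (by exact_mod_cast pr_pos h0)).1 a5

/-- budget left below an element of a large modulus -/
theorem big_bud {t : ℝ} (ht : 0 < t) (θ : ℝ) (κ : ℕ) : ∀ᶠ y : ℕ in atTop, ∀ N : ℕ,
    ∀ S ∈ Big t θ κ y N, ∀ p ∈ S, (∃ q ∈ S, p < q) →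
      rl (et κ y) p - κ * L2 y - 1 ≤ log (pr (lo S p)) := by
  filter_upwards [re2_ev κ, re2_all t θ κ] with y ⟨h1, h2, h3, h4, h5, h6, h7⟩ hy N S hS p hp hq
  obtain ⟨hA, hb⟩ := mem_filter.1 hS
  obtain ⟨a1, a2, a3, a4⟩ := hy N S hA
  have h0 : ∀ p ∈ S, p ≠ 0 := fun p h => (a1 p h).ne_zero
  have a5 := re2_bud h6 h0 (re2_lev (by linarith) (mem_filter.1 hA).2) hp hq
  have a6 : lS (et κ y) (up S p) + lS (et κ y) (lo S p) = lS (et κ y) S := by
    unfold lS up lo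
    rw [← sum_filter_add_sum_filter_not S (fun q => p ≤ q)]
    simp only [not_le]
  have a7 := lS_le h6 (S := lo S p) fun q hq => h0 q (mem_filter.1 hq).1
  have a8 : ((lo S p).card : ℝ) ≤ S.card := by exact_mod_cast card_filter_le _ _
  have a9 := mul_le_mul_of_nonneg_left a8 h6.le
  unfold be' at a5
  linarith

theorem small_card (t θ : ℝ) (κ : ℕ) : ∀ᶠ y : ℕ in atTop, ∀ N : ℕ,
    (((AS (okM t θ κ y N) 0 (P1 y)).filter fun S => lS (et κ y) S ≤ be y).card : ℝ) ≤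
      y / L1 y ^ 3 := by
  filter_upwards [re2_ev κ, re2_all t θ κ] with y ⟨h1, h2, h3, h4, h5, h6, h7⟩ hy N
  have e := re2_exp (κ := 0) h1 (by linarith)
  simp only [be', Nat.cast_zero, zero_mul, add_zero, pow_zero, mul_one] at e
  have := card_fam (X := y / L1 y ^ 3) (by positivity) 1 one_pos
    (A := (AS (okM t θ κ y N) 0 (P1 y)).filter fun S => lS (et κ y) S ≤ be y) fun S hS => by
      obtain ⟨hA, hb⟩ := mem_filter.1 hS
      have a1 := (hy N S hA).1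
      have h0 : ∀ p ∈ S, p ≠ 0 := fun p h => (a1 p h).ne_zero
      refine ⟨a1, ?_, one_dvd _⟩
      rw [← e]
      exact (log_le_iff_le_exp (by exact_mod_cast pr_pos h0)).1 ((le_lS h6 h0).trans hb)
  simpa using this

end Vale.Agent.P013
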