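import Vale.Agent.P013.Re2
import Vale.Agent.P031.EulA

namespace Vale.Agent.P013

open Finset Real Filter

open Classical

theorem bad1 {t : ℝ} (ht : 0 < t) (θ : ℝ) (κ i : ℕ) : ∀ᶠ y : ℕ in atTop, ∀ N : ℕ,
    (((Big t θ κ y N).filter fun S => ¬ ∃ p ∈ S, p ∈ Rg κ y i).card : ℝ) ≤ y / L1 y ^ 4 := by
  obtain ⟨C, hC⟩ := P031.card_sm_gt
  filter_upwards [big_str ht θ κ, big_bud ht θ κ, L2_top.eventually_ge_atTop (2 * (κ : ℝ) + 7),
    L1_top.eventually_ge_atTop 1, eventually_ge_atTop 2, ev_lin 2 (8 * i + 4) ht,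
    ev_L2 C ((8 * i + 2) * 12) one_pos] with y hs hb h2 h1 hy c1 c2
  intro N
  have hη : 0 < et κ y := by unfold et; positivity
  have k0 : (0 : ℝ) ≤ κ := Nat.cast_nonneg κ
  obtain ⟨l, hl⟩ : ∃ l, l = L2 y := ⟨_, rfl⟩
  have l7 : 7 ≤ l := by rw [hl]; linarith
  have l1 : 1 ≤ l := by linarith
  have a1 : l ≤ l ^ (8 * i + 2) := le_self_pow₀ l1 (by omega)
  have a2 : l ^ 2 ≤ l ^ (8 * i + 4) := pow_le_pow_right₀ l1 (by omega)
  have a3 : 0 < l ^ (8 * i + 2) := by positivity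
  have a4 : 0 < l ^ (8 * i + 4) := by positivity
  set A := (Big t θ κ y N).filter fun S => ¬ ∃ p ∈ S, p ∈ Rg κ y i with hA
  have hpr : ∀ S ∈ A, ∀ p ∈ S, p.Prime := fun S hS => (hs N S (mem_filter.1 hS).1).1
  have hcard : (A.image pr).card = A.card :=
    card_image_of_injOn fun S hS T hT e => pr_inj (hpr S hS) (hpr T hT) e
  have hX : (0 : ℝ) ≤ y * L1 y ^ κ / L1 y ^ 3 := by positivity
  have key := hC (exp (l ^ (8 * i + 2))) (exp (l ^ (8 * i + 4) / 2)) _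
    (by linarith [add_one_le_exp (l ^ (8 * i + 2))]) (one_le_exp (by positivity)) hX
    (A.image pr) (by
      intro v hv
      obtain ⟨S, hS, rfl⟩ := mem_image.1 hv
      obtain ⟨hB, hno⟩ := mem_filter.1 hS
      obtain ⟨s1, ⟨q0, -, hq0⟩, -, -, s5⟩ := hs N S hB
      have z0 : ∀ p ∈ S, p ≠ 0 := fun p hp => (s1 p hp).ne_zero
      refine ⟨(pr_pos z0).ne', s5, ?_⟩
      obtain ⟨f1, f2, -⟩ := fam_mn ht hy hq0
      set B := S.filter fun p => l ^ (8 * i + 4) < rl (et κ y) p with hBdef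
      have hsub : up S q0 ⊆ B := fun p hp => mem_filter.2 ⟨(mem_filter.1 hp).1, by
        have b1 := f2 p hp
        have b2 := le_rl hη p
        rw [← hl] at c1
        linarith⟩
      have hB3 : 3 ≤ B.card := f1.trans (card_le_card hsub)
      have hne : B.Nonempty := card_pos.1 (by omega)
      obtain ⟨q, hq, hqp⟩ := exists_mem_ne (by omega : 1 < B.card) (B.min' hne)
      obtain ⟨hp1, hp2⟩ := mem_filter.1 (B.min'_mem hne)
      have bud := hb N S hB _ hp1 ⟨q, (mem_filter.1 hq).1, lt_of_le_of_ne (B.min'_le q hq) hqp.symm⟩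
      have hlo : lo S (B.min' hne) ⊆ S := filter_subset _ _
      have z1 : 0 < pr (lo S (B.min' hne)) := pr_pos fun p hp => z0 p (hlo hp)
      have hsm : P031.Smooth (exp (l ^ (8 * i + 2))) (pr (lo S (B.min' hne))) := by
        refine ⟨z1.ne', fun r hr hd => ?_⟩
        obtain ⟨s, hs1, hs2⟩ := (hr.prime.dvd_finset_prod_iff _).1 hd
        obtain ⟨m1, m2⟩ := mem_filter.1 hs1
        rw [(Nat.prime_dvd_prime_iff_eq hr (s1 s m1)).1 hs2]
        have m3 : rl (et κ y) s ≤ l ^ (8 * i + 4) := by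
          by_contra hc
          exact absurd (B.min'_le s (mem_filter.2 ⟨m1, not_le.1 hc⟩)) (not_le.2 m2)
        have m4 := le_rl hη s
        have m5 : rl (et κ y) s ≤ l ^ (8 * i + 2) := by
          by_contra hc
          refine hno ⟨s, m1, mem_filter.2 ⟨mem_PL.2 ⟨s1 s m1, ?_⟩, ?_, ?_⟩⟩ <;> rw [← hl]
          · exact m4.trans m3
          · exact not_le.1 hc
          · exact m3
        exact (log_le_iff_le_exp (by exact_mod_cast (s1 s m1).pos)).1 (m4.trans m5)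
      have hdv := hsm.dvd_sm (pr_pos z0).ne' (prod_dvd_prod_of_subset _ _ _ hlo)
      have hle : (pr (lo S (B.min' hne)) : ℝ) ≤ P031.sm (exp (l ^ (8 * i + 2))) (pr S) := by
        exact_mod_cast Nat.le_of_dvd (Nat.pos_of_ne_zero (P031.sm_ne_zero _ _)) hdv
      refine lt_of_lt_of_le ((lt_log_iff_exp_lt (by exact_mod_cast z1)).1 ?_) hle
      rw [← hl] at bud h2
      nlinarith)
  rw [hcard, log_exp, log_exp] at key
  refine key.trans ?_
  have e1 : l ^ (8 * i + 4) / 2 / l ^ (8 * i + 2) = l ^ 2 / 2 := by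
    rw [show 8 * i + 4 = (8 * i + 2) + 2 by ring, pow_add]
    field_simp
  have e2 : exp (-(l ^ 2 / 2)) ≤ 1 / L1 y ^ (κ + 2) := by
    rw [← exp_L2 hy, ← hl, ← exp_nat_mul, one_div, ← exp_neg, exp_le_exp]
    push_cast
    rw [← hl] at h2
    nlinarith
  rw [e1, ← pow_mul]
  rw [rpow_one, ← hl] at c2
  have L0 : 0 < L1 y := by linarith
  calc C * (y * L1 y ^ κ / L1 y ^ 3) * l ^ ((8 * i + 2) * 12) * exp (-(l ^ 2 / 2))
      = (C * l ^ ((8 * i + 2) * 12)) * ((y * L1 y ^ κ / L1 y ^ 3) * exp (-(l ^ 2 / 2))) := by ring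
    _ ≤ L1 y * ((y * L1 y ^ κ / L1 y ^ 3) * exp (-(l ^ 2 / 2))) := by gcongr
    _ ≤ L1 y * ((y * L1 y ^ κ / L1 y ^ 3) * (1 / L1 y ^ (κ + 2))) := by gcongr
    _ = y / L1 y ^ 4 := by field_simp; ring

end Vale.Agent.P013
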