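import Vale.Agent.P013.Re2
import Vale.Agent.P013.Win

namespace Vale.Agent.P013

open Finset Real Filter

open Classical

theorem re4_near {η : ℝ} (hη : 0 < η) (h1 : η ≤ 1) {p : ℕ} (hp : p ≠ 0) (T : Finset ℕ)
    (hT : ∀ q ∈ T, p < q ∧ lab η p = lab η q) : ∑ q ∈ T, 1 / (q : ℝ) ≤ 2 * η := by
  have p0 : (0 : ℝ) < p := by exact_mod_cast Nat.pos_of_ne_zero hp
  have he : exp η - 1 ≤ 2 * η := by
    have := (abs_le.1 (Real.abs_exp_sub_one_le (x := η) (by rw [abs_of_pos hη]; exact h1))).2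
    rwa [abs_of_pos hη] at this
  have e1 : 1 ≤ exp η := one_le_exp hη.le
  have hsub : T ⊆ Ioc p ⌊p * exp η⌋₊ := by
    intro q hq
    obtain ⟨a, b⟩ := hT q hq
    have q0 : (0 : ℝ) < q := by exact_mod_cast (Nat.zero_le p).trans_lt a
    refine mem_Ioc.2 ⟨a, Nat.le_floor ?_⟩
    have c1 := le_rl hη q
    have c2 := rl_le hη p
    have c3 : rl η p = rl η q := by unfold rl; rw [b]
    rw [← log_le_log_iff q0 (by positivity), log_mul p0.ne' (exp_pos _).ne', log_exp]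
    linarith
  have hfl : p ≤ ⌊p * exp η⌋₊ := Nat.le_floor (by nlinarith)
  have hc : (T.card : ℝ) ≤ p * (2 * η) := by
    have a := card_le_card hsub
    rw [Nat.card_Ioc] at a
    have b : (T.card : ℝ) ≤ ((⌊p * exp η⌋₊ - p : ℕ) : ℝ) := by exact_mod_cast a
    rw [Nat.cast_sub hfl] at b
    have c := Nat.floor_le (show 0 ≤ p * exp η by positivity)
    nlinarith
  calc ∑ q ∈ T, 1 / (q : ℝ) ≤ ∑ q ∈ T, 1 / (p : ℝ) := sum_le_sum fun q hq =>
        one_div_le_one_div_of_le p0 (by exact_mod_cast (hT q hq).1.le)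
    _ = T.card / p := by rw [sum_const, nsmul_eq_mul, mul_one_div]
    _ ≤ 2 * η := by rw [div_le_iff₀' p0]; exact hc

theorem re4_sub {t θ : ℝ} {κ y N : ℕ} {S : Finset ℕ} (h : S ∈ Big t θ κ y N) : S ⊆ P1 y := by
  obtain ⟨hA, -⟩ := mem_filter.1 h
  obtain ⟨hP, -⟩ := mem_filter.1 hA
  exact mem_powerset.1 hP

/-- the version with `S` ranging over finite sets -/
theorem bad2f {t : ℝ} (ht : 0 < t) (θ : ℝ) (κ : ℕ) : ∀ᶠ y : ℕ in atTop, ∀ N : ℕ,
    (((Big t θ κ y N).filter fun S : Finset ℕ => ¬ Set.InjOn (lab (et κ y)) S).card : ℝ) ≤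
      3 * y / L1 y ^ 4 := by
  obtain ⟨C, C0, hC⟩ := rc_PL
  filter_upwards [big_str ht θ κ, L2_top.eventually_ge_atTop C, L1_top.eventually_ge_atTop 1,
    ev_lin 2 1 one_pos] with y hs h2 h1 c1
  intro N
  have L0 : 0 < L1 y := by linarith
  have hη : 0 < et κ y := by unfold et; positivity
  have hη1 : et κ y ≤ 1 := by
    unfold et
    rw [div_le_one (by positivity)]
    exact one_le_pow₀ h1
  set A := (Big t θ κ y N).filter fun S : Finset ℕ => ¬ Set.InjOn (lab (et κ y)) S with hA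
  obtain ⟨X, hX⟩ : ∃ X : ℝ, X = y * L1 y ^ κ / L1 y ^ 3 := ⟨_, rfl⟩
  have X0 : 0 ≤ X := by rw [hX]; positivity
  obtain ⟨W, hW⟩ : ∃ W : ℕ → Finset ℕ, ∀ p, W p = (P1 y).filter fun q =>
    p < q ∧ lab (et κ y) p = lab (et κ y) q := ⟨_, fun _ => rfl⟩
  have hsub : A ⊆ (P1 y).biUnion fun p => (W p).biUnion fun q =>
      (Big t θ κ y N).filter fun S => p ∈ S ∧ q ∈ S := by
    intro S hS
    obtain ⟨hB, hn⟩ := mem_filter.1 hS
    have hP : S ⊆ P1 y := re4_sub hB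
    have key : ∀ a ∈ S, ∀ b ∈ S, lab (et κ y) a = lab (et κ y) b → a < b →
        S ∈ (P1 y).biUnion fun p => (W p).biUnion fun q =>
          (Big t θ κ y N).filter fun S => p ∈ S ∧ q ∈ S := fun a ha b hb e hab =>
      mem_biUnion.2 ⟨a, hP ha, mem_biUnion.2 ⟨b, by rw [hW]; exact mem_filter.2 ⟨hP hb, hab, e⟩,
        mem_filter.2 ⟨hB, ha, hb⟩⟩⟩
    by_contra hc
    refine hn fun a ha b hb e => ?_
    rcases lt_trichotomy a b with c | c | c
    · exact absurd (key a ha b hb e c) hc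
    · exact c
    · exact absurd (key b hb a ha e.symm c) hc
  have h3 : (A.card : ℝ) ≤ ∑ p ∈ P1 y, ∑ q ∈ W p,
      (((Big t θ κ y N).filter fun S => p ∈ S ∧ q ∈ S).card : ℝ) := by
    have a := (card_le_card hsub).trans (card_biUnion_le.trans
      (sum_le_sum fun p _ => card_biUnion_le))
    exact_mod_cast a
  have h4 : ∀ p ∈ P1 y, ∑ q ∈ W p, (((Big t θ κ y N).filter fun S => p ∈ S ∧ q ∈ S).card : ℝ) ≤
      X * (2 * et κ y) * (1 / p) := by
    intro p hp
    have pp := (mem_PL.1 hp).1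
    have p0 : (0 : ℝ) < p := by exact_mod_cast pp.pos
    have hn := re4_near hη hη1 pp.ne_zero (W p) fun q hq => by
      rw [hW] at hq; exact (mem_filter.1 hq).2
    calc _ ≤ ∑ q ∈ W p, X * (1 / p) * (1 / (q : ℝ)) := sum_le_sum fun q hq => by
          rw [hW] at hq
          obtain ⟨hq1, hq2, -⟩ := mem_filter.1 hq
          have qp := (mem_PL.1 hq1).1
          refine (card_fam X0 (p * q) (Nat.mul_pos pp.pos qp.pos) fun S hS => ?_).trans (le_of_eq ?_)
          · obtain ⟨hB, a, b⟩ := mem_filter.1 hS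
            obtain ⟨s1, -, -, -, s5⟩ := hs N S hB
            exact ⟨s1, hX ▸ s5, ((Nat.coprime_primes pp qp).2 hq2.ne).mul_dvd_of_dvd_of_dvd
              (dvd_prod_of_mem _ a) (dvd_prod_of_mem _ b)⟩
          · push_cast
            rw [mul_assoc, one_div_mul_one_div, mul_one_div]
      _ = X * (1 / p) * ∑ q ∈ W p, 1 / (q : ℝ) := by rw [mul_sum]
      _ ≤ X * (1 / p) * (2 * et κ y) := by gcongr
      _ = _ := by ring
  rw [pow_one] at c1
  have h5 : rc (P1 y) ≤ L1 y := by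
    have a : rc (P1 y) ≤ rc (PL (L1 y)) := by
      refine sum_le_sum_of_subset_of_nonneg (fun p hp => ?_) fun _ _ _ => by positivity
      obtain ⟨b, c⟩ := mem_PL.1 hp
      refine mem_PL.2 ⟨b, c.trans ?_⟩
      unfold be
      linarith
    have b := hC _ h1
    have c : log (L1 y) = L2 y := rfl
    linarith
  calc (A.card : ℝ) ≤ ∑ p ∈ P1 y, X * (2 * et κ y) * (1 / p) := h3.trans (sum_le_sum h4)
    _ = X * (2 * et κ y) * rc (P1 y) := by rw [rc, mul_sum]
    _ ≤ X * (2 * et κ y) * L1 y := by gcongr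
    _ = 2 * y / L1 y ^ 4 := by rw [hX, et]; field_simp; ring
    _ ≤ 3 * y / L1 y ^ 4 := by gcongr; norm_num

theorem bad2 {t : ℝ} (ht : 0 < t) (θ : ℝ) (κ : ℕ) : ∀ᶠ y : ℕ in atTop, ∀ N : ℕ,
    (((Big t θ κ y N).filter fun S => ¬ Set.InjOn (lab (et κ y)) S).card : ℝ) ≤
      3 * y / L1 y ^ 4 := by
  filter_upwards [bad2f ht θ κ] with y hy
  intro N
  refine le_trans ?_ (hy N)
  refine Nat.cast_le.2 (le_trans (card_le_card ?_) (card_image_le (f := fun S : Finset ℕ => (S : Set ℕ))))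
  intro S hS
  obtain ⟨a, b⟩ := mem_filter.1 hS
  simp only [Finset.bind_def, Finset.pure_def, Finset.sup_eq_biUnion, mem_biUnion, mem_singleton] at a
  obtain ⟨T, hT, rfl⟩ := a
  exact mem_image.2 ⟨T, mem_filter.2 ⟨hT, b⟩, rfl⟩

end Vale.Agent.P013
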