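import Vale.Agent.P013.Nob
import Vale.Agent.P013.Re1
import Vale.Agent.P013.Re3
import Vale.Agent.P013.Re4

namespace Vale.Agent.P013

open Finset Real Filter

open Classical

theorem Rem_triv (y N : ℕ) (A : Finset (Finset ℕ)) (hA : ∀ S ∈ A, 0 < pr S) :
    |∑ S ∈ A, (-1 : ℝ) ^ S.card * ((cnt y N (pr S) : ℝ) - (y : ℝ) ^ 2 / pr S)| ≤ A.card * y := by
  refine (abs_sum_le_sum_abs _ _).trans ?_
  rw [← nsmul_eq_mul]
  refine sum_le_card_nsmul _ _ _ fun S hS => ?_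
  rw [abs_mul, abs_pow, abs_neg, abs_one, one_pow, one_mul]
  exact cnt_triv y N (hA S hS)

theorem Rem_good {t θ : ℝ} {κ e y N h0 : ℕ} {X B : ℝ} (h1 : 1 ≤ h0) (hB : 0 ≤ B)
    (hS : ∀ S ∈ GoodS t θ κ e y N, 2 * h0 < pr S ∧ (pr S : ℝ) ≤ X)
    (hb : ∀ (n : ℕ) (h : ℤ), h ≠ 0 → |(h : ℝ)| ≤ h0 → n < 2 * y →
      ‖BI t θ κ e y N (h * (N + n))‖ ≤ B) :
    |∑ S ∈ GoodS t θ κ e y N, (-1 : ℝ) ^ S.card *
      ((cnt y N (pr S) : ℝ) - (y : ℝ) ^ 2 / pr S)| ≤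
      (GoodS t θ κ e y N).card * (X / h0) + 2 * h0 * ((y : ℝ) ^ 2 * B) := by
  set G := GoodS t θ κ e y N with hG
  set T : Finset ℕ → ℂ := fun S => ∑ h ∈ (Icc (-(h0 : ℤ)) h0).erase 0,
      ∑ x ∈ range y ×ˢ range y, 1 / (pr S : ℂ) *
        ee (((h * (N + (x.1 + x.2 : ℕ)) : ℤ) : ℝ) / pr S) with hT
  have e1 : ((∑ S ∈ G, (-1 : ℝ) ^ S.card * ((cnt y N (pr S) : ℝ) - (y : ℝ) ^ 2 / pr S) : ℝ) : ℂ) =
      ∑ S ∈ G, (-1 : ℂ) ^ S.card * ((cnt y N (pr S) : ℂ) - (y : ℂ) ^ 2 / pr S - T S) +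
        ∑ S ∈ G, (-1 : ℂ) ^ S.card * T S := by
    push_cast
    rw [← sum_add_distrib]
    exact sum_congr rfl fun S _ => by ring
  have e2 : ∑ S ∈ G, (-1 : ℂ) ^ S.card * T S = ∑ h ∈ (Icc (-(h0 : ℤ)) h0).erase 0,
      ∑ x ∈ range y ×ˢ range y, BI t θ κ e y N (h * (N + (x.1 + x.2 : ℕ))) := by
    simp only [hT, mul_sum, BI]
    rw [sum_comm]
    exact sum_congr rfl fun h _ => sum_comm
  rw [← Real.norm_eq_abs, ← Complex.norm_real, e1, e2]
  refine (norm_add_le _ _).trans (add_le_add ?_ ?_)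
  · refine (norm_sum_le _ _).trans ?_
    rw [← nsmul_eq_mul]
    refine sum_le_card_nsmul _ _ _ fun S hS' => ?_
    rw [norm_mul, norm_pow, norm_neg, norm_one, one_pow, one_mul]
    exact (four y N h1 (hS S hS').1).trans
      (div_le_div_of_nonneg_right (hS S hS').2 (Nat.cast_nonneg _))
  · refine (norm_sum_le _ _).trans ?_
    refine (sum_le_card_nsmul _ _ ((y : ℝ) ^ 2 * B) fun h hh => ?_).trans ?_
    · obtain ⟨k1, k2⟩ := mem_erase.1 hh
      refine (norm_sum_le _ _).trans ?_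
      refine (sum_le_card_nsmul _ _ B fun x hx => ?_).trans (le_of_eq ?_)
      · obtain ⟨x1, x2⟩ := mem_product.1 hx
        refine hb _ h k1 ?_ (by have := mem_range.1 x1; have := mem_range.1 x2; omega)
        have := abs_le.2 (mem_Icc.1 k2)
        exact_mod_cast this
      · rw [card_product, card_range, nsmul_eq_mul]
        push_cast
        ring
    · rw [card_erase_of_mem (by simp), Int.card_Icc, nsmul_eq_mul]
      refine mul_le_mul_of_nonneg_right (le_of_eq ?_) (by positivity)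
      have : ((h0 : ℤ) + 1 - -(h0 : ℤ)).toNat - 1 = 2 * h0 := by omega
      rw [this]
      push_cast
      ring

theorem Rem_coe (B : Finset (Finset ℕ)) (f : ℕ → ℕ) :
    (B.filter fun S : Finset ℕ => ¬ Set.InjOn f (S : Set ℕ)).card ≤
      (B.filter fun S => ¬ Set.InjOn f S).card := by
  refine card_le_card_of_injOn (fun S : Finset ℕ => (S : Set ℕ)) (fun S hS => ?_)
    (fun S _ T _ h => coe_injective h)
  obtain ⟨a1, a2⟩ := mem_filter.1 (mem_coe.1 hS)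
  refine mem_coe.2 (mem_filter.2 ⟨?_, a2⟩)
  exact Finset.mem_sup.2 ⟨S, a1, Finset.mem_singleton_self _⟩

theorem rem {t θ : ℝ} (h0 : 0 < t) (h1 : t ≤ 1 / 100) (h2 : 0 < θ) (h3 : θ ≤ t / 4) (κ : ℕ) :
    ∀ᶠ y : ℕ in atTop, ∀ N : ℕ,
    |∑ S ∈ AS (okM t θ κ y N) 0 (P1 y), (-1 : ℝ) ^ S.card *
      ((cnt y N (pr S) : ℝ) - (y : ℝ) ^ 2 / pr S)| ≤ 2 * (y : ℝ) ^ 2 / L1 y ^ 3 := by
  obtain ⟨e, he⟩ := nob h0 h1 h2 h3 κ
  have hb1 : ∀ᶠ y : ℕ in atTop, ∀ i ∈ range (e + 1), ∀ N : ℕ,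
      (((Big t θ κ y N).filter fun S => ¬ ∃ p ∈ S, p ∈ Rg κ y i).card : ℝ) ≤ y / L1 y ^ 4 :=
    (eventually_all_finset _).2 fun i _ => bad1 h0 θ κ i
  filter_upwards [he, hb1, bad2 h0 θ κ, big_str h0 θ κ, small_card t θ κ,
    ev_L1 13 (2 * κ + 3) one_pos, L1_top.eventually_ge_atTop ((e : ℝ) + 9),
    eventually_ge_atTop 2] with y k1 k2 k3 k4 k5 k6 k7 hy N
  set L := L1 y with hL
  have he0 : (0 : ℝ) ≤ e := Nat.cast_nonneg e
  have L1' : 1 ≤ L := by linarith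
  have L0 : 0 < L := by linarith
  have hy0 : (0 : ℝ) < y := by exact_mod_cast (by omega : 0 < y)
  have hp1 : 1 ≤ L ^ (2 * κ) := one_le_pow₀ L1'
  set H := ⌈L ^ (2 * κ)⌉₊ with hH
  have H1 : L ^ (2 * κ) ≤ H := Nat.le_ceil _
  have H2 : (H : ℝ) ≤ 2 * L ^ (2 * κ) := by
    have := Nat.ceil_lt_add_one (show 0 ≤ L ^ (2 * κ) by positivity)
    linarith
  have H3 : 1 ≤ H := by exact_mod_cast hp1.trans H1
  set A := AS (okM t θ κ y N) 0 (P1 y) with hA
  set G := GoodS t θ κ e y N with hG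
  have hpos : ∀ S ∈ A, 0 < pr S := fun S hS => pr_pos fun p hp =>
    (mem_PL.1 (mem_powerset.1 (mem_filter.1 hS).1 hp)).1.ne_zero
  have hGB : G ⊆ Big t θ κ y N := filter_subset _ _
  have hBA : Big t θ κ y N ⊆ A := filter_subset _ _
  have hX : (0 : ℝ) ≤ y * L ^ κ / L ^ 3 := by positivity
  have g1 := Rem_good (t := t) (θ := θ) (κ := κ) (e := e) (y := y) (N := N)
    (X := y * L ^ κ / L ^ 3) (B := 1 / L ^ (2 * κ + 4)) H3 (by positivity)
    (fun S hS => by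
      obtain ⟨-, -, a1, -, a2⟩ := k4 N S (hGB hS)
      refine ⟨?_, a2⟩
      have hp : (0 : ℝ) < pr S := by exact_mod_cast hpos S (hBA (hGB hS))
      rw [le_log_iff_exp_le hp] at a1
      have e1 : exp (be y - 1) = y / (L ^ 3 * exp 1) := by
        rw [be, exp_sub, exp_sub, exp_L1 (by omega), show 3 * L2 y = (3 : ℕ) * L2 y by norm_num,
          exp_nat_mul, exp_L2 hy, div_div]
      rw [e1, div_le_iff₀ (by positivity)] at a1
      rw [rpow_one, pow_add] at k6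
      have a3 := exp_one_lt_d9
      have a4 : (0 : ℝ) < L ^ 3 := by positivity
      have a5 : 13 * L ^ (2 * κ) * L ^ 3 ≤ pr S * 3 * L ^ 3 := by
        have : (pr S : ℝ) * (L ^ 3 * exp 1) ≤ pr S * (L ^ 3 * 3) := by
          gcongr
          linarith
        linarith
      have a6 := le_of_mul_le_mul_right a5 a4
      have a7 : (2 * H : ℝ) < pr S := by linarith
      exact_mod_cast a7)
    (fun n h hh hh' hn => k1 N n h hh (hh'.trans H2) hn)
  have g2 : (G.card : ℝ) ≤ y * L ^ κ / L ^ 3 := by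
    have := card_fam (A := G) hX 1 one_pos fun S hS =>
      ⟨(k4 N S (hGB hS)).1, (k4 N S (hGB hS)).2.2.2.2, one_dvd _⟩
    simpa using this
  have g3 := Rem_triv y N (A \ G) fun S hS => hpos S (mem_sdiff.1 hS).1
  have g4 : ((A \ G).card : ℝ) ≤ y / L ^ 3 + (3 * y / L ^ 4 + (e + 1) * (y / L ^ 4)) := by
    have hsub : A \ G ⊆ (A.filter fun S => lS (et κ y) S ≤ be y) ∪
        (((Big t θ κ y N).filter fun S : Finset ℕ => ¬ Set.InjOn (lab (et κ y)) (S : Set ℕ)) ∪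
          (range (e + 1)).biUnion fun i =>
            (Big t θ κ y N).filter fun S => ¬ ∃ p ∈ S, p ∈ Rg κ y i) := by
      intro S hS
      obtain ⟨a1, a2⟩ := mem_sdiff.1 hS
      by_cases b1 : lS (et κ y) S ≤ be y
      · exact mem_union_left _ (mem_filter.2 ⟨a1, b1⟩)
      have b2 : S ∈ Big t θ κ y N := mem_filter.2 ⟨a1, not_le.1 b1⟩
      refine mem_union_right _ ?_
      by_cases b3 : Set.InjOn (lab (et κ y)) S
      swap
      · exact mem_union_left _ (mem_filter.2 ⟨b2, b3⟩)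
      refine mem_union_right _ ?_
      by_contra b4
      refine a2 (mem_filter.2 ⟨b2, b3, fun i hi => ?_⟩)
      by_contra b5
      exact b4 (mem_biUnion.2 ⟨i, mem_range.2 (by omega), mem_filter.2 ⟨b2, b5⟩⟩)
    have c1 := (card_le_card hsub).trans ((card_union_le _ _).trans
      (Nat.add_le_add_left ((card_union_le _ _).trans (Nat.add_le_add_left card_biUnion_le _)) _))
    have c2 := (Nat.cast_le (α := ℝ)).2 c1
    push_cast at c2
    have c3 := sum_le_card_nsmul _ _ _ fun i hi => k2 i hi N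
    rw [card_range, nsmul_eq_mul] at c3
    push_cast at c3
    have c4 := k5 N
    have c5 : (((Big t θ κ y N).filter fun S : Finset ℕ =>
        ¬ Set.InjOn (lab (et κ y)) (S : Set ℕ)).card : ℝ) ≤ 3 * y / L ^ 4 := by
      first
      | exact k3 N
      | exact ((Nat.cast_le (α := ℝ)).2 (Rem_coe (Big t θ κ y N) (lab (et κ y)))).trans (k3 N)
    linarith
  rw [← sum_sdiff (hGB.trans hBA)]
  refine (abs_add_le _ _).trans ((add_le_add g3 g1).trans ?_)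
  have H0 : (0 : ℝ) < H := by exact_mod_cast H3
  have f1 : ((A \ G).card : ℝ) * y ≤ y ^ 2 / L ^ 3 + (e + 4) * (y ^ 2 / L ^ 4) := by
    refine (mul_le_mul_of_nonneg_right g4 hy0.le).trans (le_of_eq ?_)
    ring
  have f2 : (G.card : ℝ) * (y * L ^ κ / L ^ 3 / H) ≤ y ^ 2 / L ^ 4 := by
    calc _ ≤ (y * L ^ κ / L ^ 3) * (y * L ^ κ / L ^ 3 / L ^ (2 * κ)) := by gcongr
      _ = y ^ 2 / L ^ 6 := by field_simp; ring
      _ ≤ _ := by gcongr; omega
  have f3 : 2 * (H : ℝ) * ((y : ℝ) ^ 2 * (1 / L ^ (2 * κ + 4))) ≤ 4 * (y ^ 2 / L ^ 4) := by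
    calc _ ≤ 2 * (2 * L ^ (2 * κ)) * ((y : ℝ) ^ 2 * (1 / L ^ (2 * κ + 4))) := by gcongr
      _ = _ := by field_simp; ring
  have f4 : ((e : ℝ) + 9) * (y ^ 2 / L ^ 4) ≤ y ^ 2 / L ^ 3 := by
    calc _ ≤ L * (y ^ 2 / L ^ 4) := by gcongr
      _ = _ := by field_simp
  have f5 : 2 * (y : ℝ) ^ 2 / L ^ 3 = y ^ 2 / L ^ 3 + y ^ 2 / L ^ 3 := by ring
  rw [f5]
  linarith

end Vale.Agent.P013
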