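import Vale.Agent.P013.Fam1

namespace Vale.Agent.P013

open Finset Real Filter

open Classical

theorem swap_gen {η β β' : ℝ} {F : Finset (Finset ℕ)} {S : Finset ℕ} (φ : ℕ → ℕ)
    (hl : ∀ p ∈ S, lab η (φ p) = lab η p) (hm : ∀ p ∈ S, ∀ r ∈ S, φ p ≤ φ r ↔ p ≤ r)
    (hF : ∀ U ⊆ S, U.image φ ∈ F ↔ U ∈ F) (hi : Set.InjOn (lab η) S)
    (h : Alive (okS η β β' F) 0 S) :
    Alive (okS η β β' F) 0 (S.image φ) ∧ lS η (S.image φ) = lS η S ∧
      Set.InjOn (lab η) (S.image φ : Finset ℕ) := by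
  have hinj : ∀ p ∈ S, ∀ r ∈ S, φ p = φ r → p = r := fun p hp r hr e =>
    le_antisymm ((hm p hp r hr).1 e.le) ((hm r hr p hp).1 e.ge)
  have hr : ∀ p ∈ S, rl η (φ p) = rl η p := fun p hp => by unfold rl; rw [hl p hp]
  have hup : ∀ T ⊆ S, ∀ p ∈ S, up (T.image φ) (φ p) = (up T p).image φ := by
    intro T hT p hp
    ext x
    unfold up
    simp only [mem_filter, mem_image]
    constructor
    · rintro ⟨⟨r, a, rfl⟩, b⟩
      exact ⟨r, ⟨a, (hm p hp r (hT a)).1 b⟩, rfl⟩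
    · rintro ⟨r, ⟨a, b⟩, rfl⟩
      exact ⟨⟨r, a, rfl⟩, (hm p hp r (hT a)).2 b⟩
  have hls : ∀ T ⊆ S, lS η (T.image φ) = lS η T := by
    intro T hT
    unfold lS
    rw [sum_image fun a ha b hb e => hinj a (hT ha) b (hT hb) e]
    exact sum_congr rfl fun a ha => hr a (hT ha)
  have hsub : ∀ (T : Finset ℕ) p, up T p ⊆ T := fun T p => filter_subset _ _
  have hpre : ∀ T ⊆ S, HasPre F (T.image φ) ↔ HasPre F T := by
    intro T hT
    unfold HasPre
    constructor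
    · rintro ⟨x, hx, a⟩
      obtain ⟨r, b, rfl⟩ := mem_image.1 hx
      rw [hup T hT r (hT b), hF _ ((hsub T r).trans hT)] at a
      exact ⟨r, b, a⟩
    · rintro ⟨r, b, a⟩
      refine ⟨φ r, mem_image_of_mem _ b, ?_⟩
      rw [hup T hT r (hT b), hF _ ((hsub T r).trans hT)]
      exact a
  refine ⟨?_, hls S subset_rfl, ?_⟩
  · intro x hx hc
    obtain ⟨p, hp, rfl⟩ := mem_image.1 hx
    rw [hup S subset_rfl p hp] at hc ⊢
    rw [card_image_of_injOn fun a ha b hb e => hinj a (hsub S p ha) b (hsub S p hb) e] at hc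
    have := h p hp hc
    unfold okS at this ⊢
    rw [hls _ (hsub S p), hr p hp, if_congr (hpre _ (hsub S p)) rfl rfl]
    exact this
  · intro x hx z hz e
    obtain ⟨a, ha, rfl⟩ := mem_image.1 (mem_coe.1 hx)
    obtain ⟨b, hb, rfl⟩ := mem_image.1 (mem_coe.1 hz)
    rw [hl a ha, hl b hb] at e
    rw [hi ha hb e]

theorem swap_alive {η β β' : ℝ} (hη : 0 < η) {F : Finset (Finset ℕ)} {S : Finset ℕ} {q q' : ℕ}
    (h0 : ∀ p ∈ S, p ≠ 0) (hq' : q' ≠ 0) (hq : q ∈ S) (hl : lab η q' = lab η q)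
    (hi : Set.InjOn (lab η) S) (hF : ∀ T ∈ F, ∀ p ∈ T, q < p ∧ q' < p)
    (h : Alive (okS η β β' F) 0 S) :
    Alive (okS η β β' F) 0 (insert q' (S.erase q)) ∧ lS η (insert q' (S.erase q)) = lS η S ∧
      Set.InjOn (lab η) (insert q' (S.erase q) : Finset ℕ) := by
  obtain ⟨φ, hφ⟩ : ∃ φ : ℕ → ℕ, ∀ p, φ p = if p = q then q' else p := ⟨_, fun _ => rfl⟩
  have e1 : φ q = q' := by rw [hφ, if_pos rfl]
  have e2 : ∀ p, p ≠ q → φ p = p := fun p hp => by rw [hφ, if_neg hp]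
  have hS : insert q' (S.erase q) = S.image φ := by
    ext x
    simp only [mem_insert, mem_erase, mem_image]
    constructor
    · rintro (rfl | ⟨a, b⟩)
      · exact ⟨q, hq, e1⟩
      · exact ⟨x, b, e2 x a⟩
    · rintro ⟨p, hp, rfl⟩
      by_cases c : p = q
      · left; rw [c, e1]
      · right; rw [e2 p c]; exact ⟨c, hp⟩
  have hl' : ∀ p, lab η (φ p) = lab η p := fun p => by
    by_cases c : p = q
    · rw [c, e1, hl]
    · rw [e2 p c]
  have hz : ∀ p ∈ S, φ p ≠ 0 := fun p hp => by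
    by_cases c : p = q
    · rw [c, e1]; exact hq'
    · rw [e2 p c]; exact h0 p hp
  have hlt : ∀ p ∈ S, ∀ r ∈ S, p < r → φ p < φ r := by
    intro p hp r hr hpr
    by_contra hc
    have a := lab_mono hη (hz r hr) (not_lt.1 hc)
    rw [hl', hl'] at a
    exact hpr.ne (hi hp hr (le_antisymm (lab_mono hη (h0 p hp) hpr.le) a))
  have hid : ∀ U : Finset ℕ, q ∉ U → U.image φ = U := by
    intro U hU
    rw [image_congr (g := id) fun a ha => e2 a fun c => hU (c ▸ ha), image_id]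
  rw [hS]
  refine swap_gen φ (fun p _ => hl' p) (fun p hp r hr => ⟨fun a => ?_, fun a => ?_⟩)
    (fun U _ => ⟨fun a => ?_, fun a => ?_⟩) hi h
  · by_contra hc
    exact absurd (hlt r hr p hp (not_le.1 hc)) (not_lt.2 a)
  · rcases a.eq_or_lt with c | c
    · rw [c]
    · exact (hlt p hp r hr c).le
  · rwa [hid U fun c => lt_irrefl _ (hF _ a q' (e1 ▸ mem_image_of_mem φ c)).2] at a
  · rwa [hid U fun c => lt_irrefl _ (hF _ a q c).1]

theorem rg_disj (κ : ℕ) : ∀ᶠ y : ℕ in atTop, ∀ i j p, p ∈ Rg κ y i → p ∈ Rg κ y j → i = j := by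
  filter_upwards [L2_top.eventually_ge_atTop 1] with y hy
  have key : ∀ i j p, p ∈ Rg κ y i → p ∈ Rg κ y j → ¬ i < j := by
    intro i j p hi hj hij
    have a := (mem_filter.1 hi).2.2
    have b := (mem_filter.1 hj).2.1
    have c : L2 y ^ (8 * i + 4) ≤ L2 y ^ (8 * j + 2) := pow_le_pow_right₀ hy (by omega)
    linarith
  intro i j p hi hj
  have a := key i j p hi hj
  have b := key j i p hj hi
  omega

theorem swap {t : ℝ} (ht : 0 < t) (θ : ℝ) (κ e : ℕ) : ∀ᶠ y : ℕ in atTop, ∀ N : ℕ,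
    ∀ S ∈ GoodS t θ κ e y N, ∀ i : Fin (e + 1), ∀ q ∈ S, q ∈ RgF κ e y i → ∀ q' ∈ RgF κ e y i,
      lab (et κ y) q' = lab (et κ y) q → insert q' (S.erase q) ∈ GoodS t θ κ e y N := by
  filter_upwards [rg_disj κ, L2_top.eventually_ge_atTop 1, L1_top.eventually_ge_atTop 1,
    eventually_ge_atTop 2, ev_lin 2 (8 * e + 4) ht, ev_lin 4 (8 * e + 4) one_pos,
    ev_lin 6 1 one_pos] with y hd h2 h1 hy c1 c2 c3
  intro N S hS i q hq hqi q' hq' hl
  have hη : 0 < et κ y := by unfold et; positivity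
  obtain ⟨hB, hi, hR⟩ := mem_filter.1 hS
  obtain ⟨hA, hb⟩ := mem_filter.1 hB
  obtain ⟨hP, hal⟩ := mem_filter.1 hA
  rw [mem_powerset] at hP
  have hpw : L2 y ^ (8 * i.val + 4) ≤ L2 y ^ (8 * e + 4) :=
    pow_le_pow_right₀ h2 (by have := i.2; omega)
  have hp0 : 0 < L2 y ^ (8 * e + 4) := by positivity
  obtain ⟨p1, l1⟩ := mem_PL.1 (mem_filter.1 hqi).1
  obtain ⟨p2, l2⟩ := mem_PL.1 (mem_filter.1 hq').1
  have hlt : ∀ a p : ℕ, log a ≤ L2 y ^ (8 * i.val + 4) → p ≠ 0 → t * L1 y ≤ log p → a < p := by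
    intro a p ha hp hlp
    by_contra hc
    have : log (p : ℝ) ≤ log a := log_le_log (by exact_mod_cast Nat.pos_of_ne_zero hp)
      (by exact_mod_cast not_lt.1 hc)
    linarith
  have hF : ∀ T ∈ Fam t θ κ y N, ∀ p ∈ T, q < p ∧ q' < p := by
    intro T hT p hp
    have a := (fam_mn ht hy hT).2.1 p hp
    have b : p ≠ 0 := (mem_PL.1 (mem_powerset.1 (mem_filter.1 hT).1 hp)).1.ne_zero
    exact ⟨hlt q p l1 b a, hlt q' p l2 b a⟩
  obtain ⟨r1, r2, r3⟩ := swap_alive hη (fun p hp => (mem_PL.1 (hP hp)).1.ne_zero) p2.ne_zero hq hl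
    hi hF hal
  refine mem_filter.2 ⟨mem_filter.2 ⟨mem_filter.2 ⟨mem_powerset.2 ?_, r1⟩, by rw [r2]; exact hb⟩,
    r3, fun j hj => ?_⟩
  · refine insert_subset (mem_PL.2 ⟨p2, ?_⟩) ((erase_subset _ _).trans hP)
    unfold be
    rw [pow_one] at c3
    linarith
  · obtain ⟨p, hp, hpj⟩ := hR j hj
    by_cases c : p = q
    · refine ⟨q', mem_insert_self _ _, ?_⟩
      rw [c] at hpj
      rw [hd j i.val q hpj hqi]
      exact hq'
    · exact ⟨p, mem_insert_of_mem (mem_erase.2 ⟨c, hp⟩), hpj⟩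

end Vale.Agent.P013
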