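import Vale.Agent.P013.Re2
import Vale.Agent.P013.Swap
import Vale.Agent.P013.Box

namespace Vale.Agent.P013

open Finset Real Filter

open Classical

theorem rows_str {t : ℝ} (ht : 0 < t) (θ : ℝ) (κ e : ℕ) : ∀ᶠ y : ℕ in atTop,
    ∀ (N : ℕ) (k : Fin (e + 1) → ℕ),
    ∀ ρ ∈ Rows (lab (et κ y)) (RgF κ e y) (P1 y) (GoodS t θ κ e y N) k, (∀ p ∈ ρ, p.Prime) ∧
      be y - 2 - ∑ i, et κ y * (k i - 1) ≤ log (pr ρ) ∧
      log (pr ρ) ≤ be' κ y - ∑ i, et κ y * (k i - 1) ∧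
      ∃ a ∈ tp t y, ∃ b ∈ bs t y, Good t θ y N a b ∧ a ∈ ρ ∧ b ∈ ρ := by
  filter_upwards [big_str ht θ κ, box_str κ e, rg_disj κ, L1_top.eventually_ge_atTop (e + 1 : ℝ),
    L2_top.eventually_ge_atTop 1, ev_lin 1 (8 * e + 4) (half_pos ht)]
    with y hb hx hd h1 h2 h3 N k ρ hρ
  obtain ⟨-, hl, q, hq, hS⟩ := mem_filter.1 hρ
  have hq' := Fintype.mem_piFinset.1 hq
  obtain ⟨s1, ⟨q0, -, s2⟩, s3, s4, -⟩ := hb N _ (mem_filter.1 hS).1
  have he : (0 : ℝ) ≤ e := Nat.cast_nonneg e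
  have hdis : Disjoint ρ (univ.image q) := by
    refine Finset.disjoint_left.2 fun p hp hp' => ?_
    obtain ⟨i, -, rfl⟩ := mem_image.1 hp'
    have a1 := mem_filter.1 (hq' i)
    exact absurd (hl i _ hp a1.1) (by rw [a1.2]; exact lt_irrefl _)
  have hinj : Function.Injective q := by
    intro i j h
    have a1 := (mem_filter.1 (hq' i)).1
    have a2 := (mem_filter.1 (hq' j)).1
    rw [← h] at a2
    exact Fin.ext (hd _ _ _ a1 a2)
  have hpr : ∀ p ∈ ρ, p.Prime := fun p hp => s1 p (mem_union_left _ hp)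
  have hlog : log (pr (ρ ∪ univ.image q)) = log (pr ρ) + ∑ i, log (q i) := by
    rw [log_pr fun p hp => (s1 p hp).ne_zero, log_pr fun p hp => (hpr p hp).ne_zero,
      Finset.sum_union hdis, Finset.sum_image fun i _ j _ h => hinj h]
  have hη : ((e : ℝ) + 1) * et κ y ≤ 1 := by
    unfold et
    have a1 : L1 y ≤ L1 y ^ (κ + 2) := le_self_pow₀ (by linarith) (by omega)
    rw [mul_one_div, div_le_one (by linarith)]
    linarith
  have hlo : ∑ i, et κ y * (k i - 1) ≤ ∑ i, log (q i) :=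
    Finset.sum_le_sum fun i _ => ((hx k i).2 _ (hq' i)).2.1.le
  have hhi : ∑ i, log (q i) ≤ ∑ i, et κ y * (k i - 1) + ((e : ℝ) + 1) * et κ y := by
    have a1 : ∑ i, log (q i) ≤ ∑ i, (et κ y * (k i - 1) + et κ y) :=
      Finset.sum_le_sum fun i _ => by linarith [((hx k i).2 _ (hq' i)).2.2.1]
    rw [Finset.sum_add_distrib, Finset.sum_const, card_univ, Fintype.card_fin, nsmul_eq_mul] at a1
    push_cast at a1
    exact a1
  have hbig : ∀ p ∈ ρ ∪ univ.image q, t * L1 y ≤ log p → p ∈ ρ := by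
    intro p hp hpl
    rcases mem_union.1 hp with h | h
    · exact h
    · exfalso
      obtain ⟨i, -, rfl⟩ := mem_image.1 h
      obtain ⟨-, -, a1, -, a2⟩ := (hx k i).2 _ (hq' i)
      have a3 : L2 y ^ (8 * i.val + 4) ≤ L2 y ^ (8 * e + 4) :=
        pow_le_pow_right₀ h2 (by have := i.2; omega)
      have a4 : 0 < t * L1 y := mul_pos ht (by linarith)
      linarith
  refine ⟨hpr, by linarith, by linarith, ?_⟩
  obtain ⟨-, a, ha, b, hb', hg, hF⟩ := mem_filter.1 s2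
  obtain ⟨-, f1, f2, -⟩ := mem_filter.1 hF
  refine ⟨a, ha, b, hb', hg, hbig a (mem_filter.1 f1).1 ?_, hbig b (mem_filter.1 f2).1 ?_⟩
  · have a1 := (mem_filter.1 ha).2
    have a4 : 0 < t * L1 y := mul_pos ht (by linarith)
    linarith
  · exact (mem_filter.1 hb').2

end Vale.Agent.P013
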