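import Vale.Agent.P013.SM1
import Vale.Agent.P013.An8
import Vale.Agent.P013.Win

namespace Vale.Agent.P013

open Finset Real Filter

open Classical

/-- potential of one chain -/
noncomputable def smG (γ t : ℝ) (S : Finset ℕ) : ℝ :=
  if Even S.card then gA (γ + log (pr S)) t else gB (γ + log (pr S)) t

/-- weighted term of one chain -/
noncomputable def smF (γ t k : ℝ) (S : Finset ℕ) : ℝ :=
  if RevAl γ S then (smG γ t S + k) / (pr S : ℝ) else 0

theorem sm_log_nonneg (S : Finset ℕ) : 0 ≤ log (pr S : ℝ) := Real.log_natCast_nonneg _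

theorem smG_nonneg {γ t : ℝ} (hγ : 0 ≤ γ) (S : Finset ℕ) : 0 ≤ smG γ t S := by
  unfold smG gA gB
  have := sm_log_nonneg S
  split_ifs
  · positivity
  · exact mul_nonneg (by linarith) (le_max_right _ _)

theorem smG_anti {γ t t' : ℝ} (hγ : 0 ≤ γ) (h : t ≤ t') (S : Finset ℕ) :
    smG γ t' S ≤ smG γ t S := by
  unfold smG
  have := sm_log_nonneg S
  split_ifs
  · exact gA_anti h
  · exact gB_anti (by linarith) h

theorem smF_nonneg {γ t k : ℝ} (hγ : 0 ≤ γ) (hk : 0 ≤ k) (S : Finset ℕ) : 0 ≤ smF γ t k S := by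
  unfold smF
  have := smG_nonneg (t := t) hγ S
  split_ifs
  · positivity
  · exact le_rfl

theorem smF_mono {γ t t' k k' : ℝ} (hγ : 0 ≤ γ) (h : t ≤ t') (hk : k' ≤ k) (S : Finset ℕ) :
    smF γ t' k' S ≤ smF γ t k S := by
  unfold smF
  have := smG_anti hγ h S
  split_ifs
  · exact div_le_div_of_nonneg_right (by linarith) (Nat.cast_nonneg _)
  · exact le_rfl

theorem sm_rev_insert {γ : ℝ} {S : Finset ℕ} {p : ℕ} (hp : ∀ q ∈ S, q < p)
    (h : RevAl γ (insert p S)) :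
    RevAl γ S ∧ (S.card % 2 = 1 → 2 * log p ≤ γ + log (pr S)) := by
  have e1 : ∀ q, q ≤ p → lo (insert p S) q = lo S q := by
    intro q hq
    unfold lo
    rw [filter_insert, if_neg (by omega)]
  have e2 : lo S p = S := filter_true_of_mem hp
  refine ⟨fun q hq hodd => ?_, fun hodd => ?_⟩
  · have := h q (mem_insert_of_mem hq)
    rw [e1 q (hp q hq).le] at this
    exact this hodd
  · have := h p (mem_insert_self _ _)
    rw [e1 p le_rfl, e2] at this
    exact this hodd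

theorem sm_step {γ t t' k k' E : ℝ} {S : Finset ℕ} {p : ℕ} (hγ : 0 ≤ γ) (hp1 : 1 ≤ p)
    (hS : ∀ q ∈ S, q ≠ 0 ∧ q < p) (h1 : t + log p / p ≤ t') (h2 : t' ≤ log p) (hk' : 0 ≤ k')
    (hE : (2 * log p * (log p - t) + (log p - t) ^ 2) / p ≤ E) (hk : k' + E ≤ k) :
    smF γ t' k' S + smF γ t' k' (insert p S) ≤ (1 + 1 / (p : ℝ)) * smF γ t k S := by
  have hpR : (1 : ℝ) ≤ p := by exact_mod_cast hp1
  have hp0 : (0 : ℝ) < p := by linarith
  have hl : 0 ≤ log (p : ℝ) := Real.log_natCast_nonneg _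
  have hlp : 0 ≤ log (p : ℝ) / p := by positivity
  have hpS : p ∉ S := fun h => lt_irrefl _ (hS p h).2
  have hpr : 0 < pr S := pr_pos fun q hq => (hS q hq).1
  have hprR : (0 : ℝ) < pr S := by exact_mod_cast hpr
  have hE0 : 0 ≤ E := le_trans (by
    have : 0 ≤ log (p : ℝ) - t := by linarith
    positivity) hE
  have hk0 : 0 ≤ k := by linarith
  have hip : 0 ≤ 1 / (p : ℝ) := by positivity
  by_cases hI : RevAl γ (insert p S)
  · obtain ⟨hR, hodd⟩ := sm_rev_insert (fun q hq => (hS q hq).2) hI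
    have epr : (pr (insert p S) : ℝ) = p * pr S := by
      unfold pr
      rw [prod_insert hpS]
      push_cast
      ring
    have elog : log (pr (insert p S) : ℝ) = log (pr S) + log p := by
      rw [epr, log_mul hp0.ne' hprR.ne']
      ring
    have key : smG γ t' S + smG γ t' (insert p S) / p ≤ (1 + 1 / (p : ℝ)) * smG γ t S + E := by
      unfold smG
      rw [elog, card_insert_of_notMem hpS, ← add_assoc]
      have hL := sm_log_nonneg S
      by_cases he : Even S.card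
      · rw [if_pos he, if_pos he, if_neg (by simpa [Nat.even_add_one] using he)]
        have := stepA (γ := γ + log (pr S)) (by linarith) hpR hl h1 h2
        linarith
      · rw [if_neg he, if_neg he, if_pos (by simpa [Nat.even_add_one] using he)]
        have := stepB (γ := γ + log (pr S)) hpR hl h1 h2
          (hodd (Nat.odd_iff.mp (Nat.not_even_iff_odd.mp he)))
        linarith
    unfold smF
    rw [if_pos hR, if_pos hR, if_pos hI, epr]
    have e : (smG γ t' S + k') / (pr S : ℝ) + (smG γ t' (insert p S) + k') / (p * pr S) =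
        (smG γ t' S + smG γ t' (insert p S) / p + (1 + 1 / (p : ℝ)) * k') / pr S := by
      field_simp
      ring
    rw [e, ← mul_div_assoc]
    apply div_le_div_of_nonneg_right _ hprR.le
    have h3 : (1 + 1 / (p : ℝ)) * (k' + E) ≤ (1 + 1 / (p : ℝ)) * k :=
      mul_le_mul_of_nonneg_left hk (by linarith)
    have h4 : 0 ≤ 1 / (p : ℝ) * E := mul_nonneg hip hE0
    nlinarith
  · have e0 : smF γ t' k' (insert p S) = 0 := if_neg hI
    have a1 := smF_mono (t := t) (t' := t') (k := k) (k' := k') hγ (by linarith) (by linarith) S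
    have a2 := smF_nonneg (t := t) hγ hk0 S
    have a3 : 0 ≤ 1 / (p : ℝ) * smF γ t k S := mul_nonneg hip a2
    rw [e0]
    nlinarith

theorem sm_err {C l r p : ℝ} (_hC : 0 < C) (hl : log 2 ≤ l) (hr0 : 0 ≤ r) (hr : r ≤ C / l ^ 2)
    (hp : 0 < p) : (2 * l * r + r ^ 2) / p ≤ (2 * C + 4 * C ^ 2) * (1 / (p * l)) := by
  have h2 : (0.69 : ℝ) < log 2 := by have := Real.log_two_gt_d9; linarith
  have hl0 : 0 < l := by linarith
  have hl3 : 1 / 4 ≤ l ^ 3 := by
    have : (0.69 : ℝ) ^ 3 ≤ l ^ 3 := pow_le_pow_left₀ (by norm_num) (by linarith) 3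
    norm_num at this ⊢
    linarith
  have a1 : r * l ^ 2 ≤ C := by rwa [le_div_iff₀ (by positivity)] at hr
  have a2 : (r * l ^ 2) ^ 2 ≤ C ^ 2 := pow_le_pow_left₀ (by positivity) a1 2
  have a3 : r ^ 2 * l ≤ 4 * C ^ 2 := by
    have : r ^ 2 * l * (1 / 4) ≤ r ^ 2 * l * l ^ 3 :=
      mul_le_mul_of_nonneg_left hl3 (by positivity)
    nlinarith
  have e : (2 * l * r + r ^ 2) / p = (2 * (r * l ^ 2) + r ^ 2 * l) * (1 / (p * l)) := by
    field_simp
  rw [e]
  exact mul_le_mul_of_nonneg_right (by linarith) (by positivity)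

theorem sm : ∃ C : ℝ, 0 < C ∧ ∀ (m0 m1 : ℕ) (b G : ℝ) (A : Finset (Finset ℕ)), 1 ≤ m0 → m0 ≤ m1 →
    0 ≤ b → 0 < G → (∀ S ∈ A, (∀ p ∈ S, p.Prime ∧ m0 < p ∧ p ≤ m1) ∧ Even S.card ∧
      RevAl (b + log m0) S ∧ log m1 + G ≤ b + log m0 + log (pr S)) →
    ∑ S ∈ A, 1 / (pr S : ℝ) ≤
      C * (b + 1) ^ 2 * log ((m1 : ℝ) + 1) / (log ((m0 : ℝ) + 1) * G ^ 2) := by
  obtain ⟨C, θ, hC, hθ, hθp⟩ := th_seq
  obtain ⟨Cs, hCs, hs⟩ := sum_plog
  obtain ⟨Cp, hCp, hpr⟩ := prod_ratio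
  obtain ⟨D, hD⟩ : ∃ D, D = 2 * C + 4 * C ^ 2 := ⟨_, rfl⟩
  have hD0 : 0 < D := by rw [hD]; positivity
  refine ⟨Cp * ((C + 1) ^ 2 + D * Cs), by positivity, ?_⟩
  intro m0 m1 b G A hm0 hm01 hb hG hA
  obtain ⟨γ, hγ⟩ : ∃ γ, γ = b + log (m0 : ℝ) := ⟨_, rfl⟩
  have hγ0 : 0 ≤ γ := by have := Real.log_natCast_nonneg m0; linarith
  rw [← hγ] at hA
  obtain ⟨P, hP⟩ : ∃ P : ℕ → Finset ℕ, ∀ m, P m = (Ioc m0 m).filter Nat.Prime := ⟨_, fun _ => rfl⟩
  obtain ⟨κ, hκ⟩ : ∃ κ : ℕ → ℝ, ∀ m, κ m = D * Cs - D * ∑ p ∈ P m, 1 / ((p : ℝ) * log p) :=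
    ⟨_, fun _ => rfl⟩
  have hκ0 : ∀ m, 0 ≤ κ m := by
    intro m
    have := hs (P m) (fun p hp => by rw [hP] at hp; exact (mem_filter.mp hp).2)
    rw [hκ]
    nlinarith
  have main : ∀ m, m0 ≤ m → ∑ S ∈ (P m).powerset, smF γ (θ m) (κ m) S ≤
      (∏ p ∈ P m, (1 + 1 / (p : ℝ))) * ((b + C) ^ 2 + D * Cs) := by
    intro m hm
    induction m, hm using Nat.le_induction with
    | base =>
      have e : P m0 = ∅ := by rw [hP]; simp
      have e2 : RevAl γ ∅ := fun p hp => absurd hp (notMem_empty p)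
      rw [e, powerset_empty, sum_singleton, prod_empty, one_mul]
      unfold smF smG
      rw [if_pos e2, if_pos (by simp), hκ, e]
      unfold pr gA
      simp only [prod_empty, Nat.cast_one, log_one, add_zero, div_one, sum_empty, mul_zero,
        sub_zero]
      have h1 := (hθ m0 hm0).2.1
      have : max (γ - θ m0) 0 ^ 2 ≤ (b + C) ^ 2 :=
        pow_le_pow_left₀ (le_max_right _ _) (max_le (by linarith) (by linarith)) 2
      linarith
    | succ m hm ih =>
      have hm1 : 1 ≤ m := le_trans hm0 hm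
      by_cases hp : (m + 1).Prime
      · have e : P (m + 1) = insert (m + 1) (P m) := by
          rw [hP, hP, ← insert_Ioc_right_eq_Ioc_add_one hm, filter_insert, if_pos hp]
        have hlt : ∀ q ∈ P m, q ≠ 0 ∧ q < m + 1 := by
          intro q hq
          rw [hP, mem_filter, mem_Ioc] at hq
          omega
        have hn : m + 1 ∉ P m := fun h => lt_irrefl _ (hlt _ h).2
        obtain ⟨t1, t2⟩ := hθp m hm1 hp
        have t3 := (hθ (m + 1) (by omega)).1
        have hp0 : (0 : ℝ) < ((m + 1 : ℕ) : ℝ) := by positivity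
        have hl2 : log 2 ≤ log ((m + 1 : ℕ) : ℝ) :=
          log_le_log (by norm_num) (by exact_mod_cast hp.two_le)
        have hlp : 0 ≤ log ((m + 1 : ℕ) : ℝ) / ((m + 1 : ℕ) : ℝ) :=
          div_nonneg (Real.log_natCast_nonneg _) hp0.le
        have hE := sm_err hC hl2 (by linarith) t2 hp0
        rw [← hD] at hE
        have hk : κ (m + 1) + D * (1 / (((m + 1 : ℕ) : ℝ) * log ((m + 1 : ℕ) : ℝ))) ≤ κ m := by
          rw [hκ, hκ, e, sum_insert hn]
          linarith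
        rw [e, sum_powerset_insert hn, ← sum_add_distrib, prod_insert hn, mul_assoc]
        refine le_trans (sum_le_sum fun S hS => sm_step hγ0 (by omega)
          (fun q hq => hlt q (mem_powerset.mp hS hq)) t1 t3 (hκ0 _) hE hk) ?_
        rw [← mul_sum]
        exact mul_le_mul_of_nonneg_left ih (by positivity)
      · have e : P (m + 1) = P m := by
          rw [hP, hP, ← insert_Ioc_right_eq_Ioc_add_one hm, filter_insert, if_neg hp]
        have hk : κ (m + 1) = κ m := by rw [hκ, hκ, e]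
        rw [e, hk]
        exact le_trans (sum_le_sum fun S _ => smF_mono hγ0 (hθ m hm1).2.2 le_rfl S) ih
  have h1 := main m1 hm01
  have hsub : A ⊆ (P m1).powerset := by
    intro S hS
    rw [mem_powerset, hP]
    intro p hp
    obtain ⟨a, b', c⟩ := (hA S hS).1 p hp
    exact mem_filter.mpr ⟨mem_Ioc.mpr ⟨b', c⟩, a⟩
  have h2 : G ^ 2 * ∑ S ∈ A, 1 / (pr S : ℝ) ≤ ∑ S ∈ (P m1).powerset, smF γ (θ m1) (κ m1) S := by
    rw [mul_sum]
    refine le_trans (sum_le_sum fun S hS => ?_)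
      (sum_le_sum_of_subset_of_nonneg hsub fun S _ _ => smF_nonneg hγ0 (hκ0 _) S)
    obtain ⟨-, a2, a3, a4⟩ := hA S hS
    unfold smF smG gA
    rw [if_pos a3, if_pos a2, mul_one_div]
    apply div_le_div_of_nonneg_right _ (Nat.cast_nonneg _)
    have t1 := (hθ m1 (le_trans hm0 hm01)).1
    have : G ^ 2 ≤ max (γ + log (pr S) - θ m1) 0 ^ 2 :=
      pow_le_pow_left₀ hG.le (le_max_of_le_left (by linarith)) 2
    have := hκ0 m1
    linarith
  have h3 := hpr m0 m1 hm0 hm01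
  rw [← hP] at h3
  have hl0 : 0 < log ((m0 : ℝ) + 1) := by
    apply log_pos
    have : (1 : ℝ) ≤ m0 := by exact_mod_cast hm0
    linarith
  have hl1 : 0 ≤ log ((m1 : ℝ) + 1) := log_nonneg (by have := Nat.cast_nonneg (α := ℝ) m1; linarith)
  have h4 : (b + C) ^ 2 + D * Cs ≤ ((C + 1) ^ 2 + D * Cs) * (b + 1) ^ 2 := by
    have q1 : b + C ≤ (C + 1) * (b + 1) := by nlinarith
    have q2 : (b + C) ^ 2 ≤ ((C + 1) * (b + 1)) ^ 2 := pow_le_pow_left₀ (by linarith) q1 2
    have q3 : 1 ≤ (b + 1) ^ 2 := one_le_pow₀ (by linarith)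
    have q4 : D * Cs * 1 ≤ D * Cs * (b + 1) ^ 2 := mul_le_mul_of_nonneg_left q3 (by positivity)
    nlinarith
  have h5 : (∏ p ∈ P m1, (1 + 1 / (p : ℝ))) * ((b + C) ^ 2 + D * Cs) ≤
      (Cp * log ((m1 : ℝ) + 1) / log ((m0 : ℝ) + 1)) * (((C + 1) ^ 2 + D * Cs) * (b + 1) ^ 2) :=
    mul_le_mul h3 h4 (by positivity) (by positivity)
  rw [le_div_iff₀ (by positivity)]
  have h6 : G ^ 2 * ∑ S ∈ A, 1 / (pr S : ℝ) ≤
      (Cp * log ((m1 : ℝ) + 1) / log ((m0 : ℝ) + 1)) * (((C + 1) ^ 2 + D * Cs) * (b + 1) ^ 2) := by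
    linarith
  have h7 := mul_le_mul_of_nonneg_right h6 hl0.le
  have e : (Cp * log ((m1 : ℝ) + 1) / log ((m0 : ℝ) + 1)) *
      (((C + 1) ^ 2 + D * Cs) * (b + 1) ^ 2) * log ((m0 : ℝ) + 1) =
      Cp * ((C + 1) ^ 2 + D * Cs) * (b + 1) ^ 2 * log ((m1 : ℝ) + 1) := by
    field_simp
  rw [e] at h7
  linarith

end Vale.Agent.P013
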