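import Vale.Agent.P013.Bas

namespace Vale.Agent.P013

open Finset Real Filter

open Classical

theorem gA_anti {γ θ θ' : ℝ} (h : θ ≤ θ') : gA γ θ' ≤ gA γ θ := by
  unfold gA
  exact pow_le_pow_left₀ (le_max_right _ _) (max_le_max (by linarith) le_rfl) 2

theorem gB_anti {γ θ θ' : ℝ} (hγ : 0 ≤ γ) (h : θ ≤ θ') : gB γ θ' ≤ gB γ θ := by
  unfold gB
  exact mul_le_mul_of_nonneg_left (max_le_max (by linarith) le_rfl) hγ

theorem stepA {γ θ θ' l p : ℝ} (hγ : 0 ≤ γ) (hp : 1 ≤ p) (hl : 0 ≤ l) (h1 : θ + l / p ≤ θ')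
    (h2 : θ' ≤ l) : gA γ θ' + gB (γ + l) θ' / p ≤
      (1 + 1 / p) * gA γ θ + (2 * l * (l - θ) + (l - θ) ^ 2) / p := by
  have hp0 : 0 < p := by linarith
  obtain ⟨s, hs⟩ : ∃ s, s = l / p := ⟨_, rfl⟩
  have hs0 : 0 ≤ s := hs ▸ div_nonneg hl hp0.le
  have hsp : s * p = l := by rw [hs]; field_simp
  rw [← hs] at h1
  have a1 := gA_anti (γ := γ) h1
  have a2 := gB_anti (γ := γ + l) (by linarith) h1
  have key : gA γ (θ + s) * p + gB (γ + l) (θ + s) ≤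
      (p + 1) * gA γ θ + (2 * l * (l - θ) + (l - θ) ^ 2) := by
    unfold gA gB
    rcases le_total (θ + s) γ with h | h
    · rw [max_eq_left (by linarith : (0 : ℝ) ≤ γ - (θ + s)),
        max_eq_left (by linarith : (0 : ℝ) ≤ γ + l - 2 * (θ + s)),
        max_eq_left (by linarith : (0 : ℝ) ≤ γ - θ)]
      have e1 : (γ - (θ + s)) ^ 2 * p = (γ - θ) ^ 2 * p - 2 * (γ - θ) * l + s * l := by
        rw [← hsp]; ring
      rw [e1]
      have b1 : 0 ≤ s * l := mul_nonneg hs0 hl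
      have b2 : 0 ≤ s * γ := mul_nonneg hs0 hγ
      have b3 : 0 ≤ (l - θ) ^ 2 := sq_nonneg _
      nlinarith
    · rw [max_eq_right (by linarith : γ - (θ + s) ≤ 0)]
      have b1 : (γ + l) * max (γ + l - 2 * (θ + s)) 0 ≤ (2 * l) * (l - θ) :=
        mul_le_mul (by linarith) (max_le (by linarith) (by linarith)) (le_max_right _ _)
          (by linarith)
      have b2 : 0 ≤ (p + 1) * max (γ - θ) 0 ^ 2 := by positivity
      have b3 : 0 ≤ (l - θ) ^ 2 := sq_nonneg _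
      nlinarith
  have e : (1 + 1 / p) * gA γ θ + (2 * l * (l - θ) + (l - θ) ^ 2) / p =
      ((p + 1) * gA γ θ + (2 * l * (l - θ) + (l - θ) ^ 2)) / p := by field_simp
  have e2 : gA γ θ' + gB (γ + l) θ' / p = (gA γ θ' * p + gB (γ + l) θ') / p := by field_simp
  rw [e, e2]
  apply div_le_div_of_nonneg_right _ hp0.le
  nlinarith [mul_le_mul_of_nonneg_right a1 hp0.le]

theorem stepB {γ θ θ' l p : ℝ} (hp : 1 ≤ p) (hl : 0 ≤ l) (h1 : θ + l / p ≤ θ')
    (h2 : θ' ≤ l) (h3 : 2 * l ≤ γ) : gB γ θ' + gA (γ + l) θ' / p ≤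
      (1 + 1 / p) * gB γ θ + (2 * l * (l - θ) + (l - θ) ^ 2) / p := by
  have hp0 : 0 < p := by linarith
  obtain ⟨s, hs⟩ : ∃ s, s = l / p := ⟨_, rfl⟩
  have hs0 : 0 ≤ s := hs ▸ div_nonneg hl hp0.le
  have hsp : s * p = l := by rw [hs]; field_simp
  rw [← hs] at h1
  have a1 := gB_anti (γ := γ) (by linarith) h1
  have a2 := gA_anti (γ := γ + l) (θ := θ) (θ' := θ') (by linarith)
  have key : gB γ (θ + s) * p + gA (γ + l) θ ≤
      (p + 1) * gB γ θ + (2 * l * (l - θ) + (l - θ) ^ 2) := by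
    unfold gA gB
    rw [max_eq_left (by linarith : (0 : ℝ) ≤ γ - 2 * (θ + s)),
      max_eq_left (by linarith : (0 : ℝ) ≤ γ + l - θ),
      max_eq_left (by linarith : (0 : ℝ) ≤ γ - 2 * θ)]
    have e1 : γ * (γ - 2 * (θ + s)) * p = γ * (γ - 2 * θ) * p - 2 * γ * l := by
      rw [← hsp]; ring
    rw [e1]
    have b1 : 0 ≤ l * (l - θ) := mul_nonneg hl (by linarith)
    nlinarith
  have e : (1 + 1 / p) * gB γ θ + (2 * l * (l - θ) + (l - θ) ^ 2) / p =
      ((p + 1) * gB γ θ + (2 * l * (l - θ) + (l - θ) ^ 2)) / p := by field_simp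
  have e2 : gB γ θ' + gA (γ + l) θ' / p = (gB γ θ' * p + gA (γ + l) θ') / p := by field_simp
  rw [e, e2]
  apply div_le_div_of_nonneg_right _ hp0.le
  nlinarith [mul_le_mul_of_nonneg_right a1 hp0.le]

end Vale.Agent.P013
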