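import Vale.Agent.P013.SM
import Vale.Agent.P013.Bas

namespace Vale.Agent.P013

open Finset Real Filter

open Classical

theorem top_SM2 {γ : ℝ} {S : Finset ℕ} (hS : ∀ p ∈ S, p.Prime) (hne : S.Nonempty)
    (he : Even S.card) (hR : RevAl γ S) : ∀ p ∈ S, 3 * log p ≤ γ + log (pr S) := by
  intro p hp
  have hM := S.max'_mem hne
  set M := S.max' hne with hMd
  have hlo : lo S M = S.erase M := by
    ext q
    simp only [lo, mem_filter, mem_erase]
    constructor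
    · rintro ⟨h1, h2⟩; exact ⟨h2.ne, h1⟩
    · rintro ⟨h1, h2⟩; exact ⟨h2, lt_of_le_of_ne (S.le_max' q h2) h1⟩
  have hc : (S.erase M).card + 1 = S.card := card_erase_add_one hM
  have h1 := hR M hM (by rw [hlo]; obtain ⟨k, hk⟩ := he; omega)
  rw [hlo, log_pr (fun q hq => (hS q (mem_of_mem_erase hq)).ne_zero)] at h1
  rw [log_pr (fun q hq => (hS q hq).ne_zero), ← add_sum_erase S _ hM]
  have h2 : log p ≤ log M := log_le_log (by exact_mod_cast (hS p hp).pos)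
    (by exact_mod_cast S.le_max' p hp)
  linarith

theorem sm2 : ∃ C : ℝ, 0 < C ∧ ∀ (m0 : ℕ) (b G u : ℝ) (A : Finset (Finset ℕ)), 1 ≤ m0 →
    0 ≤ b → 0 < G → 0 ≤ u → (∀ S ∈ A, (∀ p ∈ S, p.Prime ∧ m0 < p ∧ log p ≤ u) ∧ S.Nonempty ∧
      Even S.card ∧ RevAl (b + log m0) S ∧ G ≤ b + log m0 + log (pr S)) →
    ∑ S ∈ A, 1 / (pr S : ℝ) ≤ C * (b + 1) ^ 2 * (u + 1) / (log ((m0 : ℝ) + 1) * G ^ 2) := by
  obtain ⟨C, hC, H⟩ := sm
  refine ⟨12 * C, by positivity, fun m0 b G u A hm hb hG hu hA => ?_⟩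
  have hl : 0 < log ((m0 : ℝ) + 1) := log_pos (by
    have : (1 : ℝ) ≤ m0 := by exact_mod_cast hm
    linarith)
  have ex : ∀ S : Finset ℕ, ∃ i : ℕ, S ∈ A → 2 ^ i * G ≤ b + log m0 + log (pr S) ∧
      b + log m0 + log (pr S) ≤ 2 ^ (i + 1) * G := by
    intro S
    by_cases hS : S ∈ A
    · obtain ⟨i, h1, h2⟩ := exists_nat_pow_near (x := (b + log m0 + log (pr S)) / G) (y := 2)
        ((one_le_div hG).2 (hA S hS).2.2.2.2) one_lt_two
      exact ⟨i, fun _ => ⟨(le_div_iff₀ hG).1 h1, ((div_lt_iff₀ hG).1 h2).le⟩⟩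
    · exact ⟨0, fun h => absurd h hS⟩
  choose ix hix using ex
  set K := C * (b + 1) ^ 2 * (u + 1) / (log ((m0 : ℝ) + 1) * G ^ 2) with hK
  have hK0 : 0 ≤ K := by positivity
  have key : ∀ i : ℕ, ∑ S ∈ A.filter (fun S => ix S = i), 1 / (pr S : ℝ) ≤ 9 * K * (1 / 4) ^ i := by
    intro i
    rcases (A.filter (fun S => ix S = i)).eq_empty_or_nonempty with h0 | ⟨S0, hS0⟩
    · rw [h0, sum_empty]; positivity
    set v := min u (2 ^ (i + 1) * G / 3) with hv
    have hmem : ∀ S ∈ A.filter (fun S => ix S = i), ∀ p ∈ S, p ≤ ⌊exp v⌋₊ := by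
      intro S hS p hp
      obtain ⟨h1, h2⟩ := mem_filter.1 hS
      obtain ⟨a1, a2, a3, a4, -⟩ := hA S h1
      have b1 := top_SM2 (fun q hq => (a1 q hq).1) a2 a3 a4 p hp
      have b2 := (hix S h1).2
      rw [h2] at b2
      refine Nat.le_floor ?_
      rw [← log_le_iff_le_exp (by exact_mod_cast (a1 p hp).1.pos)]
      exact le_min (a1 p hp).2.2 (by linarith)
    have hm1 : m0 ≤ ⌊exp v⌋₊ := by
      obtain ⟨p, hp⟩ := (hA S0 (mem_filter.1 hS0).1).2.1
      exact ((hA S0 (mem_filter.1 hS0).1).1 p hp).2.1.le.trans (hmem S0 hS0 p hp)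
    have hf0 : (0 : ℝ) < ⌊exp v⌋₊ := by exact_mod_cast lt_of_lt_of_le hm hm1
    have hf1 : log (⌊exp v⌋₊ : ℝ) ≤ v := by
      rw [log_le_iff_le_exp hf0]; exact Nat.floor_le (exp_pos _).le
    have h1 := H m0 ⌊exp v⌋₊ b (2 ^ i * G / 3) (A.filter (fun S => ix S = i)) hm hm1 hb (by positivity) (fun S hS => by
      obtain ⟨h1, h2⟩ := mem_filter.1 hS
      obtain ⟨a1, a2, a3, a4, -⟩ := hA S h1
      refine ⟨fun p hp => ⟨(a1 p hp).1, (a1 p hp).2.1, hmem S hS p hp⟩, a3, a4, ?_⟩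
      have b2 := (hix S h1).1
      rw [h2] at b2
      have b3 : v ≤ 2 ^ (i + 1) * G / 3 := min_le_right _ _
      rw [pow_succ] at b3
      linarith)
    refine h1.trans ?_
    have h2 : log ((⌊exp v⌋₊ : ℝ) + 1) ≤ u + 1 := by
      rw [log_le_iff_le_exp (by linarith), exp_add]
      have c1 : (⌊exp v⌋₊ : ℝ) ≤ exp u :=
        (Nat.floor_le (exp_pos _).le).trans (exp_le_exp.2 (min_le_left _ _))
      have c2 : 1 ≤ exp u := one_le_exp hu
      have c3 : (2 : ℝ) ≤ exp 1 := by have := add_one_le_exp (1 : ℝ); linarith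
      nlinarith
    have e : 9 * K * (1 / 4) ^ i = C * (b + 1) ^ 2 * (u + 1) /
        (log ((m0 : ℝ) + 1) * (2 ^ i * G / 3) ^ 2) := by
      rw [hK, show (1 / 4 : ℝ) = 1 / 2 ^ 2 by norm_num, one_div_pow, ← pow_mul, mul_comm 2 i,
        pow_mul]
      field_simp
      norm_num
    rw [e]
    exact div_le_div_of_nonneg_right (mul_le_mul_of_nonneg_left h2 (by positivity))
      (by positivity)
  rw [← sum_fiberwise_of_maps_to (t := A.image ix) (g := ix) (fun S hS => mem_image_of_mem _ hS)]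
  refine (sum_le_sum (fun i _ => key i)).trans ?_
  rw [← mul_sum]
  have h3 : ∑ i ∈ A.image ix, (1 / 4 : ℝ) ^ i ≤ 4 / 3 := by
    have := (summable_geometric_of_lt_one (r := (1 / 4 : ℝ)) (by norm_num) (by norm_num)).sum_le_tsum
      (A.image ix) (fun _ _ => by positivity)
    rw [tsum_geometric_of_lt_one (by norm_num) (by norm_num)] at this
    norm_num at this ⊢
    exact this
  calc 9 * K * ∑ i ∈ A.image ix, (1 / 4 : ℝ) ^ i ≤ 9 * K * (4 / 3) :=
        mul_le_mul_of_nonneg_left h3 (by positivity)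
    _ = _ := by rw [hK]; ring

end Vale.Agent.P013
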