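import Vale.Agent.P013.SM2

namespace Vale.Agent.P013

open Finset Real Filter

open Classical

theorem SM3_card (S : Finset ℕ) (p : ℕ) : (up S p).card + (lo S p).card = S.card := by
  have h := Finset.card_filter_add_card_filter_not (s := S) (fun q => p ≤ q)
  simpa only [up, lo, not_le] using h

theorem SM3_log {S : Finset ℕ} (h : ∀ p ∈ S, p ≠ 0) (p : ℕ) :
    log (pr (up S p)) + log (pr (lo S p)) = log (pr S) := by
  rw [log_pr h, log_pr (S := up S p) (fun q hq => h q (mem_filter.1 hq).1),
    log_pr (S := lo S p) (fun q hq => h q (mem_filter.1 hq).1)]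
  have h := Finset.sum_filter_add_sum_filter_not S (fun q => p ≤ q) (fun q : ℕ => log (q : ℝ))
  simpa only [up, lo, not_le] using h

theorem SM3_near {b : ℝ} {S : Finset ℕ} (h : ∀ p ∈ S, p ≠ 0) (hN : Near 1 (b + log (pr S)) S)
    {p : ℕ} (hp : p ∈ S) (hq : ∃ q ∈ S, q < p) (hu : (up S p).card % 2 = 1) :
    2 * log p ≤ b + log (pr (lo S p)) := by
  have h1 := hN.2 p hp hq hu
  have h2 := SM3_log h p
  linarith

theorem SM3_pr {S : Finset ℕ} {m : ℕ} (hm : m ∈ S) : pr S = m * pr (S.erase m) :=
  (Finset.mul_prod_erase S (fun p => p) hm).symm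

/-- chains whose top position is tested, test waived at the least element -/
theorem sm3 : ∃ C : ℝ, 0 < C ∧ ∀ (b G u : ℝ) (A : Finset (Finset ℕ)), 0 ≤ b → 0 < G → 0 ≤ u →
    (∀ S ∈ A, (∀ p ∈ S, p.Prime ∧ log p ≤ u) ∧ 2 ≤ S.card ∧ G ≤ b + log (pr S) ∧
      Near 1 (b + log (pr S)) S) →
    ∑ S ∈ A, 1 / (pr S : ℝ) ≤ C * (b + 1) ^ 2 * (u + 1) / G ^ 2 := by
  obtain ⟨C, hC, h2⟩ := sm2
  obtain ⟨C', hC', hp⟩ := sum_plog
  have hl2 : 0 < log (2 : ℝ) := log_pos (by norm_num)
  refine ⟨C / log 2 + C * C', by positivity, fun b G u A hb hG hu hA => ?_⟩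
  have h0 : ∀ S ∈ A, ∀ p ∈ S, p ≠ 0 := fun S hS p hp => ((hA S hS).1 p hp).1.ne_zero
  set K : ℝ := C * (b + 1) ^ 2 * (u + 1) / G ^ 2 with hK
  have hK0 : 0 ≤ K := by positivity
  have hev : ∑ S ∈ A.filter (fun S => Even S.card), 1 / (pr S : ℝ) ≤ K / log 2 := by
    refine (h2 1 b G u _ le_rfl hb hG hu fun S hS => ?_).trans (le_of_eq ?_)
    · obtain ⟨hS, he⟩ := mem_filter.1 hS
      obtain ⟨a1, a2, a3, a4⟩ := hA S hS
      refine ⟨fun p hp => ⟨(a1 p hp).1, (a1 p hp).1.one_lt, (a1 p hp).2⟩,
        card_pos.1 (by omega), he, fun p hp hl => ?_, by simpa using a3⟩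
      have hc := SM3_card S p
      obtain ⟨q, hq⟩ : (lo S p).Nonempty := card_pos.1 (by omega)
      rw [Nat.even_iff] at he
      have := SM3_near (h0 S hS) a4 hp ⟨q, mem_filter.1 hq⟩ (by omega)
      simpa using this
    · rw [hK]
      norm_num
      field_simp
  have hod : ∑ S ∈ A.filter (fun S => ¬ Even S.card), 1 / (pr S : ℝ) ≤ K * C' := by
    set B := A.filter (fun S => ¬ Even S.card) with hB
    have hmin : ∀ S ∈ B, sInf (S : Set ℕ) ∈ S := fun S hS => by
      have : S.Nonempty := card_pos.1 (by have := (hA S (mem_filter.1 hS).1).2.1; omega)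
      exact Finset.mem_coe.1 (Nat.sInf_mem (Finset.coe_nonempty.2 this))
    rw [← Finset.sum_fiberwise_of_maps_to (s := B) 
      (t := B.image fun S : Finset ℕ => sInf (S : Set ℕ))
      (g := fun S : Finset ℕ => sInf (S : Set ℕ)) (fun S hS => mem_image_of_mem _ hS)]
    have hpr : ∀ m ∈ B.image fun S : Finset ℕ => sInf (S : Set ℕ), m.Prime := by
      intro m hm
      obtain ⟨S, hS, rfl⟩ := mem_image.1 hm
      exact ((hA S (mem_filter.1 hS).1).1 _ (hmin S hS)).1
    refine le_trans (sum_le_sum fun m hm => ?_ :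
      _ ≤ ∑ m ∈ B.image fun S : Finset ℕ => sInf (S : Set ℕ), K * (1 / ((m : ℝ) * log m))) ?_
    · have hm := hpr m hm
      have hm1 : (1 : ℝ) < m := by exact_mod_cast hm.one_lt
      have hlm : 0 < log (m : ℝ) := log_pos hm1
      set F := B.filter fun S : Finset ℕ => sInf (S : Set ℕ) = m with hF
      have hmF : ∀ S ∈ F, m ∈ S := fun S hS => by
        obtain ⟨a, c⟩ := mem_filter.1 hS
        exact c ▸ hmin S a
      have hleF : ∀ S ∈ F, ∀ p ∈ S, m ≤ p := fun S hS p hp => by
        rw [← (mem_filter.1 hS).2]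
        exact Nat.sInf_le (Finset.mem_coe.2 hp)
      have e : ∑ S ∈ F, 1 / (pr S : ℝ) =
          1 / (m : ℝ) * ∑ S ∈ F.image (fun S => S.erase m), 1 / (pr S : ℝ) := by
        rw [sum_image, mul_sum]
        · refine sum_congr rfl fun S hS => ?_
          rw [SM3_pr (hmF S hS), Nat.cast_mul, one_div_mul_one_div]
        · intro S hS T hT hST
          have hST' : S.erase m = T.erase m := hST
          rw [← insert_erase (hmF S hS), hST', insert_erase (hmF T hT)]
      have h3 := h2 m b G u (F.image fun S => S.erase m) hm.one_le hb hG hu (by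
        intro S' hS'
        obtain ⟨S, hS, rfl⟩ := mem_image.1 hS'
        obtain ⟨hSA, ho⟩ := mem_filter.1 (mem_filter.1 hS).1
        obtain ⟨a1, a2, a3, a4⟩ := hA S hSA
        have hc := card_erase_add_one (hmF S hS)
        rw [Nat.even_iff] at ho
        have hlt : ∀ p ∈ S.erase m, m < p := fun p hp =>
          lt_of_le_of_ne (hleF S hS p (mem_of_mem_erase hp)) (ne_of_mem_erase hp).symm
        have hlog : ∀ T : Finset ℕ, T ⊆ S → m ∈ T →
            log (pr T) = log m + log (pr (T.erase m)) := fun T hT hmT => by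
          have := pr_pos (S := T.erase m) fun p hp => h0 S hSA p (hT (mem_of_mem_erase hp))
          rw [SM3_pr hmT, Nat.cast_mul, log_mul (by positivity) (by positivity)]
        refine ⟨fun p hp => ⟨(a1 p (mem_of_mem_erase hp)).1, hlt p hp,
          (a1 p (mem_of_mem_erase hp)).2⟩, card_pos.1 (by omega), by rw [Nat.even_iff]; omega,
          fun p hp hl => ?_, ?_⟩
        · have hml : m ∈ lo S p := mem_filter.2 ⟨hmF S hS, hlt p hp⟩
          have e1 : lo (S.erase m) p = (lo S p).erase m := by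
            simp only [lo, filter_erase]
          have hc1 := card_erase_add_one hml
          have hc2 := SM3_card S p
          rw [e1] at hl ⊢
          have := SM3_near (h0 S hSA) a4 (mem_of_mem_erase hp) ⟨m, hmF S hS, hlt p hp⟩ (by omega)
          rw [hlog (lo S p) (filter_subset _ _) hml] at this
          linarith
        · rw [hlog S subset_rfl (hmF S hS)] at a3
          linarith)
      rw [e]
      have h4 : log (m : ℝ) ≤ log ((m : ℝ) + 1) := log_le_log (by linarith) (by linarith)
      calc _ ≤ 1 / (m : ℝ) * (C * (b + 1) ^ 2 * (u + 1) / (log (m : ℝ) * G ^ 2)) := by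
            refine mul_le_mul_of_nonneg_left (h3.trans ?_) (by positivity)
            gcongr
        _ = _ := by
            rw [hK]
            field_simp
    · rw [← mul_sum]
      exact mul_le_mul_of_nonneg_left (hp _ hpr) hK0
  rw [← sum_filter_add_sum_filter_not A (fun S => Even S.card)]
  refine (add_le_add hev hod).trans (le_of_eq ?_)
  rw [hK]
  field_simp

end Vale.Agent.P013
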