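import Vale.Agent.P013.Win

namespace Vale.Agent.P013

open Finset Real Filter

open Classical

theorem St0_two {w : ℝ} (hw : 1 ≤ w) : 2 ≤ exp w := by linarith [Real.add_one_le_exp w]

theorem St0_PL (w : ℝ) : PL w = P031.PP (exp w) := win_PL w

theorem St0_three {w : ℝ} {q : ℕ} (hq : q ∈ Od w) : (3 : ℝ) ≤ q := by
  rw [Od, St0_PL] at hq
  exact P031.mer_three_le hq

theorem St0_gs (N V : ℕ) (U : ℤ) {q : ℕ} (hq : (3 : ℝ) ≤ q) :
    0 ≤ gs N V U q ∧ gs N V U q ≤ 1 / ((q : ℝ) - 1) ∧ 1 / ((q : ℝ) - 1) ≤ 1 := by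
  have h1 : 0 < (q : ℝ) - 1 := by linarith
  refine ⟨?_, ?_, (div_le_one h1).2 (by linarith)⟩
  · unfold gs
    split_ifs <;> positivity
  · unfold gs
    split_ifs
    · positivity
    · exact one_div_le_one_div_of_le h1 (by linarith)
    · exact le_rfl

theorem GG_ge : ∃ c : ℝ, 0 < c ∧ ∀ (N V : ℕ) (U : ℤ) (w : ℝ), 1 ≤ w →
    c / w ≤ GG N V U w ∧ GG N V U w ≤ 1 := by
  obtain ⟨c, hc, h⟩ := P031.Py_ge
  refine ⟨c, hc, fun N V U w hw => ⟨?_, ?_⟩⟩
  · have h1 := h _ (St0_two hw)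
    rw [Real.log_exp, P031.Py, ← St0_PL] at h1
    refine h1.trans (prod_le_prod (fun q hq => ?_) fun q hq => ?_)
    · linarith [(St0_gs N V U (St0_three hq)).2.2]
    · linarith [(St0_gs N V U (St0_three hq)).2.1]
  · refine prod_le_one (fun q hq => ?_) fun q hq => ?_
    · linarith [(St0_gs N V U (St0_three hq)).2.1, (St0_gs N V U (St0_three hq)).2.2]
    · linarith [(St0_gs N V U (St0_three hq)).1]

theorem St0_tot {V : ℕ} (hV : 1 ≤ V) {S : Finset ℕ} (hS : ∀ q ∈ S, q.Prime) :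
    ∏ q ∈ S, (if q ∣ V then (1 - 1 / (q : ℝ))⁻¹ else 1) ≤ V / Nat.totient V := by
  have h1 : (Nat.totient V : ℝ) = V * ∏ p ∈ V.primeFactors, (1 - 1 / (p : ℝ)) := by
    have := congrArg (fun x : ℚ => (x : ℝ)) (Nat.totient_eq_mul_prod_factors V)
    simpa using this
  have V0 : (V : ℝ) ≠ 0 := by positivity
  have h2 : ∀ p ∈ V.primeFactors, 0 < 1 - 1 / (p : ℝ) ∧ 1 - 1 / (p : ℝ) ≤ 1 := by
    intro p hp
    have p2 : (2 : ℝ) ≤ p := by exact_mod_cast (Nat.prime_of_mem_primeFactors hp).two_le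
    have := one_div_le_one_div_of_le (by norm_num) p2
    have : 0 < 1 / (p : ℝ) := by positivity
    constructor <;> linarith
  rw [h1, div_mul_cancel_left₀ V0, ← prod_inv_distrib, ← prod_filter]
  refine prod_le_prod_of_subset_of_one_le (fun q hq => ?_) (fun q hq => ?_) fun q hq _ => ?_
  · exact Nat.mem_primeFactors.2 ⟨hS q (mem_filter.1 hq).1, (mem_filter.1 hq).2, by omega⟩
  · have := (h2 q (Nat.mem_primeFactors.2 ⟨hS q (mem_filter.1 hq).1, (mem_filter.1 hq).2,
      by omega⟩)).1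
    positivity
  · exact (one_le_inv₀ (h2 q hq).1).2 (h2 q hq).2

theorem GG_two : ∃ C : ℝ, 0 < C ∧ ∀ (N V : ℕ) (U : ℤ) (w : ℝ), 1 ≤ w → 1 ≤ V →
    IsCoprime (V : ℤ) U →
    ∏ q ∈ Od w, (1 - (if (q : ℤ) ∣ ZZ N V U ∨ q ∣ V then (1 : ℝ) else 2) / q) ≤
      C / w * (V / Nat.totient V) * GG N V U w := by
  obtain ⟨C, h⟩ := P031.prod_le
  obtain ⟨c, hc, hG⟩ := GG_ge
  refine ⟨2 * max C 1, by positivity, fun N V U w hw hV _ => ?_⟩
  have w0 : 0 < w := by linarith
  have h1 := h _ (St0_two hw)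
  rw [Real.log_exp, ← St0_PL] at h1
  have h2 : 2 ∈ PL w := mem_PL.2 ⟨Nat.prime_two, by
    have := Real.log_two_lt_d9
    push_cast
    linarith⟩
  rw [← mul_prod_erase _ _ h2] at h1
  have h3 : ∏ q ∈ Od w, (1 - 1 / (q : ℝ)) ≤ 2 * max C 1 / w := by
    have := div_le_div_of_nonneg_right (le_max_left C 1) w0.le
    rw [mul_div_assoc, Od]
    push_cast at h1
    linarith
  have h4 := St0_tot hV (S := Od w) fun q hq => (mem_PL.1 (mem_of_mem_erase hq)).1
  have hq1 : ∀ q ∈ Od w, 0 < 1 - 1 / (q : ℝ) ∧ 1 - 1 / (q : ℝ) ≤ 1 := by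
    intro q hq
    have q3 := St0_three hq
    have := one_div_le_one_div_of_le (by norm_num) q3
    have : 0 < 1 / (q : ℝ) := by positivity
    constructor <;> linarith
  have hq2 : ∀ q ∈ Od w, 1 ≤ (if q ∣ V then (1 - 1 / (q : ℝ))⁻¹ else 1) := by
    intro q hq
    split_ifs
    · exact (one_le_inv₀ (hq1 q hq).1).2 (hq1 q hq).2
    · exact le_rfl
  calc _ ≤ ∏ q ∈ Od w, ((1 - 1 / (q : ℝ)) * (if q ∣ V then (1 - 1 / (q : ℝ))⁻¹ else 1) *
        (1 - gs N V U q)) := by
        refine prod_le_prod (fun q hq => ?_) fun q hq => ?_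
        · have q3 := St0_three hq
          have q0 : (0 : ℝ) < q := by linarith
          split_ifs <;> exact sub_nonneg.2 ((div_le_one q0).2 (by linarith))
        · have q3 := St0_three hq
          have q1 := (hq1 q hq).1
          by_cases a : (q : ℤ) ∣ ZZ N V U
          · rw [if_pos (Or.inl a), gs, if_pos a, sub_zero, mul_one]
            exact le_mul_of_one_le_right q1.le (hq2 q hq)
          · by_cases b : q ∣ V
            · rw [if_pos (Or.inr b), gs, if_neg a, if_pos b, if_pos b, mul_inv_cancel₀ q1.ne', one_mul]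
            · rw [if_neg (by tauto), gs, if_neg a, if_neg b, if_neg b, mul_one]
              refine le_of_eq ?_
              have : (q : ℝ) - 1 ≠ 0 := by linarith
              field_simp
              ring
    _ ≤ _ := by
        rw [prod_mul_distrib, prod_mul_distrib]
        refine mul_le_mul_of_nonneg_right (mul_le_mul h3 h4 (prod_nonneg fun q hq => ?_)
          (by positivity)) (le_trans (by positivity) (hG N V U w hw).1)
        linarith [hq2 q hq]

theorem tot_mul {V : ℕ} (hV : 1 ≤ V) {S : Finset ℕ} (hS : ∀ q ∈ S, q.Prime) :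
    (1 : ℝ) / Nat.totient (V * pr S) =
      1 / Nat.totient V * ∏ q ∈ S, (if q ∣ V then 1 / (q : ℝ) else 1 / ((q : ℝ) - 1)) := by
  induction S using Finset.induction_on with
  | empty => simp [pr]
  | insert q S hq ih =>
    have hq' := hS q (mem_insert_self _ _)
    have hS' : ∀ p ∈ S, p.Prime := fun p hp => hS p (mem_insert_of_mem hp)
    have e : V * pr (insert q S) = q * (V * pr S) := by
      rw [pr, prod_insert hq, pr]; ring
    rw [e, prod_insert hq, mul_left_comm (1 / (Nat.totient V : ℝ)), ← ih hS']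
    split_ifs with h
    · rw [Nat.totient_mul_of_prime_of_dvd hq' (h.mul_right _)]
      push_cast
      rw [div_mul_div_comm, one_mul]
    · have h2 : ¬ q ∣ V * pr S := by
        intro h3
        rcases hq'.dvd_mul.1 h3 with h4 | h4
        · exact h h4
        · obtain ⟨p, hp, h5⟩ := (hq'.prime.dvd_finsetProd_iff _).1 h4
          exact hq (((Nat.prime_dvd_prime_iff_eq hq' (hS' p hp)).1 h5) ▸ hp)
      rw [Nat.totient_mul_of_prime_of_not_dvd hq' h2]
      push_cast [Nat.cast_sub hq'.one_le]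
      rw [div_mul_div_comm, one_mul]

theorem bigp (A : ℕ) : ∃ C : ℝ, 0 < C ∧ ∀ᶠ y : ℕ in atTop, ∀ P : Finset ℕ, (∀ p ∈ P, p.Prime) →
    (P.card : ℝ) ^ 2 ≤ y * L1 y ^ A →
    rc (P.filter fun p => p ∉ P1 y) ≤ C * (L2 y / L1 y) ∧ (P.card : ℝ) ≤ (y : ℝ) ^ (0.51 : ℝ) := by
  obtain ⟨C, hC, h⟩ := win
  refine ⟨4 * C * (A + 4) + 1, by positivity, ?_⟩
  filter_upwards [ev_lin 3 1 (ε := 1 / 2) (by norm_num), L1_top.eventually_ge_atTop 1,
    L2_top.eventually_ge_atTop 1, ev_L1 1 A (ε := 0.02) (by norm_num), eventually_ge_atTop 2]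
    with y h1 h2 h3 h4 hy P hP hc
  rw [pow_one] at h1
  have y0 : (0 : ℝ) < y := by exact_mod_cast (by omega : 0 < y)
  have hL : 0 < L1 y := by linarith
  constructor
  · set v : ℝ := L1 y / 2 + (A + 1 : ℕ) * L2 y with hv
    rw [rc, ← sum_filter_add_sum_filter_not _ (fun p : ℕ => log p ≤ v)]
    have a1 := h (L1 y / 4) (be y / 2) ((A + 3) * L2 y)
      ((P.filter fun p => p ∉ P1 y).filter fun p : ℕ => log p ≤ v) (by linarith) (by positivity) (by
        intro p hp
        obtain ⟨b1, b2⟩ := mem_filter.1 hp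
        obtain ⟨b3, b4⟩ := mem_filter.1 b1
        have b5 : be y / 2 < log p := by
          by_contra b6
          exact b4 (mem_PL.2 ⟨hP p b3, not_lt.1 b6⟩)
        unfold be at b5 ⊢
        rw [hv] at b2
        push_cast at b2
        refine ⟨hP p b3, by linarith, b5.le, by linarith⟩)
    have a2 : C * ((A + 3) * L2 y + 1) / (L1 y / 4) ≤ 4 * C * (A + 4) * (L2 y / L1 y) := by
      rw [← mul_div_assoc, div_div_eq_mul_div]
      refine div_le_div_of_nonneg_right ?_ hL.le
      nlinarith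
    have a3 : (P.card : ℝ) ≤ exp (L1 y / 2) * L1 y ^ A := by
      refine le_of_sq_le_sq ?_ (by positivity)
      rw [mul_pow, ← Real.exp_nat_mul, show ((2 : ℕ) : ℝ) * (L1 y / 2) = L1 y by push_cast; ring,
        exp_L1 (by omega)]
      refine hc.trans (mul_le_mul_of_nonneg_left ?_ y0.le)
      exact le_self_pow₀ (one_le_pow₀ h2) two_ne_zero
    have a4 : ∑ p ∈ (P.filter fun p => p ∉ P1 y).filter (fun p : ℕ => ¬ log p ≤ v), 1 / (p : ℝ) ≤
        P.card • exp (-v) := by
      refine (sum_le_card_nsmul _ _ (exp (-v)) fun p hp => ?_).trans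
        (nsmul_le_nsmul_left (exp_pos _).le
          (card_le_card ((filter_subset _ _).trans (filter_subset _ _))))
      obtain ⟨b1, b2⟩ := mem_filter.1 hp
      have p0 : (0 : ℝ) < p := by exact_mod_cast (hP p (mem_filter.1 b1).1).pos
      rw [one_div, ← Real.exp_log p0, ← Real.exp_neg]
      exact Real.exp_le_exp.2 (by linarith [not_le.1 b2])
    have a5 : exp (L1 y / 2) * L1 y ^ A * exp (-v) = 1 / L1 y := by
      rw [Real.exp_neg, hv, Real.exp_add, Real.exp_nat_mul, exp_L2 hy]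
      field_simp
      ring
    have a6 := mul_le_mul_of_nonneg_right a3 (exp_pos (-v)).le
    have a7 : 1 / L1 y ≤ L2 y / L1 y := div_le_div_of_nonneg_right h3 hL.le
    rw [nsmul_eq_mul] at a4
    unfold rc at a1
    linarith
  · refine le_of_sq_le_sq (hc.trans ?_) (by positivity)
    rw [← Real.rpow_natCast (_ ^ _), ← Real.rpow_mul y0.le,
      show (0.51 : ℝ) * (2 : ℕ) = 1 + 0.02 by norm_num, Real.rpow_add y0, Real.rpow_one]
    exact mul_le_mul_of_nonneg_left (by linarith) y0.le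

end Vale.Agent.P013
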