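import Vale.Agent.P013.An5
import Vale.Agent.P013.Bas

namespace Vale.Agent.P013

open Finset Real Filter

open Classical

theorem st1_diff : ∃ δ C : ℝ, 0 < δ ∧ δ ≤ 1 / 4 ∧ 0 < C ∧
    ∀ (q : ℕ) (a : ℤ) (l h : ℕ) (X : ℝ), 1 ≤ q → IsCoprime a (q : ℤ) → 1 ≤ l → l ≤ h →
    (h : ℝ) ≤ X →
    |∑ p ∈ (Ioc l h).filter (fun p : ℕ => p.Prime ∧ (q : ℤ) ∣ p - a), log p -
      ((h : ℝ) - l) / Nat.totient q| ≤ C * (1 + log q) * X ^ (1 - δ) := by
  obtain ⟨δ, C, h0, h1, h2, H⟩ := theta_ap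
  refine ⟨δ, 2 * C, h0, h1, by positivity, fun q a l h X hq ha hl hlh hX => ?_⟩
  have l1 : (1 : ℝ) ≤ l := by exact_mod_cast hl
  have lh : (l : ℝ) ≤ h := by exact_mod_cast hlh
  have A := H q a l hq ha l1
  have B := H q a h hq ha (l1.trans lh)
  rw [Nat.floor_natCast] at A B
  have hs : ∑ p ∈ (Icc 1 h).filter (fun p : ℕ => p.Prime ∧ (q : ℤ) ∣ p - a), log (p : ℝ) =
      ∑ p ∈ (Icc 1 l).filter (fun p : ℕ => p.Prime ∧ (q : ℤ) ∣ p - a), log (p : ℝ) +
      ∑ p ∈ (Ioc l h).filter (fun p : ℕ => p.Prime ∧ (q : ℤ) ∣ p - a), log (p : ℝ) := by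
    rw [← sum_union, ← filter_union]
    · congr 2
      ext p
      simp only [mem_union, mem_Icc, mem_Ioc]
      omega
    · refine disjoint_filter_filter ?_
      rw [disjoint_left]
      intro p hp hp'
      simp only [mem_Icc, mem_Ioc] at hp hp'
      omega
  have lq : 0 ≤ log (q : ℝ) := log_natCast_nonneg q
  have e1 : (l : ℝ) ^ (1 - δ) ≤ X ^ (1 - δ) :=
    rpow_le_rpow (by linarith) (lh.trans hX) (by linarith)
  have e2 : (h : ℝ) ^ (1 - δ) ≤ X ^ (1 - δ) := rpow_le_rpow (by linarith) hX (by linarith)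
  have c0 : 0 ≤ C * (1 + log q) := by positivity
  have f1 := mul_le_mul_of_nonneg_left e1 c0
  have f2 := mul_le_mul_of_nonneg_left e2 c0
  rw [hs] at B
  rw [sub_div]
  have A' := abs_le.1 A
  have B' := abs_le.1 B
  rw [abs_le]
  constructor <;> nlinarith [A'.1, A'.2, B'.1, B'.2]

theorem st1_bij {s : ℤ} (hs : s = 1 ∨ s = -1) (N : ℕ) {V : ℕ} (hV : 1 ≤ V) (U : ℤ)
    (n0 m d l h : ℕ)
    (H : ∀ n : ℤ, (n0 ≤ n ∧ n < n0 + m) ↔ (l < s * (V * n - U) ∧ s * (V * n - U) ≤ h)) :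
    ∑ n ∈ (Ico n0 (n0 + m)).filter (fun n => (ell s V U n).toNat.Prime ∧ d ∣ N + n),
        log (ell s V U n) =
      ∑ p ∈ (Ioc l h).filter (fun p : ℕ => p.Prime ∧
        ((V * d : ℕ) : ℤ) ∣ p - (-s * ZZ N V U)), log (p : ℝ) := by
  have ss : s * s = 1 := by rcases hs with rfl | rfl <;> norm_num
  have s0 : s ≠ 0 := by rcases hs with rfl | rfl <;> norm_num
  have V0 : (V : ℤ) ≠ 0 := by exact_mod_cast (by omega : V ≠ 0)
  have key : ∀ n ∈ Ico n0 (n0 + m), (l : ℤ) < ell s V U n ∧ ell s V U n ≤ h := fun n hn => by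
    rw [mem_Ico] at hn
    exact (H n).1 ⟨by exact_mod_cast hn.1, by exact_mod_cast hn.2⟩
  refine sum_bij (fun n _ => (ell s V U n).toNat) ?_ ?_ ?_ ?_
  · intro n hn
    rw [mem_filter] at hn ⊢
    obtain ⟨k1, k2⟩ := key n hn.1
    have e : ((ell s V U n).toNat : ℤ) = ell s V U n := Int.toNat_of_nonneg (by omega)
    refine ⟨mem_Ioc.2 ⟨by omega, by omega⟩, hn.2.1, ?_⟩
    obtain ⟨k, hk⟩ := hn.2.2
    have hk' : (N : ℤ) + n = d * k := by exact_mod_cast hk
    refine ⟨s * k, ?_⟩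
    rw [e, ell, ZZ]
    push_cast
    linear_combination s * V * hk'
  · intro n hn n' hn' e
    obtain ⟨k1, -⟩ := key n (mem_filter.1 hn).1
    obtain ⟨k2, -⟩ := key n' (mem_filter.1 hn').1
    have e' : ell s V U n = ell s V U n' := by omega
    rw [ell, ell] at e'
    have e2 := mul_left_cancel₀ s0 e'
    have e3 : (V : ℤ) * n = V * n' := by linarith
    exact_mod_cast mul_left_cancel₀ V0 e3
  · intro p hp
    rw [mem_filter, mem_Ioc] at hp
    obtain ⟨⟨p1, p2⟩, p3, k, hk⟩ := hp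
    rw [ZZ] at hk
    push_cast at hk
    have e : s * (V * (s * d * k - N) - U) = p := by
      linear_combination (V * d * k : ℤ) * ss - hk
    obtain ⟨a1, a2⟩ := (H (s * d * k - N)).2 (by rw [e]; constructor <;> omega)
    obtain ⟨n, hn⟩ : ∃ n : ℕ, (n : ℤ) = s * d * k - N := ⟨(s * d * k - N).toNat, by omega⟩
    have e2 : ell s V U n = p := by rw [ell, hn, e]
    refine ⟨n, mem_filter.2 ⟨mem_Ico.2 ⟨by omega, by omega⟩, ?_, ?_⟩, ?_⟩
    · rw [e2]
      simpa using p3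
    · have : (d : ℤ) ∣ ((N + n : ℕ) : ℤ) := ⟨s * k, by push_cast; linear_combination hn⟩
      exact_mod_cast this
    · rw [e2]
      simp
  · intro n hn
    obtain ⟨k1, -⟩ := key n (mem_filter.1 hn).1
    have e : ((ell s V U n).toNat : ℤ) = ell s V U n := Int.toNat_of_nonneg (by omega)
    congr 1
    rw [← e]
    simp only [Int.cast_natCast, Int.toNat_natCast]

theorem st_ap : ∃ δ C : ℝ, 0 < δ ∧ δ ≤ 1 / 4 ∧ 0 < C ∧
    ∀ (s : ℤ) (N V : ℕ) (U : ℤ) (n0 m d : ℕ) (X : ℝ), (s = 1 ∨ s = -1) → 1 ≤ V → 1 ≤ d →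
    IsCoprime (V : ℤ) U → IsCoprime (ZZ N V U) (d : ℤ) → 2 ≤ ell s V U n0 →
    2 ≤ ell s V U (n0 + m) → (ell s V U n0 : ℝ) ≤ X → (ell s V U (n0 + m) : ℝ) ≤ X →
    |∑ n ∈ (Ico n0 (n0 + m)).filter (fun n => (ell s V U n).toNat.Prime ∧ d ∣ N + n),
        log (ell s V U n) - (V : ℝ) * m / Nat.totient (V * d)| ≤
      C * (1 + log ((V : ℝ) * d)) * X ^ (1 - δ) := by
  obtain ⟨δ, C, h0, h1, h2, H⟩ := st1_diff
  refine ⟨δ, C, h0, h1, h2, fun s N V U n0 m d X hs hV hd c1 c2 a1 a2 x1 x2 => ?_⟩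
  have V1 : (1 : ℤ) ≤ V := by exact_mod_cast hV
  have c3 : IsCoprime (ZZ N V U) (V : ℤ) := by
    rw [ZZ]
    exact (IsCoprime.mul_add_left_left_iff).2 c1.symm
  have c4 : IsCoprime (-s * ZZ N V U) ((V * d : ℕ) : ℤ) := by
    push_cast
    rcases hs with rfl | rfl
    · simpa using (c3.mul_right c2).neg_left
    · simpa using c3.mul_right c2
  have q1 : 1 ≤ V * d := Nat.mul_pos hV hd
  obtain ⟨l, h, l1, lh, hX, e, B⟩ : ∃ l h : ℕ, 1 ≤ l ∧ l ≤ h ∧ (h : ℝ) ≤ X ∧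
      (h : ℤ) - l = V * m ∧ ∀ n : ℤ, (n0 ≤ n ∧ n < n0 + m) ↔
        (l < s * (V * n - U) ∧ s * (V * n - U) ≤ h) := by
    have m0 : (0 : ℤ) ≤ V * m := by positivity
    rcases hs with rfl | rfl
    · obtain ⟨l, hl⟩ : ∃ l : ℕ, (l : ℤ) = ell 1 V U n0 - 1 := ⟨(ell 1 V U n0 - 1).toNat, by omega⟩
      obtain ⟨h, hh⟩ : ∃ h : ℕ, (h : ℤ) = ell 1 V U (n0 + m) - 1 :=
        ⟨(ell 1 V U (n0 + m) - 1).toNat, by omega⟩
      have e : (h : ℤ) - l = V * m := by
        rw [hl, hh, ell, ell]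
        push_cast
        ring
      refine ⟨l, h, by omega, by omega, ?_, e, fun n => ?_⟩
      · have : (h : ℝ) = ell 1 V U (n0 + m) - 1 := by exact_mod_cast hh
        linarith
      · rw [hl, hh, ell, ell]
        push_cast
        constructor
        · rintro ⟨b1, b2⟩
          constructor <;> nlinarith
        · rintro ⟨b1, b2⟩
          constructor
          · by_contra b3
            nlinarith
          · by_contra b3
            nlinarith
    · obtain ⟨l, hl⟩ : ∃ l : ℕ, (l : ℤ) = ell (-1) V U (n0 + m) :=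
        ⟨(ell (-1) V U (n0 + m)).toNat, by omega⟩
      obtain ⟨h, hh⟩ : ∃ h : ℕ, (h : ℤ) = ell (-1) V U n0 := ⟨(ell (-1) V U n0).toNat, by omega⟩
      have e : (h : ℤ) - l = V * m := by
        rw [hl, hh, ell, ell]
        push_cast
        ring
      refine ⟨l, h, by omega, by omega, ?_, e, fun n => ?_⟩
      · have : (h : ℝ) = ell (-1) V U n0 := by exact_mod_cast hh
        linarith
      · rw [hl, hh, ell, ell]
        push_cast
        constructor
        · rintro ⟨b1, b2⟩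
          constructor <;> nlinarith
        · rintro ⟨b1, b2⟩
          constructor
          · by_contra b3
            nlinarith
          · by_contra b3
            nlinarith
  have K := H (V * d) _ l h X q1 c4 l1 lh hX
  have e' : (h : ℝ) - l = V * m := by exact_mod_cast e
  rw [st1_bij hs N hV U n0 m d l h B, ← e']
  simpa only [Nat.cast_mul] using K

end Vale.Agent.P013
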