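import Vale.Agent.P013.St0
import Vale.Agent.P013.St1
import Vale.Agent.P013.FL2

namespace Vale.Agent.P013

open Finset Real Filter

open Classical

theorem St2_od {w : ℝ} {p : ℕ} (hp : p ∈ Od w) : p.Prime ∧ 3 ≤ p ∧ (p : ℝ) ≤ exp w := by
  obtain ⟨h1, h2⟩ := mem_erase.1 hp
  obtain ⟨h3, h4⟩ := mem_PL.1 h2
  have := h3.two_le
  refine ⟨h3, by omega, ?_⟩
  rwa [log_le_iff_le_exp (by exact_mod_cast h3.pos)] at h4

theorem St2_gs (N V : ℕ) (U : ℤ) {p : ℕ} (hp : 3 ≤ p) :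
    0 ≤ gs N V U p ∧ gs N V U p ≤ 2 / p ∧ gs N V U p ≤ 2 / 3 := by
  have h : (3 : ℝ) ≤ p := by exact_mod_cast hp
  unfold gs
  split_ifs
  · exact ⟨le_rfl, by positivity, by norm_num⟩
  · refine ⟨by positivity, by gcongr; norm_num, ?_⟩
    rw [div_le_div_iff₀ (by linarith) (by norm_num)]
    linarith
  · refine ⟨div_nonneg zero_le_one (by linarith), ?_, ?_⟩
    · rw [div_le_div_iff₀ (by linarith) (by linarith)]
      linarith
    · rw [div_le_div_iff₀ (by linarith) (by norm_num)]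
      linarith

theorem St2_sieve (ok : Finset ℕ → ℕ → Prop) (s : ℤ) (N V : ℕ) (U : ℤ) (n0 m : ℕ) (w : ℝ) :
    ∑ S ∈ AS ok 0 (Od w), (-1 : ℝ) ^ S.card * ∑ n ∈ (Ico n0 (n0 + m)).filter
        (fun n => (ell s V U n).toNat.Prime ∧ pr S ∣ N + n), log (ell s V U n) ≤
      ∑ n ∈ Sur s N V U n0 m w, log (ell s V U n) := by
  simp only [Sur, sum_filter, mul_sum]
  rw [sum_comm]
  refine sum_le_sum fun n _ => ?_
  by_cases hp : (ell s V U n).toNat.Prime
  · have h := mul_le_mul_of_nonneg_right (si_lower ok (Od w) fun q => q ∣ N + n)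
      (log_intCast_nonneg (ell s V U n))
    simp only [hp, true_and]
    rw [sum_mul] at h
    refine le_trans (le_of_eq (sum_congr rfl fun S hS => ?_)) (h.trans (le_of_eq ?_))
    · have hS' : ∀ p ∈ S, p.Prime := fun p hp =>
        (St2_od (mem_powerset.1 (mem_filter.1 hS).1 hp)).1
      simp only [pr_dvd_iff hS']
      split_ifs <;> simp
    · split_ifs <;> simp
  · simp [hp]

theorem St2_zero {s : ℤ} {N V : ℕ} {U : ℤ} {n q : ℕ} (hq : q.Prime) (h1 : (q : ℤ) ∣ ZZ N V U)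
    (h2 : q ∣ N + n) (hp : (ell s V U n).toNat.Prime) : ell s V U n = q := by
  have h3 : (q : ℤ) ∣ ell s V U n := by
    have e : ell s V U n = s * (V * ((N + n : ℕ) : ℤ) - ZZ N V U) := by
      unfold ell ZZ
      push_cast
      ring
    rw [e]
    exact Dvd.dvd.mul_left (dvd_sub (Dvd.dvd.mul_left (Int.natCast_dvd_natCast.2 h2) _) h1) _
  have h4 : ((ell s V U n).toNat : ℤ) = ell s V U n := by
    have := hp.pos
    omega
  rw [← h4] at h3 ⊢
  rw [(Nat.prime_dvd_prime_iff_eq hq hp).1 (Int.natCast_dvd_natCast.1 h3)]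

theorem St2_num {δ C c t θ L y V : ℝ} {s0 : ℕ} (hδ : 0 < δ) (hδ1 : δ ≤ 1 / 4) (hC : 0 < C)
    (hc : 0 < c) (hs1 : (0 : ℝ) ≤ s0) (ht : 0 < t) (hθ : 0 < θ) (hθt : θ ≤ t)
    (ht1 : t * (1 + 1.3 * s0) ≤ δ / 2) (hy4 : 1 ≤ L) (hexp : exp L = y) (hV1 : 1 ≤ V)
    (hVy : V ≤ y ^ θ) (hy1 : 48 * C / c * L ^ 2 ≤ y ^ (δ / 2)) :
    exp (1.3 * (t * L)) ^ s0 * (C * (1 + log (V * exp (1.3 * (t * L)) ^ s0)) *
      (3 * y ^ (1 + θ)) ^ (1 - δ)) ≤ c / L * (y / 8) := by
  have hpow : ∀ a : ℝ, y ^ a = exp (L * a) := fun a => by rw [← hexp, exp_mul]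
  have hL0 : 0 < L := by linarith
  have hy0 : 0 < y := hexp ▸ exp_pos _
  have k0 : s0 * (1.3 * (t * L)) + t * L ≤ δ / 2 * L := by
    have := mul_le_mul_of_nonneg_right ht1 hL0.le
    linarith
  have k1 : L * θ ≤ t * L := by nlinarith
  rw [← exp_nat_mul]
  generalize hx : s0 * (1.3 * (t * L)) = x at k0 ⊢
  have h1 : log (V * exp x) ≤ L := by
    rw [log_le_iff_le_exp (by positivity)]
    calc V * exp x ≤ exp (L * θ) * exp x := by rw [← hpow]; gcongr
      _ ≤ exp L := by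
        rw [← exp_add, exp_le_exp]
        nlinarith
  have h2 : (3 * y ^ (1 + θ)) ^ (1 - δ) ≤ 3 * exp (L * ((1 + θ) * (1 - δ))) := by
    rw [mul_rpow (by norm_num) (by positivity), hpow, ← exp_mul, mul_assoc]
    gcongr
    calc (3 : ℝ) ^ (1 - δ) ≤ 3 ^ (1 : ℝ) :=
          rpow_le_rpow_of_exponent_le (by norm_num) (by linarith)
      _ = 3 := rpow_one _
  have h3 : exp x * exp (L * ((1 + θ) * (1 - δ))) * exp (L * (δ / 2)) ≤ y := by
    rw [← exp_add, ← exp_add, ← hexp, exp_le_exp]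
    have : (1 + θ) * (1 - δ) ≤ 1 - δ + t := by nlinarith
    have := mul_le_mul_of_nonneg_left this hL0.le
    linarith
  rw [hpow] at hy1
  have h4 : exp x * (C * (1 + log (V * exp x)) * (3 * y ^ (1 + θ)) ^ (1 - δ)) ≤
      6 * C * L * (exp x * exp (L * ((1 + θ) * (1 - δ)))) := by
    calc _ ≤ exp x * (C * (L + L) * (3 * exp (L * ((1 + θ) * (1 - δ))))) := by gcongr
      _ = _ := by ring
  refine h4.trans ?_
  have h5 : 0 < exp x * exp (L * ((1 + θ) * (1 - δ))) := by positivity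
  have h6 := (mul_le_mul_of_nonneg_left hy1 h5.le).trans h3
  calc _ = c / L * ((exp x * exp (L * ((1 + θ) * (1 - δ))) *
        (48 * C / c * L ^ 2)) / 8) := by field_simp; ring
    _ ≤ _ := by gcongr

theorem St2_fin {y m a G σ e F : ℝ} (hy : 17 ≤ y) (hm : y - 1 ≤ 2 * m) (ha : 1 ≤ a) (he : 0 ≤ e)
    (hG : e ≤ G) (hσ : 1 / 2 * G ≤ σ) (hF : F ≤ e * (y / 8)) :
    y * a * G / 16 ≤ a * m * σ - F := by
  have k1 : a * m * (1 / 2 * G) ≤ a * m * σ :=
    mul_le_mul_of_nonneg_left hσ (mul_nonneg (by linarith) (by linarith))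
  have k2 : e ≤ a * G := by nlinarith
  have k3 : e * (y / 8) ≤ a * G * (m / 2 - y / 16) :=
    mul_le_mul k2 (by linarith) (by positivity) (by linarith)
  nlinarith

theorem st_low : ∃ t0 : ℝ, 0 < t0 ∧ ∀ t θ : ℝ, 0 < t → t ≤ t0 → 0 < θ → θ ≤ t →
    ∀ᶠ y : ℕ in atTop, ∀ (s : ℤ) (N V : ℕ) (U : ℤ) (n0 : ℕ), StH θ y s V U n0 →
    (y : ℝ) * (V / Nat.totient V) * GG N V U (1.3 * (t * L1 y)) / 16 ≤
      ∑ n ∈ Sur s N V U n0 (y / 2) (1.3 * (t * L1 y)), log (ell s V U n) := by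
  obtain ⟨δ, C, hδ, hδ1, hC, hap⟩ := st_ap
  obtain ⟨b, s0, hb, hs0, hfl⟩ := fl
  obtain ⟨c, hc, hGG⟩ := GG_ge
  have hs1 : (0 : ℝ) ≤ s0 := Nat.cast_nonneg _
  refine ⟨δ / (2 * (1 + 1.3 * s0)), by positivity, fun t θ ht ht0 hθ hθt => ?_⟩
  have ht1 : t * (1 + 1.3 * s0) ≤ δ / 2 := by
    rw [le_div_iff₀ (by positivity)] at ht0
    linarith
  have ht2 : t ≤ 1 / 8 := by nlinarith
  filter_upwards [ev_L1 (48 * C / c) 2 (half_pos hδ), eventually_ge_atTop 17,
    L1_top.eventually_ge_atTop (1 / t), L1_top.eventually_ge_atTop 1] with y hy1 hy2 hy3 hy4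
  intro s N V U n0 ⟨hs, hV, hVy, hVU, hell⟩
  have hy : (17 : ℝ) ≤ y := by exact_mod_cast hy2
  have hy0 : (0 : ℝ) < y := by linarith
  set L := L1 y with hL
  have hexp : exp L = y := exp_L1 (by omega)
  have hpow : ∀ a : ℝ, (y : ℝ) ^ a = exp (L * a) := fun a => by rw [← hexp, exp_mul]
  have htL : 1 ≤ t * L := by
    rw [div_le_iff₀ ht] at hy3
    linarith
  set w : ℝ := 1.3 * (t * L) with hw
  have hw1 : 1 ≤ w := by linarith
  have hwL : w ≤ L / 2 := by nlinarith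
  have hz : 2 ≤ exp w := by linarith [add_one_le_exp w]
  set D : ℝ := exp w ^ s0 with hD
  have hD1 : 1 ≤ D := one_le_pow₀ (by linarith)
  have hzy : exp w < y / 4 := by
    have h1 : exp w ≤ exp (L / 2) := exp_le_exp.2 hwL
    have h2 : exp (L / 2) * exp (L / 2) = y := by rw [← exp_add, add_halves, hexp]
    have h3 : 0 < exp (L / 2) := exp_pos _
    have h4 : 4 < exp (L / 2) := by nlinarith
    nlinarith
  have hP : ∀ p ∈ Od w, p.Prime ∧ (p : ℝ) ≤ exp w := fun p hp => ⟨(St2_od hp).1, (St2_od hp).2.2⟩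
  have hlow := (hfl (exp w) D (Od w) (gs N V U) hz le_rfl fun p hp =>
    ⟨(hP p hp).1, (hP p hp).2, St2_gs N V U (St2_od hp).2.1⟩).1
  have hA : ∀ S ∈ AS (okF b D) 0 (Od w), (∀ p ∈ S, p ∈ Od w) ∧ (pr S : ℝ) ≤ D := fun S hS =>
    ⟨fun p hp => mem_powerset.1 (mem_filter.1 hS).1 hp,
      fl_alive hb hs0 (by norm_num) hz le_rfl hP hS⟩
  have hcard : ((AS (okF b D) 0 (Od w)).card : ℝ) ≤ D := by
    have := card_fam (A := AS (okF b D) 0 (Od w)) (X := D) (by linarith) 1 one_pos fun S hS =>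
      ⟨fun p hp => (hP p ((hA S hS).1 p hp)).1, (hA S hS).2, one_dvd _⟩
    simpa using this
  have hV1 : (1 : ℝ) ≤ V := by exact_mod_cast hV
  have hφ : (0 : ℝ) < Nat.totient V := by exact_mod_cast Nat.totient_pos.2 hV
  have hφ1 : (1 : ℝ) ≤ V / Nat.totient V := by
    rw [le_div_iff₀ hφ, one_mul]
    exact_mod_cast Nat.totient_le V
  set m : ℕ := y / 2 with hm
  set E : ℝ := C * (1 + log ((V : ℝ) * D)) * (3 * (y : ℝ) ^ (1 + θ)) ^ (1 - δ) with hE
  have hlog0 : 0 ≤ log ((V : ℝ) * D) := log_nonneg (by nlinarith)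
  have hE0 : 0 ≤ E := by positivity
  have hterm : ∀ S ∈ AS (okF b D) 0 (Od w), |∑ n ∈ (Ico n0 (n0 + m)).filter
      (fun n => (ell s V U n).toNat.Prime ∧ pr S ∣ N + n), log (ell s V U n) -
      (V : ℝ) / Nat.totient V * m * ∏ q ∈ S, gs N V U q| ≤ E := by
    intro S hS
    have hS' : ∀ p ∈ S, p.Prime := fun p hp => (hP p ((hA S hS).1 p hp)).1
    by_cases hq : ∃ q ∈ S, (q : ℤ) ∣ ZZ N V U
    · obtain ⟨q, hq, hqZ⟩ := hq
      rw [prod_eq_zero hq (by simp [gs, hqZ]), sum_eq_zero, mul_zero, sub_zero, abs_zero]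
      · exact hE0
      · intro n hn
        exfalso
        obtain ⟨h1, h2, h3⟩ := mem_filter.1 hn
        obtain ⟨h4, h5⟩ := mem_Ico.1 h1
        have h6 := (hell n h4 h5.le).1
        rw [St2_zero (hS' q hq) hqZ ((pr_dvd_iff hS' _).1 h3 q hq) h2] at h6
        have h7 := (hP q ((hA S hS).1 q hq)).2
        push_cast at h6
        linarith
    · push Not at hq
      have hpos : 0 < pr S := pr_pos fun p hp => (hS' p hp).ne_zero
      have hco : IsCoprime (ZZ N V U) (pr S : ℤ) := by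
        rw [pr, Nat.cast_prod]
        exact IsCoprime.prod_right fun p hp =>
          (((Nat.prime_iff_prime_int.1 (hS' p hp)).irreducible.coprime_iff_not_dvd).2
            (hq p hp)).symm
      have a1 := hell n0 le_rfl (by omega)
      have a2 := hell (n0 + m) (by omega) le_rfl
      have b1 : (2 : ℤ) ≤ ell s V U n0 := by
        have : (2 : ℝ) ≤ ell s V U n0 := by linarith [a1.1]
        exact_mod_cast this
      have b2 : (2 : ℤ) ≤ ell s V U (n0 + m) := by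
        have : (2 : ℝ) ≤ ell s V U (n0 + m) := by linarith [a2.1]
        exact_mod_cast this
      have h1 := hap s N V U n0 m (pr S) _ hs hV hpos hVU hco b1 b2 a1.2 a2.2
      have e : (V : ℝ) * m / Nat.totient (V * pr S) =
          (V : ℝ) / Nat.totient V * m * ∏ q ∈ S, gs N V U q := by
        rw [div_eq_mul_one_div, tot_mul hV hS', prod_congr rfl
          (fun q hq' => (by simp [gs, hq q hq'] : gs N V U q =
            if q ∣ V then 1 / (q : ℝ) else 1 / ((q : ℝ) - 1)))]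
        ring
      rw [e] at h1
      refine h1.trans ?_
      have : (0 : ℝ) < pr S := by exact_mod_cast hpos
      have := (hA S hS).2
      rw [hE]
      gcongr
  have hmain : (V : ℝ) / Nat.totient V * m * SV (okF b D) 0 (Od w) (gs N V U) - D * E ≤
      ∑ n ∈ Sur s N V U n0 m w, log (ell s V U n) := by
    refine le_trans ?_ (St2_sieve (okF b D) s N V U n0 m w)
    have : ∑ S ∈ AS (okF b D) 0 (Od w), E ≤ D * E := by
      rw [sum_const, nsmul_eq_mul]
      gcongr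
    rw [SV, mul_sum]
    refine le_trans (sub_le_sub_left this _) ?_
    rw [← sum_sub_distrib]
    refine sum_le_sum fun S hS => ?_
    have h1 := abs_le.1 (hterm S hS)
    rcases neg_one_pow_eq_or ℝ S.card with h | h <;> rw [h] <;> linarith [h1.1, h1.2]
  have hDE : D * E ≤ c / L * (y / 8) :=
    St2_num hδ hδ1 hC hc hs1 ht hθ hθt ht1 hy4 hexp hV1 hVy hy1
  have hG := (hGG N V U w hw1).1
  have hG1 : c / L ≤ GG N V U w :=
    le_trans (div_le_div_of_nonneg_left hc.le (by linarith) (by linarith)) hG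
  have hm1 : (y : ℝ) - 1 ≤ 2 * m := by
    have : y ≤ 2 * m + 1 := by omega
    have : (y : ℝ) ≤ 2 * m + 1 := by exact_mod_cast this
    linarith
  exact le_trans (St2_fin hy hm1 hφ1 (by positivity) hG1 hlow hDE) hmain

end Vale.Agent.P013
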